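import Vale.Agent.P218ST.Hub
import Vale.Agent.P218HB.Lin
import Vale.Agent.P218GS.VF
import Vale.Agent.P218VA.Area

/-! # Growth of the velocities, and their pairing with the multiplier functions -/

open Set Filter Topology Metric MeasureTheory
open scoped Matrix RealInnerProductSpace

set_option linter.unusedSectionVars false

namespace Vale.Agent.P218UX

open Vale.Agent.P218GA Vale.Agent.P218HB Vale.Agent.P272.K.LIN Vale.Agent.P218GE
open Vale.Agent.P218ST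
open Vale.Agent.P218SQ (Pt Adm ofReal)
open Vale.Agent.P218VA (E2 C3 CkAt coreK Yp)
open Vale.Agent.P218LB (lvl)
open Vale.Agent.P218XI (Frame co si rt kap cylF coneF U0)
open Vale.Agent.P218ND (reV imV)

section lip
variable {P V : Type} [NormedAddCommGroup P] [NormedAddCommGroup V]

/-- a Lipschitz bound at the base parameter -/
def LipQ (c : ℕ × P → V) (K : ℝ) : Prop :=
  ∀ᶠ q : ℕ × P in atTop ×ˢ 𝓝 0, ‖c q - c (q.1, 0)‖ ≤ K * ‖q.2‖

lemma tendsto_base : Tendsto (fun q : ℕ × P => (q.1, (0 : P))) (atTop ×ˢ 𝓝 0) (atTop ×ˢ 𝓝 0) :=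
  tendsto_fst.prodMk tendsto_const_nhds

lemma norm_cx_le (v : E3) : ‖cx v‖ ≤ ‖v‖ :=
  (pi_norm_le_iff_of_nonneg (norm_nonneg _)).2 fun i => by
    simpa [cx] using PiLp.norm_apply_le v i

lemma norm_mulVec_le {A : Matrix (Fin 3) (Fin 3) ℂ} {K : ℝ} (h : ∀ a b, ‖A a b‖ ≤ K) (v : C3) :
    ‖A *ᵥ v‖ ≤ 3 * K * ‖v‖ := by
  have h0 := (norm_nonneg _).trans (h 0 0)
  refine (pi_norm_le_iff_of_nonneg (by positivity)).2 fun a => ?_
  have k : ∀ b, ‖A a b * v b‖ ≤ K * ‖v‖ := fun b => (norm_mul_le _ _).trans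
    (mul_le_mul (h a b) (norm_le_pi_norm v b) (norm_nonneg _) h0)
  rw [Matrix.mulVec, dotProduct, Fin.sum_univ_three]
  linarith [norm_add₃_le (a := A a 0 * v 0) (b := A a 1 * v 1) (c := A a 2 * v 2), k 0, k 1, k 2]

lemma ev_lt {f : ℂ × ℂ → ℂ} {t x : ℝ} (hf : ContinuousAt f (t, t)) (e : f (t, t) = x)
    (hx : |x| ≤ 2) : ∀ᶠ p in 𝓝 ((t : ℂ), (t : ℂ)), ‖f p‖ ≤ 3 :=
  hf.norm.eventually_le_const (by
    simp only [e, Complex.norm_real, Real.norm_eq_abs]; linarith)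

lemma ev_cs (t : ℝ) : ∀ᶠ p : ℂ × ℂ in 𝓝 ((t : ℂ), (t : ℂ)), ‖co p.1‖ ≤ 3 ∧ ‖si p.1‖ ≤ 3 ∧
    ‖co p.1 - co p.2‖ ≤ 3 * ‖p.1 - p.2‖ ∧ ‖si p.1 - si p.2‖ ≤ 3 * ‖p.1 - p.2‖ := by
  have h0 := P218XI.one_add_sq_ne t
  have h1 : 0 < 1 + t ^ 2 := by positivity
  have h2 : 0 < (1 + t ^ 2) * (1 + t ^ 2) := by positivity
  have n1 : ∀ᶠ p : ℂ × ℂ in 𝓝 ((t : ℂ), (t : ℂ)), 1 + p.1 ^ 2 ≠ 0 :=
    ContinuousAt.eventually_ne (by fun_prop) h0
  have n2 : ∀ᶠ p : ℂ × ℂ in 𝓝 ((t : ℂ), (t : ℂ)), 1 + p.2 ^ 2 ≠ 0 :=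
    ContinuousAt.eventually_ne (by fun_prop) h0
  have a1 := ev_lt (f := fun p => (1 - p.1 ^ 2) / (1 + p.1 ^ 2)) (x := (1 - t ^ 2) / (1 + t ^ 2))
    (by fun_prop (disch := exact h0)) (by simp)
    (by rw [abs_div, abs_of_pos h1, div_le_iff₀ h1, abs_le]; constructor <;> nlinarith)
  have a2 := ev_lt (f := fun p => 2 * p.1 / (1 + p.1 ^ 2)) (x := 2 * t / (1 + t ^ 2))
    (by fun_prop (disch := exact h0)) (by simp)
    (by rw [abs_div, abs_of_pos h1, div_le_iff₀ h1, abs_le]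
        constructor <;> nlinarith [sq_nonneg (t - 1), sq_nonneg (t + 1)])
  have a3 := ev_lt (f := fun p => -2 * (p.1 + p.2) / ((1 + p.1 ^ 2) * (1 + p.2 ^ 2)))
    (x := -2 * (t + t) / ((1 + t ^ 2) * (1 + t ^ 2)))
    (by fun_prop (disch := exact mul_ne_zero h0 h0)) (by simp)
    (by rw [abs_div, abs_of_pos h2, div_le_iff₀ h2, abs_le]
        constructor <;> nlinarith [sq_nonneg (t - 1), sq_nonneg (t + 1), sq_nonneg (t ^ 2)])
  have a4 := ev_lt (f := fun p => 2 * (1 - p.1 * p.2) / ((1 + p.1 ^ 2) * (1 + p.2 ^ 2)))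
    (x := 2 * (1 - t * t) / ((1 + t ^ 2) * (1 + t ^ 2)))
    (by fun_prop (disch := exact mul_ne_zero h0 h0)) (by simp)
    (by rw [abs_div, abs_of_pos h2, div_le_iff₀ h2, abs_le]
        constructor <;> nlinarith [sq_nonneg t, sq_nonneg (t ^ 2)])
  filter_upwards [n1, n2, a1, a2, a3, a4] with p k1 k2 b1 b2 b3 b4
  refine ⟨b1, b2, ?_, ?_⟩
  · refine le_trans (le_of_eq ?_) (mul_le_mul_of_nonneg_right b3 (norm_nonneg _))
    rw [← norm_mul, co, co]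
    congr 1
    field_simp
    ring
  · refine le_trans (le_of_eq ?_) (mul_le_mul_of_nonneg_right b4 (norm_nonneg _))
    rw [← norm_mul, si, si]
    congr 1
    field_simp
    ring

lemma ev_X (F : Frame) (w θ : ℝ) (hγ : ‖F.γ θ‖ ≤ 1) (hn : ‖F.n θ‖ ≤ 1) (t : ℝ) :
    ∀ᶠ p : ℂ × ℂ in 𝓝 ((t : ℂ), (t : ℂ)), ‖F.X w θ p.1‖ ≤ 12 * √w ∧
      ‖F.X w θ p.1 - F.X w θ p.2‖ ≤ 12 * √w * ‖p.1 - p.2‖ := by
  have k : ∀ (a b : ℂ) (K : ℝ), ‖a‖ ≤ K → ‖b‖ ≤ K →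
      ‖(2 * rt w) • (a • F.γ θ + b • F.n θ)‖ ≤ 4 * √w * K := fun a b K ha hb => by
    have h0 := (norm_nonneg _).trans ha
    have h1 : ‖a • F.γ θ + b • F.n θ‖ ≤ K * 1 + K * 1 := by
      refine (norm_add_le _ _).trans ?_
      rw [norm_smul, norm_smul]
      gcongr
    have h2 : ‖2 * rt w‖ = 2 * √w := by simp [rt]
    rw [norm_smul, h2]
    nlinarith [Real.sqrt_nonneg w]
  filter_upwards [ev_cs t] with p ⟨h1, h2, h3, h4⟩
  refine ⟨?_, ?_⟩
  · rw [Frame.X_eq, Frame.u]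
    linarith [k _ _ _ h1 h2]
  · have e : F.X w θ p.1 - F.X w θ p.2
        = (2 * rt w) • ((co p.1 - co p.2) • F.γ θ + (si p.1 - si p.2) • F.n θ) := by
      simp only [Frame.X_eq, Frame.u, sub_smul, smul_add, smul_sub]
      abel
    rw [e]
    linarith [k _ _ _ h3 h4]

lemma lip_X (F : Frame) (w θ : ℝ) (hγ : ‖F.γ θ‖ ≤ 1) (hn : ‖F.n θ‖ ≤ 1) {t : ℝ} {c : ℕ × P → ℂ}
    {K : ℝ} (h : LipQ c K) (hc : Tendsto c (atTop ×ˢ 𝓝 0) (𝓝 t)) :
    LipQ (fun q => F.X w θ (c q)) (12 * √w * K) ∧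
      ∀ᶠ q : ℕ × P in atTop ×ˢ 𝓝 0, ‖F.X w θ (c q)‖ ≤ 12 * √w := by
  have h1 := (hc.prodMk_nhds (hc.comp tendsto_base)).eventually (ev_X F w θ hγ hn t)
  refine ⟨?_, h1.mono fun _ h => h.1⟩
  filter_upwards [h1, h] with q h1 h2
  rw [mul_assoc _ K]
  exact h1.2.trans (mul_le_mul_of_nonneg_left h2 (by positivity))

end lip

section hb
variable {ι τ D V : Type} [Fintype ι] [Fintype τ] [NormedAddCommGroup V] [NormedSpace ℂ V]
  {c : Cst} {U : Set D} {g : (ι → ℝ) → Pt ι τ → D → V} {gb : Pt ι τ → D → V}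

lemma lip_hb (h : HB c U g gb) {K : D → ℝ}
    (hK : ∀ y ∈ U, ‖fderiv ℂ (fun z => gb z y) 0‖ ≤ K y) :
    ∀ᶠ q : ℕ × (ι → ℝ) × (τ → ℝ) in atTop ×ˢ 𝓝 0, ∀ y ∈ U,
      ‖g (fun _ => lvl q.1 q.2) (ofReal q.2) y
        - g (fun _ => lvl q.1 (0 : (ι → ℝ) × (τ → ℝ))) (ofReal 0) y‖ ≤ (K y + 1) * ‖q.2‖ := by
  filter_upwards [h.lin one_pos] with q hq y hy
  have h1 := (fderiv ℂ (fun z => gb z y) 0).le_of_opNorm_le (hK y hy) (ofReal q.2)
  rw [norm_ofReal] at h1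
  linarith [hq y hy, norm_le_norm_sub_add (g (fun _ => lvl q.1 q.2) (ofReal q.2) y
    - g (fun _ => lvl q.1 (0 : (ι → ℝ) × (τ → ℝ))) (ofReal 0) y)
    (fderiv ℂ (fun z => gb z y) 0 (ofReal q.2))]

lemma tendsto_hb (h : HB c U g gb) {y : D} (hy : y ∈ U) :
    Tendsto (fun q : ℕ × (ι → ℝ) × (τ → ℝ) => g (fun _ => lvl q.1 q.2) (ofReal q.2) y)
      (atTop ×ˢ 𝓝 0) (𝓝 (gb 0 y)) :=
  Metric.tendsto_nhds.2 fun _ hε => (h.tendsto hε).mono fun _ hq => by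
    rw [dist_eq_norm]; exact hq y hy

end hb

variable {S : Set E3} {w : E3 → ℝ} {δ C : ℝ} {ι κ M : Type} [Fintype ι] [Fintype κ]
  [TopologicalSpace M] [ChartedSpace E2 M] [T2Space M] [RSm E2 M] [CompactSpace M]
  [MeasurableSpace M] [BorelSpace M] {m : Model S w δ C ι κ M} {τ : Type} [Fintype τ]
  (H : Hub m τ) {R : RealFam m (seqPar ((ι → ℝ) × (τ → ℝ)))} (G : Geo R)

lemma norm_LΦ_le (hX : R.X = H.Xr) {y : M} (hy : y ∈ m.reg) {c : ℕ × (ι → ℝ) × (τ → ℝ) → C3}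
    {K : ℝ} (hK : 0 ≤ K) (h : LipQ c K) (he : ∀ᶠ q : ℕ × (ι → ℝ) × (τ → ℝ) in atTop ×ˢ 𝓝 0,
      H.X (fun _ => lvl q.1 q.2) (ofReal q.2) y = c q) : ‖G.LΦ (m.F y)‖ ≤ ‖reV‖ * K := by
  have h1 : LinP (seqPar _) (fun q => reV (c q)) (G.LΦ (m.F y)) :=
    (G.linX hy).congr (he.mono fun q hq => by simp only [hX, Hub.Xr, hq])
  rw [← sub_zero (G.LΦ (m.F y))]
  refine h1.norm_le (by positivity) (h.mono fun q hq => ?_)
  rw [zero_apply, sub_zero, ← map_sub, mul_assoc]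
  exact reV.le_of_opNorm_le_of_le le_rfl hq

lemma cone_le (hX : R.X = H.Xr) (j : κ) : ∃ K, 0 ≤ K ∧ ∀ p : ℝ × ℝ, H.s < p.1 →
    ‖G.LΦ (m.F (pt m (.inr j) p))‖ ≤ K * √p.1 := by
  have h1 := (H.t_hn j).hb.map (A := fun _ => (ContinuousLinearMap.fst ℂ ℂ (ℂ × ℂ)).comp
    (ContinuousLinearMap.fst ℂ _ _)) (fun _ _ => le_rfl)
  obtain ⟨L, L0, hL⟩ := h1.norm_fderiv_le
  refine ⟨‖reV‖ * (12 * (L + 1)), by positivity, fun p hp => ?_⟩
  have h2 := lip_X (coneF (m.L j)) p.1 p.2 ((norm_cx_le _).trans ((m.L j).γ_unit _).le)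
    ((norm_cx_le _).trans ((m.L j).n_unit _).le)
    (c := fun q : ℕ × (ι → ℝ) × (τ → ℝ) => H.t (fun _ => lvl q.1 q.2) (ofReal q.2) j p)
    ((lip_hb h1 hL).mono fun q hq => hq p hp)
    (by rw [← H.t_zero j p hp]; exact tendsto_hb h1 (y := p) hp)
  refine (norm_LΦ_le H G hX (pt_mem_reg _ (by linarith [H.lt, H.le])) (by positivity) h2.1
    (H.c.ev_ok.mono fun q hq => H.cone _ _ hq j p hp)).trans (le_of_eq (by ring))

lemma cyl_le (hX : R.X = H.Xr) (i : ι) : ∃ K, 0 ≤ K ∧ ∀ p : ℝ × ℝ, H.s < p.1 →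
    ‖G.LΦ (m.F (pt m (.inl i) p))‖ ≤ K * (√p.1 * (1 + p.1 ^ H.B)) := by
  obtain ⟨L, L0, hL⟩ := H.R_hb.norm_fderiv_le
  obtain ⟨B, B0, hB⟩ := H.R_hb.bd
  refine ⟨‖reV‖ * (36 * (L + 1) + 36 * B * (|H.C0| + 1)), by positivity, fun p hp => ?_⟩
  have p1 : 1 ≤ p.1 := by linarith [H.lt, H.le, m.one_le]
  have p2 : 0 ≤ p.1 ^ H.B := by positivity
  obtain ⟨c', ub, -, hu, hb⟩ := H.u_hf i (p.1 + 1)
  have hp' : p ∈ strip H.s (p.1 + 1) := ⟨hp, lt_add_one _⟩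
  have h1 := hu.hb.map (A := fun _ => (ContinuousLinearMap.fst ℂ ℂ (ℂ × ℂ)).comp
    (ContinuousLinearMap.fst ℂ _ _)) (fun _ _ => le_rfl)
  have k1 : ‖kap p.1‖ ≤ 1 := by
    rw [kap, Complex.norm_real, norm_inv, Real.norm_of_nonneg (Real.sqrt_nonneg _)]
    exact inv_le_one_of_one_le₀ (Real.one_le_sqrt.2 (by linarith))
  have h2 := lip_X cylF p.1 p.2
    (by rw [P218XI.cylF_γ, ← P218VA.cx_e3]; exact (norm_cx_le _).trans norm_e3.le)
    (by rw [P218XI.cylF_n, ← P218VA.cx_eth]; exact (norm_cx_le _).trans (norm_eth _).le)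
    (t := (√(8 * p.1))⁻¹ * m.U i p)
    (c := fun q : ℕ × (ι → ℝ) × (τ → ℝ) => kap p.1 * U0 (H.α (fun _ => lvl q.1 q.2) (ofReal q.2) i)
      (H.J (fun _ => lvl q.1 q.2) (ofReal q.2) i) p) (K := (|H.C0| + 1) * (1 + p.1 ^ H.B))
    ((lip_hb h1 fun y hy => (hb y hy).2).mono fun q hq => by
      rw [← mul_sub]
      refine (norm_mul_le_of_le k1 (hq p hp')).trans ?_
      rw [one_mul]
      refine mul_le_mul_of_nonneg_right ?_ (norm_nonneg _)
      nlinarith [mul_le_mul_of_nonneg_right (le_abs_self H.C0) p2, abs_nonneg H.C0])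
    (by rw [Complex.ofReal_mul, ← (hb p hp').1]; exact (tendsto_hb h1 hp').const_mul _)
  refine (norm_LΦ_le H G hX (pt_mem_reg _ (by linarith [H.lt, H.le]))
    (K := (36 * (L + 1) + 36 * B * (|H.C0| + 1)) * (√p.1 * (1 + p.1 ^ H.B))) (by positivity)
    (c := fun q => H.R (fun _ => lvl q.1 q.2) (ofReal q.2) i *ᵥ cylF.Z p.1 p.2
      (U0 (H.α (fun _ => lvl q.1 q.2) (ofReal q.2) i)
        (H.J (fun _ => lvl q.1 q.2) (ofReal q.2) i) p)) ?_ ?_).trans (le_of_eq (by ring))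
  · filter_upwards [h2.1, h2.2, lip_hb H.R_hb hL, tendsto_base.eventually H.c.ev_ok]
      with q a1 a2 a3 a4
    have a5 := norm_mulVec_le (A := H.R (fun _ => lvl q.1 q.2) (ofReal q.2) i
      - H.R (fun _ => lvl q.1 (0 : (ι → ℝ) × (τ → ℝ))) (ofReal 0) i)
      (fun a b => a3 (i, a, b) trivial) (cylF.X p.1 p.2 (kap p.1 *
        U0 (H.α (fun _ => lvl q.1 q.2) (ofReal q.2) i)
          (H.J (fun _ => lvl q.1 q.2) (ofReal q.2) i) p))
    have a6 := (norm_mulVec_le (A := H.R (fun _ => lvl q.1 (0 : (ι → ℝ) × (τ → ℝ))) (ofReal 0) i)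
      (fun a b => hB _ _ a4 (i, a, b) trivial) _).trans
      (mul_le_mul_of_nonneg_left a1 (by positivity))
    have a7 := a5.trans (mul_le_mul_of_nonneg_left a2 (by positivity))
    rw [Matrix.sub_mulVec] at a7
    rw [Matrix.mulVec_sub] at a6
    refine ((norm_sub_le_norm_sub_add_norm_sub _ _ _).trans (add_le_add a7 a6)).trans ?_
    have a8 : 0 ≤ (L + 1) * ‖q.2‖ * √p.1 * p.1 ^ H.B := by positivity
    nlinarith
  · filter_upwards [H.c.ev_ok, P218LB.tendsto_lvl.eventually_gt_atTop p.1] with q a1 a2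
    exact H.cyl _ _ a1 i p hp a2

/-- the displacement grows at most polynomially -/
lemma LΦ_le (hX : R.X = H.Xr) : ∃ K, ∀ y ∈ m.reg,
    ‖G.LΦ (m.F y)‖ ≤ K * (1 + ‖m.F y‖) ^ (2 * H.B + 1) := by
  choose K K0 hK using cyl_le H G hX
  choose K' K0' hK' using cone_le H G hX
  obtain ⟨A, hA⟩ := (isCompact_closedBall (0 : E3) √(4 * H.s)).exists_bound_of_continuousOn
    G.continuous_LΦ.continuousOn
  have s1 := Finset.sum_nonneg fun i (_ : i ∈ Finset.univ) => K0 i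
  have s2 := Finset.sum_nonneg fun j (_ : j ∈ Finset.univ) => K0' j
  refine ⟨|A| + 2 * ∑ i, K i + ∑ j, K' j, fun y hy => ?_⟩
  have x0 := norm_nonneg (m.F y)
  have x1 : 1 ≤ (1 + ‖m.F y‖) ^ (2 * H.B) := one_le_pow₀ (by linarith)
  have x2 : 1 ≤ (1 + ‖m.F y‖) ^ (2 * H.B + 1) := one_le_pow₀ (by linarith)
  by_cases h : ‖m.F y‖ ^ 2 ≤ 4 * H.s
  · have h1 := (hA _ (mem_closedBall_zero_iff.2 (Real.le_sqrt_of_sq_le h))).trans (le_abs_self A)
    nlinarith [abs_nonneg A]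
  rcases reg_cases hy with h1 | ⟨j, p, hp, rfl⟩
  · exact absurd (by linarith [H.lt, H.le]) h
  have h1 := norm_F_pt j hp
  have h2 : H.s < p.1 := by linarith
  have h3 : p.1 ≤ (1 + ‖m.F (pt m j p)‖) ^ 2 := by nlinarith
  have h4 : √p.1 ≤ 1 + ‖m.F (pt m j p)‖ := Real.sqrt_le_iff.2 ⟨by linarith, h3⟩
  have h5 : p.1 ^ H.B ≤ (1 + ‖m.F (pt m j p)‖) ^ (2 * H.B) := by
    rw [pow_mul]
    exact pow_le_pow_left₀ (by linarith [m.one_le]) h3 _
  have p0 : 0 ≤ p.1 := by linarith [m.one_le]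
  have h6 : √p.1 * (1 + p.1 ^ H.B) ≤ 2 * (1 + ‖m.F (pt m j p)‖) ^ (2 * H.B + 1) :=
    (mul_le_mul h4 (add_le_add x1 h5) (by positivity) (by linarith)).trans (le_of_eq (by ring))
  have h7 : √p.1 ≤ (1 + ‖m.F (pt m j p)‖) ^ (2 * H.B + 1) := by
    rw [pow_succ]
    nlinarith
  cases j with
  | inl i =>
    have a1 := (hK i p h2).trans (mul_le_mul (Finset.single_le_sum (fun i _ => K0 i)
      (Finset.mem_univ i)) h6 (by positivity) s1)
    nlinarith [abs_nonneg A]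
  | inr j =>
    have a1 := (hK' j p h2).trans (mul_le_mul (Finset.single_le_sum (fun i _ => K0' i)
      (Finset.mem_univ j)) h7 (by positivity) s2)
    nlinarith [abs_nonneg A]

/-- (GROW) -/
theorem memLp_v (hX : R.X = H.Xr) (b : (ι → ℝ) × (τ → ℝ)) :
    MemLp (fun x => G.v b (m.F x)) 2 m.mu0 := by
  obtain ⟨K, hK⟩ := LΦ_le H G hX
  refine P218ND.memLp_of_growth m ((G.v_cont b).comp_continuousOn m.rimm.cont)
    (K := K * ‖b‖) (q := 2 * H.B + 1) fun x hx => ?_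
  rw [G.v_Φ hx, abs_neg, mul_right_comm]
  refine (abs_real_inner_le_norm _ _).trans ?_
  rw [m.norm_nu hx, one_mul]
  exact (G.LΦ _).le_of_opNorm_le (hK x hx) b

lemma core_reg (r : ℝ) : coreK m.φ r ⊆ m.reg := fun _ hx => (P218VA.isEnds_model m).ne_of_mem hx

/-- the moments of the real surfaces -/
lemma mo_eq (hX : R.X = H.Xr) : ∀ᶠ q : ℕ × (ι → ℝ) × (τ → ℝ) in atTop ×ˢ 𝓝 0, ∀ k,
    H.mo (ofReal q.2) k = (∫ y in coreK m.φ H.sd,
      H.e k (m.F y) * ⟪m.nu y, G.Φ (q, m.F y) - m.F y⟫ ∂m.mu0 : ℝ) := by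
  obtain ⟨r, hr⟩ := (P218VA.isCompact_coreK (φ := m.φ) (r := H.sd)).exists_bound_of_continuousOn
    (m.rimm.cont.mono (core_reg _))
  filter_upwards [H.c.ev_ok, G.exact, R.ev_Ex r] with q h1 h2 h3 k
  rw [← H.pin _ _ h1 k, ← integral_complex_ofReal]
  refine setIntegral_congr_fun P218VA.isClosed_coreK.measurableSet fun y hy => ?_
  have hy' := core_reg _ hy
  have e1 := H.normal _ _ h1 y hy
  have e2 := H.X_real _ _ h1 y (P218VA.coreO_subset_coreK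
    (P218VA.coreK_subset_coreO (by linarith [H.le]) hy))
  have e3 : cx (m.nu y) ⬝ᵥ H.X (fun _ => lvl q.1 q.2) (ofReal q.2) y
      = (⟪m.nu y, m.F y⟫ : ℝ) + H.U (fun _ => lvl q.1 q.2) (ofReal q.2) y := by
    rw [e1, dotProduct_add, dotProduct_smul, cx_dot, cx_dot, real_inner_self_eq_norm_sq,
      m.norm_nu hy']
    simp
  have e4 := congrArg Complex.re e3
  have e5 := congrArg Complex.im e3
  rw [P218ND.im_dot, show imV (H.X (fun _ => lvl q.1 q.2) (ofReal q.2) y) = 0 from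
    PiLp.ext fun a => e2 a, inner_zero_right] at e5
  rw [P218ND.re_dot] at e4
  simp only [h2 y (h3 y hy' (hr y hy)), hX, Hub.Xr, inner_sub_right, e4]
  simp only [Complex.add_im, Complex.ofReal_im, zero_add] at e5
  rw [Complex.ofReal_mul]
  congr 1
  exact Complex.ext (by simp) (by simp [← e5])

/-- (PAIR) -/
theorem pair (hX : R.X = H.Xr) (b : (ι → ℝ) × (τ → ℝ))
    (h : ∀ l, ∫ x, G.v b (m.F x) * H.eL l (m.F x) ∂m.mu0 = 0) : b = 0 := by
  classical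
  have := m.isArea.fin
  have hD := P218VA.isCompact_coreK (φ := m.φ) (r := H.sd)
  have hm := (P218VA.isClosed_coreK (φ := m.φ) (r := H.sd)).measurableSet
  have hF := m.rimm.cont.mono (core_reg H.sd)
  have hν : ContinuousOn m.nu (coreK m.φ H.sd) := fun y hy =>
    (m.ckAt_nu (core_reg _ hy)).continuousAt.continuousWithinAt
  obtain ⟨r, hr⟩ := hD.exists_bound_of_continuousOn hF
  have hd := (H.mo_holo.differentiableAt (ball_mem_nhds _ H.c.r_pos)).hasFDerivAt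
  refine ofReal_injective (H.mo_inj ?_)
  rw [ofReal_zero, map_zero]
  funext k
  have he := (H.e_cont k).comp_continuousOn hF
  obtain ⟨E, hE⟩ := hD.exists_bound_of_continuousOn he
  have i1 : IntegrableOn (fun y => H.e k (m.F y) • G.L (m.F y)) (coreK m.φ H.sd) m.mu0 :=
    (he.smul ((continuous_lin G.lin).comp_continuousOn hF)).integrableOn_compact hD
  have l1 : LinP (seqPar _) (fun q : ℕ × (ι → ℝ) × (τ → ℝ) => H.mo (ofReal q.2) k)
      ((ContinuousLinearMap.proj k).comp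
        (((fderiv ℂ H.mo 0).restrictScalars ℝ).comp (ofL ι τ))) := by
    have h0 : HasFDerivAt H.mo ((fderiv ℂ H.mo 0).restrictScalars ℝ) (ofL ι τ 0) := by
      rw [map_zero]; exact hd.restrictScalars ℝ
    have h1 := ((ContinuousLinearMap.proj (R := ℝ) k).hasFDerivAt.comp _
      (h0.comp 0 (ofL ι τ).hasFDerivAt)).isLittleO
    simp only [sub_zero] at h1
    exact (h1.comp_tendsto tendsto_snd).norm_right
  have i2 : ∀ᶠ q : ℕ × (ι → ℝ) × (τ → ℝ) in atTop ×ˢ 𝓝 0, IntegrableOn (fun y =>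
      H.e k (m.F y) * ⟪m.nu y, G.Φ (q, m.F y) - m.F y⟫) (coreK m.φ H.sd) m.mu0 :=
    G.diffeo.mono fun q hq => (he.mul (hν.inner
      ((hq.1.continuous.comp_continuousOn hF).sub hF))).integrableOn_compact hD
  have c0 : 0 ≤ |E| * m.mu0.real (coreK m.φ H.sd) := by positivity
  have l2 := norm_le_zero_iff.1 (le_of_forall_pos_le_add fun ε hε => (l1.norm_le
    (L' := Complex.ofRealCLM.comp (-∫ y in coreK m.φ H.sd, H.e k (m.F y) • G.L (m.F y) ∂m.mu0))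
    hε.le ?_).trans (zero_add ε).ge)
  · have e1 := congrArg (fun L => L b) (sub_eq_zero.1 l2)
    have e3 : ∀ x, H.eL (Pi.single k 1) x = H.e k x := fun x => by
      simp [Hub.eL_apply, Pi.single_apply]
    have e2 : (∫ y in coreK m.φ H.sd, H.e k (m.F y) • G.L (m.F y) ∂m.mu0) b = 0 := by
      rw [ContinuousLinearMap.integral_apply i1, ← h (Pi.single k 1)]
      refine Eq.trans ?_ (setIntegral_eq_integral_of_ae_compl_eq_zero (s := coreK m.φ H.sd) ?_)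
      · exact setIntegral_congr_fun hm fun y _ => by simp [e3, G.v_apply, mul_comm]
      · filter_upwards [m.ae_reg] with y hy hy'
        obtain ⟨j, p, hp, rfl⟩ := P218VA.exists_Yp_of_notMem hy hy'
        have hp' : H.sd < p.1 := hp.1
        have h1 : ‖m.F (Yp m.φ j p)‖ ^ 2 = 4 * p.1 := m.norm_F_pol j (H.lt.trans hp')
        rw [e3, H.e_supp k _ (by linarith), mul_zero]
    simpa [e2, ofL_apply] using e1
  · filter_upwards [mo_eq H G hX, tendsto_base.eventually (mo_eq H G hX), i2,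
      tendsto_base.eventually i2, diff_of_lin G.linΦ (isCompact_closedBall 0 r)
        (div_pos hε (add_pos_of_nonneg_of_pos c0 one_pos))] with q a1 a2 a3 a4 a5
    have i3 := (ContinuousLinearMap.apply ℝ ℝ q.2).integrable_comp i1
    rw [a1, a2, ContinuousLinearMap.comp_apply, Complex.ofRealCLM_apply, ← Complex.ofReal_sub,
      ← Complex.ofReal_sub, Complex.norm_real, neg_apply, sub_neg_eq_add,
      ContinuousLinearMap.integral_apply i1, ← integral_sub a3 a4]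
    refine (congrArg norm (integral_add (a3.sub a4) i3)).ge.trans ?_
    refine (norm_setIntegral_le_of_norm_le_const (measure_lt_top _ _)
      (C := |E| * (ε / (|E| * m.mu0.real (coreK m.φ H.sd) + 1) * ‖q.2‖)) fun y hy => ?_).trans ?_
    · have e : H.e k (m.F y) * ⟪m.nu y, G.Φ (q, m.F y) - m.F y⟫
          - H.e k (m.F y) * ⟪m.nu y, G.Φ ((q.1, 0), m.F y) - m.F y⟫
          + (H.e k (m.F y) • G.L (m.F y)) q.2 = H.e k (m.F y) * ⟪m.nu y,
            G.Φ (q, m.F y) - G.Φ ((q.1, 0), m.F y) - G.LΦ (m.F y) q.2⟫ := by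
        rw [smul_apply, ← G.v_apply, G.v_Φ (core_reg _ hy)]
        simp only [inner_sub_right, smul_eq_mul]
        ring
      refine (congrArg norm e).le.trans (norm_mul_le_of_le ((hE y hy).trans (le_abs_self E))
        ((norm_inner_le_norm _ _).trans ?_))
      rw [m.norm_nu (core_reg _ hy), one_mul]
      exact a5 _ (mem_closedBall_zero_iff.2 (hr y hy))
    · rw [div_mul_eq_mul_div, mul_div_assoc', div_mul_eq_mul_div, div_le_iff₀ (by positivity)]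
      nlinarith [mul_nonneg hε.le (norm_nonneg q.2)]

end Vale.Agent.P218UX
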