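import Vale.Agent.P218UX.Calc

/-! The space-time measure of a flow, and the proof of `Calc`. -/

open MeasureTheory Set Filter Topology Metric Module ProbabilityTheory
open scoped ENNReal NNReal RealInnerProductSpace ContDiff

namespace Vale.Agent.P218UX

open Vale.Agent.P218GA Vale.Agent.P218UA

/-- the slices, extended by zero -/
noncomputable def kap (w : ℝ → E3 → ℝ) (I : Set ℝ) : ℝ → Measure E3 :=
  I.indicator fun t => ar (w t)

variable {w : ℝ → E3 → ℝ} {I : Set ℝ}

lemma kap_locFin (h : IsFlow w I) (t : ℝ) : IsLocallyFiniteMeasure (kap w I t) := by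
  by_cases ht : t ∈ I
  · rw [kap, indicator_of_mem ht]; exact locFin (slice h ht)
  · rw [kap, indicator_of_notMem ht]; infer_instance

lemma measurable_kap_cont (h : IsFlow w I) {φ : E3 → ℝ} (hφ : Continuous φ) (h0 : ∀ x, 0 ≤ φ x)
    {K : Set E3} (hK : IsCompact K) (hs : ∀ x, x ∉ K → φ x = 0) :
    Measurable fun t => ∫⁻ x, ENNReal.ofReal (φ x) ∂(kap w I t) := by
  classical
  have e : (fun t => ∫⁻ x, ENNReal.ofReal (φ x) ∂(kap w I t))
      = fun t => ENNReal.ofReal (I.piecewise (fun t => ∫ x, φ x ∂(ar (w t))) (fun _ => 0) t) := by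
    ext t
    have := kap_locFin h t
    rw [← ofReal_integral_eq_lintegral_ofReal (hφ.integrable_of_hasCompactSupport
      (HasCompactSupport.intro hK hs)) (Eventually.of_forall h0)]
    by_cases ht : t ∈ I
    · simp [kap, ht]
    · simp [kap, ht]
  rw [e]
  exact ((continuousOn_integral h h.isOpen subset_rfl (f := fun _ x => φ x)
    (hφ.comp continuous_snd).continuousOn hK fun _ _ => hs).measurable_piecewise continuousOn_const
    h.isOpen.measurableSet).ennreal_ofReal

lemma measurable_kap_open (h : IsFlow w I) {V : Set E3} (hV : IsOpen V) {R : ℝ}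
    (hR : V ⊆ closedBall 0 R) : Measurable fun t => kap w I t V := by
  have hne : Vᶜ.Nonempty := by
    obtain ⟨x, hx⟩ := NormedSpace.exists_lt_norm ℝ E3 R
    exact ⟨x, fun h1 => absurd (mem_closedBall_zero_iff.1 (hR h1)) (not_le.2 hx)⟩
  have hc : ∀ k : ℕ, Continuous fun x : E3 => min 1 (k * infDist x Vᶜ) := fun k =>
    continuous_const.min (continuous_const.mul (continuous_infDist_pt _))
  have hz : ∀ (k : ℕ) (x : E3), x ∉ V → min 1 (k * infDist x Vᶜ) = 0 := fun k x hx => by
    rw [infDist_zero_of_mem (show x ∈ Vᶜ from hx)]; simp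
  refine measurable_of_tendsto_metrizable (fun k : ℕ => measurable_kap_cont h (hc k)
    (fun x => le_min zero_le_one (mul_nonneg k.cast_nonneg infDist_nonneg))
    (isCompact_closedBall 0 R) fun x hx => hz k x fun h1 => hx (hR h1)) (tendsto_pi_nhds.2 fun t => ?_)
  rw [← lintegral_indicator_one hV.measurableSet]
  refine lintegral_tendsto_of_tendsto_of_monotone
    (fun k => (hc k).measurable.ennreal_ofReal.aemeasurable)
    (Eventually.of_forall fun x a b hab => ENNReal.ofReal_le_ofReal (min_le_min le_rfl
      (mul_le_mul_of_nonneg_right (Nat.cast_le.2 hab) infDist_nonneg)))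
    (Eventually.of_forall fun x => ?_)
  by_cases hx : x ∈ V
  · have hp : 0 < infDist x Vᶜ :=
      (hV.isClosed_compl.notMem_iff_infDist_pos hne).1 fun h1 => h1 hx
    refine tendsto_const_nhds.congr' ?_
    filter_upwards [(tendsto_natCast_atTop_atTop.atTop_mul_const hp).eventually_ge_atTop 1] with k hk
    rw [min_eq_left hk, indicator_of_mem hx]; simp
  · simp [hz _ x hx, hx]

lemma measurable_kap_restrict (h : IsFlow w I) (n : ℕ) :
    Measurable fun t => (kap w I t).restrict (ball 0 n) := by
  have : ∀ t, IsFiniteMeasure ((kap w I t).restrict (ball 0 n)) := fun t => by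
    have := kap_locFin h t
    exact isFiniteMeasure_restrict.2 measure_ball_lt_top.ne
  refine Measurable.measure_of_isPiSystem (S := {s | IsOpen s}) BorelSpace.measurable_eq
    isPiSystem_isOpen (fun s hs => ?_) ?_
  · have hs' : IsOpen s := hs
    simp only [Measure.restrict_apply hs'.measurableSet]
    exact measurable_kap_open h (hs'.inter isOpen_ball)
      (inter_subset_right.trans ball_subset_closedBall)
  · simp only [Measure.restrict_apply_univ]
    exact measurable_kap_open h isOpen_ball ball_subset_closedBall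

lemma measurable_kap_map (h : IsFlow w I) : Measurable fun t => (kap w I t).map (Prod.mk t) := by
  refine Measure.measurable_measure.2 fun S hS => ?_
  have e : (fun t => (kap w I t).map (Prod.mk t) S)
      = fun t => ⨆ n : ℕ, (kap w I t).restrict (ball 0 n) (Prod.mk t ⁻¹' S) := by
    ext t
    have hm : MeasurableSet (Prod.mk t ⁻¹' S) := measurable_prodMk_left hS
    simp only [Measure.map_apply measurable_prodMk_left hS, Measure.restrict_apply hm]
    rw [← Monotone.measure_iUnion fun a b hab =>
      inter_subset_inter_right _ (ball_subset_ball (Nat.cast_le.2 hab)), ← inter_iUnion,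
      iUnion_ball_nat, inter_univ]
  rw [e]
  refine Measurable.iSup fun n => ?_
  refine Kernel.measurable_kernel_prodMk_left_of_finite
    (κ := ⟨fun t => (kap w I t).restrict (ball 0 n), measurable_kap_restrict h n⟩) hS fun t => ?_
  have := kap_locFin h t
  exact isFiniteMeasure_restrict.2 measure_ball_lt_top.ne

lemma kap_ae (h : IsFlow w I) : ∀ᵐ t ∂(volume.restrict I), kap w I t = ar (w t) := by
  filter_upwards [ae_restrict_mem h.isOpen.measurableSet] with t ht
  rw [kap, indicator_of_mem ht]

/-- the kernel of the slices in space-time -/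
noncomputable def ker (h : IsFlow w I) : Kernel ℝ (ℝ × E3) :=
  ⟨fun t => (kap w I t).map (Prod.mk t), measurable_kap_map h⟩

lemma ker_ae (h : IsFlow w I) :
    ∀ᵐ t ∂(volume.restrict I), ker h t = (ar (w t)).map (Prod.mk t) := by
  filter_upwards [kap_ae h] with t ht
  rw [← ht]; rfl

lemma stm_eq (h : IsFlow w I) : stm w I = (volume.restrict I).bind (ker h) :=
  Measure.bind_congr_right ((ker_ae h).mono fun _ ht => ht.symm)

theorem stm_meas (h : IsFlow w I) {f : ℝ × E3 → ℝ≥0∞} (hf : Measurable f) :
    AEMeasurable (fun t => ∫⁻ x, f (t, x) ∂(ar (w t))) (volume.restrict I) := by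
  refine ((Measure.measurable_lintegral hf).comp (ker h).measurable).aemeasurable.congr ?_
  filter_upwards [ker_ae h] with t ht
  rw [Function.comp_apply, ht, lintegral_map hf measurable_prodMk_left]

theorem stm_lint (h : IsFlow w I) {f : ℝ × E3 → ℝ≥0∞} (hf : Measurable f) :
    ∫⁻ p, f p ∂(stm w I) = ∫⁻ t in I, ∫⁻ x, f (t, x) ∂(ar (w t)) := by
  rw [stm_eq h, Measure.lintegral_bind (ker h).measurable.aemeasurable hf.aemeasurable]
  refine lintegral_congr_ae ?_
  filter_upwards [ker_ae h] with t ht
  rw [ht, lintegral_map hf measurable_prodMk_left]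

theorem stm_int (h : IsFlow w I) {f : ℝ × E3 → ℝ} (hf : Integrable f (stm w I)) :
    IntegrableOn (fun t => ∫ x, f (t, x) ∂(ar (w t))) I ∧
      ∫ p, f p ∂(stm w I) = ∫ t in I, ∫ x, f (t, x) ∂(ar (w t)) := by
  rw [stm_eq h, Measure.comp_eq_comp_const_apply] at hf ⊢
  have e : (fun t => ∫ p, f p ∂(ker h t)) =ᵐ[volume.restrict I]
      fun t => ∫ x, f (t, x) ∂(ar (w t)) := by
    filter_upwards [ker_ae h] with t ht
    rw [ht, (measurableEmbedding_prodMk_left t).integral_map]
  refine ⟨Integrable.congr (by simpa using hf.integral_comp) e, ?_⟩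
  rw [Kernel.integral_comp hf, Kernel.const_apply]
  exact integral_congr_ae e

/-- uniform area bounds on compact sets of space-time -/
lemma exists_area_bound (h : IsFlow w I) {N : Set ℝ} (hN : IsCompact N) (hNI : N ⊆ I) {K : Set E3}
    (hK : IsCompact K) : ∃ C : ℝ, ∀ t ∈ N, ar (w t) K ≤ ENNReal.ofReal C := by
  obtain ⟨φ, h1, -, hc, h01⟩ := exists_continuous_one_zero_of_isCompact hK isClosed_empty
    (disjoint_empty K)
  obtain ⟨C, hC⟩ := hN.exists_bound_of_continuousOn ((continuousOn_integral h h.isOpen subset_rfl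
    (f := fun _ x => φ x) (φ.continuous.comp continuous_snd).continuousOn hc.isCompact
    fun _ _ x hx => image_eq_zero_of_notMem_tsupport hx).mono hNI)
  refine ⟨C, fun t ht => ?_⟩
  have := locFin (slice h (hNI ht))
  refine le_trans ?_ (ENNReal.ofReal_le_ofReal ((le_abs_self _).trans (hC t ht)))
  rw [ofReal_integral_eq_lintegral_ofReal (φ.continuous.integrable_of_hasCompactSupport hc)
    (Eventually.of_forall fun x => (h01 x).1), ← lintegral_indicator_one hK.measurableSet]
  refine lintegral_mono fun x => ?_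
  by_cases hx : x ∈ K
  · rw [indicator_of_mem hx, h1 hx]; simp
  · rw [indicator_of_notMem hx]; exact zero_le

theorem stm_fin (h : IsFlow w I) {K : Set (ℝ × E3)} (hK : IsCompact K) (hKI : K ⊆ I ×ˢ univ) :
    stm w I K < ⊤ := by
  have hN : IsCompact (Prod.fst '' K) := hK.image continuous_fst
  have hB : IsCompact (Prod.snd '' K) := hK.image continuous_snd
  obtain ⟨C, hC⟩ := exists_area_bound h hN (by
    rintro _ ⟨p, hp, rfl⟩
    exact (hKI hp).1) hB
  rw [← lintegral_indicator_one hK.measurableSet,
    stm_lint h (measurable_one.indicator hK.measurableSet)]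
  refine lt_of_le_of_lt (le_trans (setLIntegral_le_lintegral _ _) (lintegral_mono
    (g := (Prod.fst '' K).indicator fun _ => ENNReal.ofReal C) fun t => ?_)) ?_
  · by_cases ht : t ∈ Prod.fst '' K
    · rw [indicator_of_mem ht]
      refine le_trans ?_ (hC t ht)
      rw [← lintegral_indicator_one hB.measurableSet]
      refine lintegral_mono fun x => ?_
      by_cases hx : (t, x) ∈ K
      · rw [indicator_of_mem hx, indicator_of_mem (mem_image_of_mem Prod.snd hx)]; simp
      · rw [indicator_of_notMem hx]; exact zero_le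
    · have e : ∀ x, (t, x) ∉ K := fun x hx => ht (mem_image_of_mem Prod.fst hx)
      simp [e]
  · rw [lintegral_indicator_const hN.measurableSet]
    exact ENNReal.mul_lt_top ENNReal.ofReal_lt_top hN.measure_lt_top

theorem stm_ae (h : IsFlow w I) : ∀ᵐ p ∂(stm w I), p.1 ∈ I ∧ w p.1 p.2 = 0 := by
  have hO : IsOpen (I ×ˢ (univ : Set E3)) := h.isOpen.prod isOpen_univ
  have hm : MeasurableSet {p : ℝ × E3 | ¬(p.1 ∈ I ∧ w p.1 p.2 = 0)} := by
    have h1 : IsOpen ((I ×ˢ (univ : Set E3)) ∩ (fun p : ℝ × E3 => w p.1 p.2) ⁻¹' {0}ᶜ) :=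
      h.smooth.continuousOn.isOpen_inter_preimage hO isOpen_compl_singleton
    convert hO.measurableSet.compl.union h1.measurableSet using 1
    ext p
    simp only [mem_ofPred_eq, mem_union, mem_compl_iff, mem_prod, mem_univ, and_true, mem_inter_iff,
      mem_preimage, mem_singleton_iff]
    tauto
  rw [ae_iff, ← lintegral_indicator_one hm, stm_lint h (measurable_one.indicator hm)]
  refine setLIntegral_eq_zero h.isOpen.measurableSet fun t ht => ?_
  refine lintegral_congr_ae (g := fun _ => 0) ?_ |>.trans lintegral_zero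
  filter_upwards [ae_ar (slice h ht).smooth.continuous] with x hx
  exact indicator_of_notMem (show (t, x) ∉ {p : ℝ × E3 | ¬(p.1 ∈ I ∧ w p.1 p.2 = 0)} from
    fun h1 => h1 ⟨ht, hx⟩) _

/-- **The calculus on surfaces and flows.** -/
theorem calcThm : Calc where
  locFin _ h := locFin h
  slice _ _ h _ ht := slice h ht
  firstVar _ h _ hX hc := firstVar h hX hc
  ddt _ _ h _ hJ hJI _ hf _ hK hs _ ht := (ddt' h hJ hJI hf hK hs ht).2
  green _ _ h _ hJ hJI _ _ hψ hf _ hK hs _ ht := (green' h hJ hJI hψ hf hK hs ht).2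
  param _ _ h n _ _ _ _ _ _ _ hU hτ hm hf _ hK hs := param h n hU hτ hm hf hK hs
  stm_meas _ _ h _ hf := stm_meas h hf
  stm_lint _ _ h _ hf := stm_lint h hf
  stm_int _ _ h _ hf := stm_int h hf
  stm_fin _ _ h _ hK hKI := stm_fin h hK hKI
  stm_ae _ _ h := stm_ae h

end Vale.Agent.P218UX
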