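import Vale.Agent.P218UG.Graph
import Vale.Agent.P218UM.Basic

/-! Translated and dilated copies of a self-shrinker, and the flows they generate. -/

open MeasureTheory Set Filter Topology Metric
open scoped ENNReal NNReal RealInnerProductSpace ContDiff Pointwise

namespace Vale.Agent.P218UX

open Vale.Agent.P218UA Vale.Agent.P218UG
open Vale.Agent.P218 (WeakTendsto)
open Vale.Agent.P218.H63 (lap hessSq)

/-- the defining function of `c S - b` -/
noncomputable def aff (W : E3 → ℝ) (c : ℝ) (b x : E3) : ℝ := c * W (c⁻¹ • (x + b))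

variable {W : E3 → ℝ} {c : ℝ} {b : E3}

lemma aff_eq_zero (hc : c ≠ 0) (x : E3) : aff W c b x = 0 ↔ W (c⁻¹ • (x + b)) = 0 := by
  simp [aff, hc]

lemma hasFDerivAt_in (c : ℝ) (b x : E3) :
    HasFDerivAt (fun x : E3 => c⁻¹ • (x + b)) (c⁻¹ • ContinuousLinearMap.id ℝ E3) x :=
  ((hasFDerivAt_id x).add_const b).const_smul c⁻¹

lemma gradient_aff (hW : Differentiable ℝ W) (hc : c ≠ 0) (x : E3) :
    gradient (aff W c b) x = gradient W (c⁻¹ • (x + b)) := by
  have h := (((hW _).hasFDerivAt.comp x (hasFDerivAt_in c b x)).const_mul c).fderiv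
  unfold gradient
  congr 1
  refine h.trans ?_
  ext v
  simp [hc]

lemma hs_aff (hW : IsSurf W) (hc : c ≠ 0) (x : E3) :
    fderiv ℝ (gradient (aff W c b)) x = c⁻¹ • fderiv ℝ (gradient W) (c⁻¹ • (x + b)) := by
  have h0 : gradient (aff W c b) = fun x => gradient W (c⁻¹ • (x + b)) :=
    funext (gradient_aff (surf_diff hW) hc)
  rw [h0]
  refine ((surf_grad_diff hW _).hasFDerivAt.comp x (hasFDerivAt_in c b x)).fderiv.trans ?_
  ext v
  simp

lemma lap_aff (hW : IsSurf W) (hc : c ≠ 0) (x : E3) :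
    lap (aff W c b) x = c⁻¹ * lap W (c⁻¹ • (x + b)) := by
  unfold lap
  rw [hs_aff hW hc]
  simp

lemma hessSq_aff (hW : IsSurf W) (hc : c ≠ 0) (x : E3) :
    hessSq (aff W c b) x = c⁻¹ ^ 2 * hessSq W (c⁻¹ • (x + b)) := by
  unfold hessSq
  rw [hs_aff hW hc]
  simp [sq, mul_assoc]

lemma isSurf_aff (hW : IsSurf W) (hc : c ≠ 0) : IsSurf (aff W c b) where
  smooth := contDiff_const.mul (hW.smooth.comp (by fun_prop))
  eik x hx := by
    have h1 : Continuous fun x : E3 => c⁻¹ • (x + b) := by fun_prop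
    filter_upwards [h1.continuousAt.eventually (hW.eik _ ((aff_eq_zero hc x).1 hx))] with y hy
    rw [gradient_aff (surf_diff hW) hc]
    exact hy

/-- the homeomorphism `z ↦ c z - b` -/
noncomputable def tr (c : ℝ) (hc : c ≠ 0) (b : E3) : E3 ≃ₜ E3 :=
  (Homeomorph.smulOfNeZero c hc).trans (Homeomorph.subRight b)

lemma tr_apply (hc : c ≠ 0) (z : E3) : tr c hc b z = c • z - b := rfl

lemma in_tr (hc : c ≠ 0) (z : E3) : c⁻¹ • (tr c hc b z + b) = z := by
  rw [tr_apply, sub_add_cancel, smul_smul, inv_mul_cancel₀ hc, one_smul]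

lemma tr_in (hc : c ≠ 0) (x : E3) : tr c hc b (c⁻¹ • (x + b)) = x := by
  rw [tr_apply, smul_smul, mul_inv_cancel₀ hc, one_smul, add_sub_cancel_right]

lemma emb_tr (hc : c ≠ 0) : MeasurableEmbedding (tr c hc b) :=
  (tr c hc b).toMeasurableEquiv.measurableEmbedding

lemma hm_image (hc : c ≠ 0) (s : Set E3) :
    (μHE[2] : Measure E3) (tr c hc b '' s) = ENNReal.ofReal (c ^ 2) * μHE[2] s := by
  have h1 : tr c hc b '' s = (fun y => y - b) '' (c • s) := by
    rw [← image_smul, image_image]; rfl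
  have h2 : Isometry fun y : E3 => y - b := Isometry.of_dist_eq fun x y => by simp
  rw [h1, h2.euclideanHausdorffMeasure_image, Measure.euclideanHausdorffMeasure_smul₀ 2 hc,
    ENNReal.smul_def, smul_eq_mul]
  congr 1
  rw [← sq_abs, ENNReal.ofReal_pow (abs_nonneg c), ENNReal.coe_pow]
  congr 1
  exact (ofReal_norm c).symm

lemma ar_aff (hc : c ≠ 0) :
    ar (aff W c b) = ENNReal.ofReal (c ^ 2) • (ar W).map (tr c hc b) := by
  ext s hs
  rw [Measure.smul_apply, Measure.map_apply (emb_tr hc).measurable hs, ar, ar,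
    Measure.restrict_apply hs, Measure.restrict_apply ((emb_tr hc).measurable hs), smul_eq_mul,
    ← hm_image (b := b) hc]
  congr 1
  ext x
  constructor
  · rintro ⟨h1, h2⟩
    exact ⟨c⁻¹ • (x + b), ⟨by rwa [mem_preimage, tr_in], (aff_eq_zero hc x).1 h2⟩, tr_in hc x⟩
  · rintro ⟨z, ⟨h1, h2⟩, rfl⟩
    exact ⟨h1, (aff_eq_zero hc _).2 (by rwa [in_tr])⟩

lemma integral_aff (hc : c ≠ 0) (f : E3 → ℝ) :
    ∫ x, f x ∂(ar (aff W c b)) = c ^ 2 * ∫ z, f (c • z - b) ∂(ar W) := by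
  rw [ar_aff hc, integral_smul_measure, (emb_tr hc).integral_map,
    ENNReal.toReal_ofReal (sq_nonneg c), smul_eq_mul]
  rfl

lemma norm_tr_sub (hc : 0 < c) (z x : E3) :
    ‖c • z - b - x‖ = c * ‖z - c⁻¹ • (x + b)‖ := by
  have : c • z - b - x = c • (z - c⁻¹ • (x + b)) := by
    rw [smul_sub, smul_smul, mul_inv_cancel₀ hc.ne', one_smul]; abel
  rw [this, norm_smul, Real.norm_eq_abs, abs_of_pos hc]

lemma pre_ball (hc : 0 < c) (x : E3) (r : ℝ) :
    tr c hc.ne' b ⁻¹' ball x r = ball (c⁻¹ • (x + b)) (r / c) := by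
  ext z
  rw [mem_preimage, mem_ball_iff_norm, mem_ball_iff_norm, tr_apply, norm_tr_sub hc,
    lt_div_iff₀ hc, mul_comm]

lemma pre_closedBall (hc : 0 < c) (x : E3) (r : ℝ) :
    tr c hc.ne' b ⁻¹' closedBall x r = closedBall (c⁻¹ • (x + b)) (r / c) := by
  ext z
  rw [mem_preimage, mem_closedBall_iff_norm, mem_closedBall_iff_norm, tr_apply, norm_tr_sub hc,
    le_div_iff₀ hc, mul_comm]

lemma setIntegral_aff (hc : 0 < c) (f : E3 → ℝ) (x : E3) (r : ℝ) :
    ∫ y in ball x r, f y ∂(ar (aff W c b))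
      = c ^ 2 * ∫ z in ball (c⁻¹ • (x + b)) (r / c), f (c • z - b) ∂(ar W) := by
  rw [ar_aff hc.ne', Measure.restrict_smul, integral_smul_measure, (emb_tr hc.ne').setIntegral_map,
    ENNReal.toReal_ofReal (sq_nonneg c), smul_eq_mul, pre_ball hc]
  rfl

lemma AR_aff {A : ℝ} (hc : 0 < c) (h : AR (ar W) A) : AR (ar (aff W c b)) A := by
  intro x r hr
  rw [ar_aff hc.ne', Measure.smul_apply, (emb_tr hc.ne').map_apply, pre_closedBall hc,
    smul_eq_mul]
  refine (mul_le_mul_right (h _ _ (div_pos hr hc)) _).trans ?_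
  rw [← ENNReal.ofReal_mul (sq_nonneg c)]
  refine le_of_eq ?_
  congr 1
  field_simp

lemma LGB_aff {C : ℝ} (hW : IsSurf W) (hc : 0 < c) (h : LGB W C) : LGB (aff W c b) C := by
  intro z r hr
  have h1 := h (c⁻¹ • (z + b)) (r / c) (div_pos hr hc)
  have h2 (y : E3) : c⁻¹ • (c • y - b + b) = y := in_tr hc.ne' y
  rw [setIntegral_aff hc, setIntegral_aff hc]
  simp_rw [hessSq_aff hW hc.ne', lap_aff hW hc.ne', h2, mul_pow, integral_const_mul]
  rw [← mul_assoc, ← mul_assoc, ← mul_pow, mul_inv_cancel₀ hc.ne', one_pow, one_mul, one_mul,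
    mul_div_assoc]
  exact h1

lemma gd_aff (hc : 0 < c) (x : E3) (r : ℝ) :
    gd (ar (aff W c b)) x r = gd (ar W) (c⁻¹ • (x + b)) (r / c) := by
  unfold gd
  rw [integral_aff hc.ne']
  simp_rw [norm_tr_sub hc]
  have h1 (z : E3) : -(c * ‖z - c⁻¹ • (x + b)‖) ^ 2 / (4 * r ^ 2)
      = -‖z - c⁻¹ • (x + b)‖ ^ 2 / (4 * (r / c) ^ 2) := by
    rcases eq_or_ne r 0 with rfl | hr
    · simp
    · field_simp
  simp_rw [h1]
  rcases eq_or_ne r 0 with rfl | hr
  · simp
  · field_simp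

/-- the flow `√(-t) S - b` -/
noncomputable def sf (W : E3 → ℝ) (b : E3) (t : ℝ) : E3 → ℝ := aff W √(-t) b

lemma sqrt_neg_pos {t : ℝ} (ht : t < 0) : 0 < √(-t) := Real.sqrt_pos.2 (by linarith)

lemma sf_eq_zero {t : ℝ} (ht : t < 0) (x : E3) :
    sf W b t x = 0 ↔ W ((√(-t))⁻¹ • (x + b)) = 0 := aff_eq_zero (sqrt_neg_pos ht).ne' x

lemma sf_neg_one (x : E3) : sf W b (-1) x = W (x + b) := by
  simp [sf, aff]

lemma sf_neg_sq {s : ℝ} (hs : 0 ≤ s) : sf W b (-s ^ 2) = aff W s b := by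
  rw [sf, neg_neg, Real.sqrt_sq hs]

lemma resc_sf {s : ℝ} (hs : 0 < s) : resc (sf W b) s = sf W (s⁻¹ • b) := by
  funext t x
  have h1 : √(-(s ^ 2 * t)) = s * √(-t) := by
    rw [← mul_neg, Real.sqrt_mul (sq_nonneg s), Real.sqrt_sq hs.le]
  have h2 : (s * √(-t))⁻¹ • (s • x + b) = (√(-t))⁻¹ • (x + s⁻¹ • b) := by
    rw [mul_inv, mul_comm, ← smul_smul, smul_add, smul_smul, inv_mul_cancel₀ hs.ne', one_smul]
  simp only [resc, sf, aff, h1, h2]
  field_simp

lemma cd_sqrt {t : ℝ} (ht : t < 0) (x : E3) :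
    ContDiffAt ℝ ∞ (fun p : ℝ × E3 => √(-p.1)) (t, x) :=
  ContDiffAt.sqrt (by fun_prop) (by simp; linarith)

lemma cd_in {t : ℝ} (ht : t < 0) (x : E3) :
    ContDiffAt ℝ ∞ (fun p : ℝ × E3 => (√(-p.1))⁻¹ • (p.2 + b)) (t, x) :=
  ((cd_sqrt ht x).inv (sqrt_neg_pos ht).ne').smul (by fun_prop)

lemma isFlow_sf (hW : IsShr W) {I : Set ℝ} (hI : IsOpen I) (hI' : I.OrdConnected)
    (h0 : I ⊆ Iio 0) : IsFlow (sf W b) I where
  isOpen := hI
  conn := hI'
  smooth p hp := ((cd_sqrt (h0 hp.1) p.2).mul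
    (hW.smooth.contDiffAt.comp p (cd_in (h0 hp.1) p.2))).contDiffWithinAt
  eik t ht x hx := by
    have h1 := (cd_in (b := b) (h0 ht) x).continuousAt.eventually
      (hW.eik _ ((sf_eq_zero (h0 ht) x).1 hx))
    have h2 : ∀ᶠ p : ℝ × E3 in 𝓝 (t, x), p.1 < 0 :=
      continuous_fst.continuousAt.eventually (gt_mem_nhds (h0 ht))
    filter_upwards [h1, h2] with p hp hp'
    rw [sf, gradient_aff (surf_diff hW.toIsSurf) (sqrt_neg_pos hp').ne']
    exact hp
  eqn t ht x hx := by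
    have ht0 : t < 0 := h0 ht
    have hc := sqrt_neg_pos ht0
    have hz := (sf_eq_zero ht0 x).1 hx
    have h1 : HasDerivAt (fun s : ℝ => √(-s)) (-1 / (2 * √(-t))) t :=
      (hasDerivAt_neg t).sqrt (by linarith)
    have h2 := ((h1.inv hc.ne').smul_const (x + b))
    have h3 := (surf_diff hW.toIsSurf _).hasFDerivAt.comp_hasDerivAt t h2
    have h4 := (h1.mul h3).deriv
    rw [sf, lap_aff hW.toIsSurf hc.ne', hW.eqn _ hz]
    refine h4.trans ?_
    simp only [Function.comp_apply, Pi.inv_apply, hz, mul_zero, zero_add]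
    rw [← P218GA.inner_grad, real_inner_comm, inner_smul_left, inner_smul_left]
    simp only [conj_trivial]
    field_simp

lemma isGood_sf {A C : ℝ} (hW : IsShr W) (hA : 1 ≤ A) (hC : 1 ≤ C) (h1 : AR (ar W) A)
    (h2 : LGB W C) {I : Set ℝ} (hI : IsOpen I) (hI' : I.OrdConnected) (h0 : I ⊆ Iio 0) :
    IsGood (sf W b) I A C where
  toIsFlow := isFlow_sf hW hI hI' h0
  one_le := hA
  ratio _ ht := AR_aff (sqrt_neg_pos (h0 ht)) h1
  one_le' := hC
  lgb _ ht := LGB_aff hW.toIsSurf (sqrt_neg_pos (h0 ht)) h2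

end Vale.Agent.P218UX
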