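import Vale.Agent.P218UX.Smooth
import Vale.Agent.P218UA.Props

/-! The calculus on surfaces and flows in three-space: first variation, time derivative of surface
integrals, smooth dependence on parameters. -/

open MeasureTheory Set Filter Topology Metric Module
open scoped ENNReal NNReal RealInnerProductSpace ContDiff

namespace Vale.Agent.P218UX

open Vale.Agent.P218GA Vale.Agent.P218UA
open Vale.Agent.P218.H63 (lap contDiff_gradient hess_symm)

lemma rank3 : finrank ℝ E3 = 2 + 1 := by simp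

lemma area_eq (w : E3 → ℝ) : area 2 w = cH 2 • ar w := by
  rw [area, hausdorff_eq_smul, Measure.restrict_smul]; rfl

lemma ar_eq (w : E3 → ℝ) : ar w = (cH 2)⁻¹ • area 2 w := by
  rw [area_eq, smul_smul, inv_mul_cancel₀ (cH_pos 2).ne', one_smul]

lemma integral_ar (w f : E3 → ℝ) : ∫ x, f x ∂(ar w) = (cH 2 : ℝ)⁻¹ * ∫ x, f x ∂(area 2 w) := by
  rw [ar_eq, integral_smul_nnreal_measure, NNReal.smul_def, smul_eq_mul, NNReal.coe_inv]

lemma isEik_of {w : E3 → ℝ} (h : IsSurf w) : IsEik w := ⟨h.smooth.of_le two_le_inf, h.eik⟩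

theorem locFin {w : E3 → ℝ} (h : IsSurf w) : IsLocallyFiniteMeasure (ar w) := by
  have := (isEik_of h).locFin rank3
  rw [ar_eq]
  infer_instance

lemma ae_ar {w : E3 → ℝ} (hw : Continuous w) : ∀ᵐ x ∂(ar w), w x = 0 :=
  ae_restrict_mem (measurableSet_zero hw)

theorem firstVar {w : E3 → ℝ} (h : IsSurf w) {X : E3 → E3} (hX : ContDiff ℝ 1 X)
    (hc : HasCompactSupport X) : ∫ x, trT (gradient w x) (fderiv ℝ X x) ∂(ar w)
      = ∫ x, lap w x * ⟪X x, gradient w x⟫ ∂(ar w) := by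
  rw [integral_ar, integral_ar]
  congr 1
  have e := (isEik_of h).div_theorem rank3 hX hc
  simp only [mul_comm (lap w _), ← e]
  congr 1
  ext x
  rw [real_inner_comm]
  rfl

variable {w : ℝ → E3 → ℝ} {I : Set ℝ}

theorem slice (h : IsFlow w I) {t : ℝ} (ht : t ∈ I) : IsSurf (w t) :=
  ⟨h.smooth.comp_contDiff (contDiff_const.prodMk contDiff_id) fun _ => ⟨ht, mem_univ _⟩,
    fun x hx => (continuous_const.prodMk continuous_id).continuousAt.eventually (h.eik t ht x hx)⟩

lemma isLoc (h : IsFlow w I) {J : Set ℝ} (hJ : IsOpen J) (hJI : J ⊆ I) :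
    IsLoc (fun p : ℝ × E3 => w p.1 p.2) J :=
  ⟨hJ, h.smooth.mono (prod_mono hJI subset_rfl), fun z hz h0 => h.eik z.1 (hJI hz) z.2 h0⟩

lemma hasDerivAt_fst {g : ℝ × E3 → ℝ} {t : ℝ} {x : E3} (hg : DifferentiableAt ℝ g (t, x)) :
    HasDerivAt (fun s => g (s, x)) (fderiv ℝ g (t, x) (1, 0)) t :=
  hg.hasFDerivAt.comp_hasDerivAt t ((hasDerivAt_id t).prodMk (hasDerivAt_const t x))

lemma cdAt {F : Type*} [NormedAddCommGroup F] [NormedSpace ℝ F] {n : WithTop ℕ∞} {g : ℝ × E3 → F}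
    {J : Set ℝ} (hJ : IsOpen J) (hg : ContDiffOn ℝ n g (J ×ˢ univ)) {t : ℝ} (ht : t ∈ J) (x : E3) :
    ContDiffAt ℝ n g (t, x) :=
  hg.contDiffAt ((hJ.prod isOpen_univ).mem_nhds ⟨ht, mem_univ _⟩)

theorem ddt' (h : IsFlow w I) {J : Set ℝ} (hJ : IsOpen J) (hJI : J ⊆ I) {f : ℝ → E3 → ℝ}
    (hf : ContDiffOn ℝ 1 (fun p : ℝ × E3 => f p.1 p.2) (J ×ˢ univ)) {K : Set E3} (hK : IsCompact K)
    (hs : ∀ t ∈ J, ∀ x, x ∉ K → f t x = 0) {t : ℝ} (ht : t ∈ J) :
    Integrable (fun x => deriv (fun s => f s x) t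
      - lap (w t) x * ⟪gradient (f t) x, gradient (w t) x⟫ - lap (w t) x ^ 2 * f t x) (ar (w t)) ∧
    HasDerivAt (fun s => ∫ x, f s x ∂(ar (w s)))
      (∫ x, (deriv (fun s => f s x) t - lap (w t) x * ⟪gradient (f t) x, gradient (w t) x⟫
        - lap (w t) x ^ 2 * f t x) ∂(ar (w t))) t := by
  obtain ⟨h0, h1⟩ := (isLoc h hJ hJI).hasFDerivAt_SI rank3 hK hf hs ht
  have h2 := h1.hasDerivAt.const_mul (cH 2 : ℝ)⁻¹
  rw [ContinuousLinearMap.integral_apply h0] at h2
  have e : (fun x => DD (fun p : ℝ × E3 => w p.1 p.2) (fun p : ℝ × E3 => f p.1 p.2) (t, x) 1)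
      =ᵐ[area 2 (w t)] fun x => deriv (fun s => f s x) t
        - lap (w t) x * ⟪gradient (f t) x, gradient (w t) x⟫ - lap (w t) x ^ 2 * f t x := by
    filter_upwards [ae_area (m := 2) (slice h (hJI ht)).smooth.continuous] with x hx
    have d1 := (cdAt hJ hf ht x).differentiableAt one_ne_zero
    have d2 := (cdAt h.isOpen h.smooth (hJI ht) x).differentiableAt (by simp)
    rw [DD_apply, ← (hasDerivAt_fst d1).deriv, ← (hasDerivAt_fst d2).deriv, ← inner_gr d1]
    change deriv (fun s => f s x) t - (⟪gradient (f t) x, gradient (w t) x⟫ + f t x * lap (w t) x)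
      * deriv (fun s => w s x) t = _
    rw [h.eqn t (hJI ht) x hx]
    ring
  constructor
  · rw [ar_eq]
    exact ((h0.apply_continuousLinearMap 1).congr e).smul_measure_nnreal
  · simp only [integral_ar]
    rw [← integral_congr_ae e]
    exact h2

lemma inner_gradient_mul {f g : E3 → ℝ} {x : E3} (hf : DifferentiableAt ℝ f x)
    (hg : DifferentiableAt ℝ g x) (v : E3) : ⟪gradient (fun y => f y * g y) x, v⟫
      = f x * ⟪gradient g x, v⟫ + g x * ⟪gradient f x, v⟫ := by
  rw [inner_grad, inner_grad, inner_grad, fderiv_fun_mul hf hg]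
  simp

lemma trT_smul {f : E3 → ℝ} {X : E3 → E3} {x : E3} (hf : DifferentiableAt ℝ f x)
    (hX : DifferentiableAt ℝ X x) (n : E3) : trT n (fderiv ℝ (fun y => f y • X y) x)
      = f x * trT n (fderiv ℝ X x) + (⟪gradient f x, X x⟫ - ⟪gradient f x, n⟫ * ⟪X x, n⟫) := by
  have e := dv_smul hf hX
  change dv (fun y => f y • X y) x - _ = f x * (dv X x - _) + _
  rw [e, fderiv_fun_smul hf hX, inner_grad, inner_grad]
  simp only [add_apply, smul_apply, ContinuousLinearMap.smulRight_apply, inner_add_left,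
    real_inner_smul_left]
  ring

lemma trT_sub {X Y : E3 → E3} {x : E3} (hX : DifferentiableAt ℝ X x)
    (hY : DifferentiableAt ℝ Y x) (n : E3) : trT n (fderiv ℝ (fun y => X y - Y y) x)
      = trT n (fderiv ℝ X x) - trT n (fderiv ℝ Y x) := by
  have e := dv_sub hX hY
  change dv (fun y => X y - Y y) x - _ = (dv X x - _) - (dv Y x - _)
  rw [e, fderiv_fun_sub hX hY]
  simp only [sub_apply, inner_sub_left]
  ring

lemma continuous_trT {n X : E3 → E3} (hn : Continuous n) (hX : ContDiff ℝ 1 X) :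
    Continuous fun x => trT (n x) (fderiv ℝ X x) :=
  (continuous_dv hX).sub (((hX.continuous_fderiv one_ne_zero).clm_apply hn).inner hn)

lemma trT_zero (n : E3) : trT n 0 = 0 := by simp [trT]

theorem green_core (h : IsFlow w I) {J : Set ℝ} (hJ : IsOpen J) (hJI : J ⊆ I) {ψ f : ℝ → E3 → ℝ}
    (hψ : ContDiffOn ℝ 2 (fun p : ℝ × E3 => ψ p.1 p.2) (J ×ˢ univ))
    (hf : ContDiffOn ℝ 2 (fun p : ℝ × E3 => f p.1 p.2) (J ×ˢ univ)) {K : Set E3} (hK : IsCompact K)
    (hs : (∀ t ∈ J, ∀ x, x ∉ K → ψ t x = 0) ∨ ∀ t ∈ J, ∀ x, x ∉ K → f t x = 0) {t : ℝ} (ht : t ∈ J) :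
    Integrable (fun x => ψ t x * heat w f t x + f t x * adj w ψ t x) (ar (w t)) ∧
    HasDerivAt (fun s => ∫ x, ψ s x * f s x ∂(ar (w s)))
      (∫ x, (ψ t x * heat w f t x + f t x * adj w ψ t x) ∂(ar (w t))) t := by
  obtain ⟨h0, h1⟩ := ddt' h hJ hJI (f := fun s x => ψ s x * f s x)
    ((hψ.mul hf).of_le (by norm_num)) hK (fun s hs' x hx => by
      rcases hs with hs | hs
      · rw [hs s hs' x hx, zero_mul]
      · rw [hs s hs' x hx, mul_zero]) ht
  have hS := slice h (hJI ht)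
  have hlf := locFin hS
  have c1 : ContDiff ℝ 2 (ψ t) :=
    hψ.comp_contDiff (contDiff_const.prodMk contDiff_id) fun _ => ⟨ht, mem_univ _⟩
  have c2 : ContDiff ℝ 2 (f t) :=
    hf.comp_contDiff (contDiff_const.prodMk contDiff_id) fun _ => ⟨ht, mem_univ _⟩
  have g1 : ContDiff ℝ 1 (gradient (ψ t)) := contDiff_gradient c1 (by norm_num)
  have g2 : ContDiff ℝ 1 (gradient (f t)) := contDiff_gradient c2 (by norm_num)
  have c1' : ContDiff ℝ 1 (ψ t) := c1.of_le (by norm_num)
  have c2' : ContDiff ℝ 1 (f t) := c2.of_le (by norm_num)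
  have hX : ContDiff ℝ 1 fun x => ψ t x • gradient (f t) x - f t x • gradient (ψ t) x :=
    (c1'.smul g2).sub (c2'.smul g1)
  have hXc : HasCompactSupport fun x => ψ t x • gradient (f t) x - f t x • gradient (ψ t) x := by
    refine HasCompactSupport.intro hK fun x hx => ?_
    rcases hs with hs | hs
    · have e : ψ t =ᶠ[𝓝 x] fun _ => 0 := by
        filter_upwards [hK.isClosed.isOpen_compl.mem_nhds hx] with y hy using hs t ht y hy
      rw [hs t ht x hx, e.gradient_eq]
      simp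
    · have e : f t =ᶠ[𝓝 x] fun _ => 0 := by
        filter_upwards [hK.isClosed.isOpen_compl.mem_nhds hx] with y hy using hs t ht y hy
      rw [hs t ht x hx, e.gradient_eq]
      simp
  have e := firstVar hS hX hXc
  have gw : Continuous (gradient (w t)) := (isEik_of hS).cdg.continuous
  have i1 : Integrable (fun x => trT (gradient (w t) x) (fderiv ℝ
      (fun x => ψ t x • gradient (f t) x - f t x • gradient (ψ t) x) x)) (ar (w t)) :=
    (continuous_trT gw hX).integrable_of_hasCompactSupport ((hXc.fderiv ℝ).mono fun x hx h0 =>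
      hx (by beta_reduce; rw [h0, trT_zero]))
  have i2 : Integrable (fun x => lap (w t) x * ⟪ψ t x • gradient (f t) x - f t x • gradient (ψ t) x,
      gradient (w t) x⟫) (ar (w t)) :=
    ((continuous_lap (isEik_of hS).smooth).mul (hX.continuous.inner gw)).integrable_of_hasCompactSupport
      (hXc.mono fun x hx h0 => hx (by
        have h0' : ψ t x • gradient (f t) x - f t x • gradient (ψ t) x = 0 := h0
        rw [Pi.mul_apply, h0', inner_zero_left, mul_zero]))
  have e2 : ∀ x, ψ t x * heat w f t x + f t x * adj w ψ t x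
      = (deriv (fun s => ψ s x * f s x) t
        - lap (w t) x * ⟪gradient (fun y => ψ t y * f t y) x, gradient (w t) x⟫
        - lap (w t) x ^ 2 * (ψ t x * f t x)) - (trT (gradient (w t) x) (fderiv ℝ
      (fun x => ψ t x • gradient (f t) x - f t x • gradient (ψ t) x) x)
        - lap (w t) x * ⟪ψ t x • gradient (f t) x - f t x • gradient (ψ t) x, gradient (w t) x⟫) := by
    intro x
    have d1 : DifferentiableAt ℝ (fun s => ψ s x) t :=
      (hasDerivAt_fst ((cdAt hJ hψ ht x).differentiableAt (by simp))).differentiableAt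
    have d2 : DifferentiableAt ℝ (fun s => f s x) t :=
      (hasDerivAt_fst ((cdAt hJ hf ht x).differentiableAt (by simp))).differentiableAt
    have d3 := c1'.differentiable one_ne_zero x
    have d4 := c2'.differentiable one_ne_zero x
    have d5 := g1.differentiable one_ne_zero x
    have d6 := g2.differentiable one_ne_zero x
    rw [deriv_fun_mul d1 d2, inner_gradient_mul d3 d4,
      trT_sub (d3.fun_smul d6) (d4.fun_smul d5), trT_smul d3 d6, trT_smul d4 d5, heat, adj,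
      P218UA.hs, P218UA.hs,
      inner_sub_left, real_inner_smul_left, real_inner_smul_left,
      real_inner_comm (gradient (ψ t) x) (gradient (f t) x)]
    ring
  simp only [e2]
  refine ⟨h0.sub (i1.sub i2), ?_⟩
  rw [integral_sub h0 (i1.sub' i2), integral_sub i1 i2, e, sub_self, sub_zero]
  exact h1

theorem green' (h : IsFlow w I) {J : Set ℝ} (hJ : IsOpen J) (hJI : J ⊆ I) {ψ f : ℝ → E3 → ℝ}
    (hψ : ContDiffOn ℝ 2 (fun p : ℝ × E3 => ψ p.1 p.2) (J ×ˢ univ))
    (hf : ContDiffOn ℝ 2 (fun p : ℝ × E3 => f p.1 p.2) (J ×ˢ univ)) {K : Set E3} (hK : IsCompact K)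
    (hs : ∀ t ∈ J, ∀ x, x ∉ K → ψ t x = 0) {t : ℝ} (ht : t ∈ J) :
    Integrable (fun x => ψ t x * heat w f t x + f t x * adj w ψ t x) (ar (w t)) ∧
    HasDerivAt (fun s => ∫ x, ψ s x * f s x ∂(ar (w s)))
      (∫ x, (ψ t x * heat w f t x + f t x * adj w ψ t x) ∂(ar (w t))) t :=
  green_core h hJ hJI hψ hf hK (Or.inl hs) ht

theorem param (h : IsFlow w I) (n : ℕ) {P : Type*} [NormedAddCommGroup P] [NormedSpace ℝ P]
    [FiniteDimensional ℝ P] {τ : P → ℝ} {f : P → E3 → ℝ} {U : Set P} (hU : IsOpen U)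
    (hτ : ContDiffOn ℝ n τ U) (hm : MapsTo τ U I)
    (hf : ContDiffOn ℝ n (fun p : P × E3 => f p.1 p.2) (U ×ˢ univ)) {K : Set E3} (hK : IsCompact K)
    (hs : ∀ a ∈ U, ∀ x, x ∉ K → f a x = 0) :
    ContDiffOn ℝ n (fun a => ∫ x, f a x ∂(ar (w (τ a)))) U := by
  have hL : IsLoc (fun z : (P × ℝ) × E3 => w z.1.2 z.2) (U ×ˢ I) :=
    ⟨hU.prod h.isOpen, h.smooth.comp ((contDiff_snd.comp contDiff_fst).prodMk
      contDiff_snd).contDiffOn fun z hz => ⟨hz.1.2, mem_univ _⟩, fun z hz h0 =>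
      ((continuous_snd.comp continuous_fst).prodMk continuous_snd).continuousAt.eventually
        (h.eik z.1.2 hz.2 z.2 h0)⟩
  have h1 := hL.contDiffOn_SI rank3 hK n (g := fun z : (P × ℝ) × E3 => f z.1.1 z.2)
    (hf.comp ((contDiff_fst.comp contDiff_fst).prodMk contDiff_snd).contDiffOn
      fun z hz => ⟨hz.1.1, mem_univ _⟩) fun p hp x hx => hs p.1 hp.1 x hx
  simp only [integral_ar]
  exact contDiffOn_const.mul (h1.comp (contDiffOn_id.prodMk hτ) fun a ha => ⟨ha, hm ha⟩)

/-- continuity in time of the integrals of continuous functions -/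
theorem continuousOn_integral (h : IsFlow w I) {J : Set ℝ} (hJ : IsOpen J) (hJI : J ⊆ I)
    {f : ℝ → E3 → ℝ} (hf : ContinuousOn (fun p : ℝ × E3 => f p.1 p.2) (J ×ˢ univ)) {K : Set E3}
    (hK : IsCompact K) (hs : ∀ t ∈ J, ∀ x, x ∉ K → f t x = 0) :
    ContinuousOn (fun t => ∫ x, f t x ∂(ar (w t))) J := by
  simp only [integral_ar]
  exact continuousOn_const.mul ((isLoc h hJ hJI).continuousOn_SI rank3 hK hf hs)

end Vale.Agent.P218UX
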