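import Vale.Agent.P218UX.Split

/-! In the directions which are not cylindrical the surfaces `s S` are empty or graphs which
converge smoothly as `s → 0`. -/

open MeasureTheory Set Filter Topology Metric
open scoped ENNReal NNReal RealInnerProductSpace ContDiff

namespace Vale.Agent.P218UX

open Vale.Agent.P218UA Vale.Agent.P218UG
open Vale.Agent.P218 (WeakTendsto)

variable {W : E3 → ℝ} {A C : ℝ} {e : E3}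

lemma sqrt_bounds {σ t : ℝ} (hσ : 0 < σ) (ht : t ∈ Ioo (-(σ ^ 2 / 4)) 0) :
    σ / 2 ≤ √(t + σ ^ 2) ∧ √(t + σ ^ 2) ≤ σ ∧ √(t + σ ^ 2) ^ 2 = t + σ ^ 2 :=
  ⟨Real.le_sqrt_of_sq_le (by nlinarith [ht.1]), Real.sqrt_le_iff.2 ⟨hσ.le, by linarith [ht.2]⟩,
    Real.sq_sqrt (by nlinarith [ht.1])⟩

/-- the graphical regularity theorem applies up to the time zero -/
lemma exists_sheets (H : Hyp) (h : Sh W A C) (he : ‖e‖ = 1) (he' : e ∉ cylDir W) {η : ℝ}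
    (hη : 0 < η) : ∃ (Q : E3 ≃ₗᵢ[ℝ] E3) (σ : ℝ), 0 < σ ∧ σ < η ∧ ∀ t ∈ Ioo (-(σ ^ 2 / 4)) 0,
      SheetOn (sf W 0) (Icc (t - (t + σ ^ 2) / 4) t) Q e (2 * σ) √(t + σ ^ 2) η := by
  obtain ⟨ε, hε, hS⟩ := H.sheet A η hη
  obtain ⟨s, ν, n, hT, hn, hν⟩ := exists_flat H h he he'
  obtain ⟨Q, rfl⟩ := exists_frame hn
  have hg := (h.good e (-1)).toIsARFlow
  obtain ⟨i, hi, hi'⟩ := ((H.tan.gd_lim _ _ A (Eventually.of_forall fun i => by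
    rw [resc_sf (hT.pos i)]
    exact (h.flow _).ratio _ (by norm_num : (-1 : ℝ) < 0))
    (H.tan.ratio _ (-1) A (by norm_num) hg _ _ hT) hT.weak 22 (1 / 4) 1 ε (by norm_num) hε).and
      (hT.lim.eventually (gt_mem_nhds hη))).exists
  have hσ := hT.pos i
  refine ⟨Q, s i, hσ, hi', fun t ht => ?_⟩
  obtain ⟨b1, b2, b3⟩ := sqrt_bounds hσ ht
  have := hS _ _ (h.flow 0) Q e (2 * s i) √(t + s i ^ 2) t (by positivity) (by linarith)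
    (fun t' ht' => ht'.2.trans_lt ht.2) fun ξ k r hξ hk hr => ?_
  · rwa [b3] at this
  have c1 : ‖(s i)⁻¹ • lin Q (ξ, k)‖ ≤ 22 := by
    rw [norm_smul, norm_inv, Real.norm_eq_abs, abs_of_pos hσ, inv_mul_le_iff₀ hσ]
    linarith [norm_lin_le (Q := Q) (ξ, k)]
  have c2 : r / s i ∈ Icc (1 / 4 : ℝ) 1 :=
    ⟨(le_div_iff₀ hσ).2 (by linarith [hr.1]), (div_le_one hσ).2 (by linarith [hr.2])⟩
  have c3 := (abs_le.1 (hi _ c1 _ c2).1).2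
  have c4 := hν ((s i)⁻¹ • lin Q (ξ, k)) (r / s i) (by linarith [c2.1])
  have c5 : -⟪(s i)⁻¹ • lin Q (ξ, k), nQ Q⟫ ^ 2 / (4 * (r / s i) ^ 2) = -k ^ 2 / (4 * r ^ 2) := by
    have : 0 < r := by linarith [hr.1]
    rw [inner_smul_left, inner_lin_nQ]
    simp only [conj_trivial]
    field_simp
  rw [resc_sf hσ, sf, neg_neg, Real.sqrt_one, gd_aff one_pos, inv_one, one_smul, div_one] at c3
  rw [c5] at c4
  rw [b3, sub_add_cancel_left, sf_neg_sq hσ.le, gd_aff hσ, add_zero, pt_eq, smul_add, add_comm]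
  linarith

/-- a family of graphs with bounds on the time interval `T` -/
def Fam (w : ℝ → E3 → ℝ) (T : Set ℝ) (Q : E3 ≃ₗᵢ[ℝ] E3) (p : E3) (σ η : ℝ)
    (U : ℝ → E2 → ℝ) : Prop :=
  ∀ t ∈ T, IsGraph {x | w t x = 0} Q p (2 * σ) σ (U t) ∧ ∀ ξ : E2, ‖ξ‖ < 2 * σ →
    ContDiffAt ℝ ∞ (fun q : ℝ × E2 => U q.1 q.2) (t, ξ) ∧
    (∀ᶠ q : ℝ × E2 in 𝓝 (t, ξ), w q.1 (pt Q p q.2 (U q.1 q.2)) = 0) ∧
    |U t ξ| ≤ η * σ ∧ ‖gradient (U t) ξ‖ ≤ η ∧ ‖fderiv ℝ (gradient (U t)) ξ‖ ≤ 1 / (σ / 4)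

/-- the graphs for the different final times fit together -/
lemma patch {w : ℝ → E3 → ℝ} {Q : E3 ≃ₗᵢ[ℝ] E3} {p : E3} {σ η : ℝ} (hσ : 0 < σ) (hη : 0 < η)
    (hη' : η ≤ 1 / 2) (h : ∀ t ∈ Ioo (-(σ ^ 2 / 4)) 0,
      SheetOn w (Icc (t - (t + σ ^ 2) / 4) t) Q p (2 * σ) √(t + σ ^ 2) η) :
    (∀ t ∈ Ioo (-(σ ^ 2 / 4)) 0, ∀ (ξ : E2) (k : ℝ), ‖ξ‖ < 2 * σ → |k| < σ →
      w t (pt Q p ξ k) ≠ 0) ∨ ∃ U, Fam w (Ioo (-(σ ^ 2 / 4)) 0) Q p σ η U := by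
  have hm (t : ℝ) (ht : t ∈ Ioo (-(σ ^ 2 / 4)) 0) (t' : ℝ) (h1 : -(σ ^ 2 / 4) ≤ t')
      (h2 : t' ≤ t) : t' ∈ Icc (t - (t + σ ^ 2) / 4) t := ⟨by linarith [ht.2], h2⟩
  have h0 : ‖(0 : E2)‖ < 2 * σ := by simpa using hσ
  have hb (t : ℝ) (ht : t ∈ Ioo (-(σ ^ 2 / 4)) 0) : η * √(t + σ ^ 2) ≤ η * σ :=
    mul_le_mul_of_nonneg_left (sqrt_bounds hσ ht).2.1 hη.le
  have hb' : η * σ < σ := by nlinarith
  by_cases hc : ∀ k, |k| < σ → w (-(σ ^ 2 / 4)) (pt Q p 0 k) ≠ 0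
  · refine Or.inl fun t ht ξ k hξ hk => ?_
    rcases h t ht with h1 | ⟨u, h1⟩
    · exact h1 t (hm t ht t ht.1.le le_rfl) ξ k hξ (by linarith [(sqrt_bounds hσ ht).1])
    · obtain ⟨h2, h3⟩ := h1 _ (hm t ht _ le_rfl ht.1.le)
      exact (hc _ ((h3 0 h0).2.2.1.trans_lt ((hb t ht).trans_lt hb')) (graph_mem h2 h0)).elim
  push Not at hc
  obtain ⟨k, hk, hk'⟩ := hc
  choose! u hu using fun t ht => (h t ht).resolve_left fun h1 =>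
    h1 _ (hm t ht _ le_rfl ht.1.le) 0 k h0 (by linarith [(sqrt_bounds hσ ht).1]) hk'
  refine Or.inr ⟨fun t => u t t, fun t ht => ?_⟩
  obtain ⟨h1, h2⟩ := hu t ht t (hm t ht t ht.1.le le_rfl)
  obtain ⟨b1, b2, -⟩ := sqrt_bounds hσ ht
  refine ⟨fun ξ hξ => ⟨(h2 ξ hξ).2.2.1.trans_lt ((hb t ht).trans_lt hb'), fun s hs =>
    (h1 ξ hξ).2 s (by linarith)⟩, fun ξ hξ => ?_⟩
  have ht' : t / 2 ∈ Ioo (-(σ ^ 2 / 4)) 0 := ⟨by linarith [ht.1, ht.2], by linarith [ht.2]⟩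
  have hev : ∀ᶠ q : ℝ × E2 in 𝓝 (t, ξ), u q.1 q.1 q.2 = u (t / 2) q.1 q.2 := by
    filter_upwards [prod_mem_nhds (Ioo_mem_nhds ht.1 (by linarith [ht.2] : t < t / 2))
      (isOpen_ball.mem_nhds (mem_ball_zero_iff.2 hξ))] with q hq
    have hq1 : q.1 ∈ Ioo (-(σ ^ 2 / 4)) 0 := ⟨hq.1.1, hq.1.2.trans ht'.2⟩
    have hq2 := mem_ball_zero_iff.1 hq.2
    obtain ⟨h3, h4⟩ := hu _ hq1 _ (hm _ hq1 _ hq1.1.le le_rfl)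
    refine (((hu _ ht' _ (hm _ ht' _ hq1.1.le hq.1.2.le)).1 _ hq2).2 _ ?_).1 (graph_mem h3 hq2)
    linarith [(h4 _ hq2).2.2.1, hb _ hq1, (sqrt_bounds hσ ht').1]
  obtain ⟨h3, h4, -⟩ := (hu _ ht' t (hm _ ht' t ht.1.le (by linarith [ht.2]))).2 ξ hξ
  obtain ⟨-, -, h5, h6, h7⟩ := h2 ξ hξ
  refine ⟨h3.congr_of_eventuallyEq hev, ?_, h5.trans (hb t ht), h6, h7.trans ?_⟩
  · filter_upwards [hev, h4] with q h8 h9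
    rwa [h8]
  · exact div_le_div₀ zero_le_one (by linarith) (by positivity) (by linarith)

variable {w : ℝ → E3 → ℝ} {I : Set ℝ} {Q : E3 ≃ₗᵢ[ℝ] E3} {p : E3} {σ η : ℝ} {U : ℝ → E2 → ℝ}

lemma Fam.eqn {T : Set ℝ} (h : Fam w T Q p σ η U) (hw : IsFlow w I) (hT : T ⊆ I) {t : ℝ}
    (ht : t ∈ T) {ξ : E2} (hξ : ‖ξ‖ < 2 * σ) : deriv (fun s => U s ξ) t = gmc (U t) ξ :=
  graph.eqn w I hw Q p U t (hT ht) ξ (((h t ht).2 ξ hξ).1.of_le (by norm_cast))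
    ((h t ht).2 ξ hξ).2.1

lemma Fam.smooth {T : Set ℝ} (h : Fam w T Q p σ η U) {t : ℝ} (ht : t ∈ T) {r : ℝ}
    (hr : r ≤ 2 * σ) : ContDiffOn ℝ ∞ (U t) (ball 0 r) := fun ξ hξ =>
  (ContDiffAt.comp ξ (g := fun q : ℝ × E2 => U q.1 q.2) (f := fun ξ : E2 => (t, ξ))
    ((h t ht).2 ξ ((mem_ball_zero_iff.1 hξ).trans_le hr)).1 (by fun_prop)).contDiffWithinAt

/-- all space derivatives are bounded up to the time zero -/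
lemma Fam.bound (hd : HDStmt) (h : Fam w (Ioo (-(σ ^ 2 / 4)) 0) Q p σ η U) (hw : IsFlow w I)
    (hT : Ioo (-(σ ^ 2 / 4)) 0 ⊆ I) (hσ : 0 < σ) (hη : η ≤ 1) (k : ℕ) :
    ∃ K : ℝ, ∀ t ∈ Ioo (-(σ ^ 2 / 8)) 0, ∀ ξ ∈ ball (0 : E2) σ, ∀ j, 1 ≤ j → j ≤ k →
      ‖iteratedFDeriv ℝ j (U t) ξ‖ ≤ K := by
  have h1 (j : ℕ) : ∃ K : ℝ, 1 ≤ j → ∀ t ∈ Ioo (-(σ ^ 2 / 8)) 0, ∀ ξ ∈ ball (0 : E2) σ,
      ‖iteratedFDeriv ℝ j (U t) ξ‖ ≤ K := by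
    rcases lt_or_ge j 2 with hj | hj
    · refine ⟨1, fun hj' t ht ξ hξ => ?_⟩
      obtain rfl : j = 1 := by omega
      rw [norm_iteratedFDeriv_one, ← norm_grad]
      exact ((h t ⟨by nlinarith [ht.1], ht.2⟩).2 ξ
        (by linarith [mem_ball_zero_iff.1 hξ])).2.2.2.1.trans hη
    · obtain ⟨K, hK⟩ := hd 1 j hj
      refine ⟨K / (σ / 4) ^ (j - 1), fun _ t ht ξ hξ =>
        hK U t (σ / 4) ξ (by positivity) fun t' ht' ζ hζ => ?_⟩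
      have a1 : t' ∈ Ioo (-(σ ^ 2 / 4)) 0 := ⟨by nlinarith [ht.1, ht'.1], ht'.2.trans_lt ht.2⟩
      have a2 : ‖ζ‖ < 2 * σ := by
        linarith [mem_ball_zero_iff.1 hξ, mem_closedBall_iff_norm.1 hζ, norm_sub_norm_le ζ ξ]
      obtain ⟨a3, -, -, a4, a5⟩ := (h t' a1).2 ζ a2
      exact ⟨a3, h.eqn hw hT a1 a2, a4.trans hη, a5⟩
  choose K hK using h1
  exact ⟨∑ j ∈ Finset.range (k + 1), |K j|, fun t ht ξ hξ j hj hj' =>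
    (hK j hj t ht ξ hξ).trans ((le_abs_self _).trans (Finset.single_le_sum
      (f := fun i => |K i|) (fun _ _ => abs_nonneg _) (Finset.mem_range.2 (by omega))))⟩

/-- all jets are Lipschitz in time -/
lemma Fam.lip (hd : HDStmt) (h : Fam w (Ioo (-(σ ^ 2 / 4)) 0) Q p σ η U) (hw : IsFlow w I)
    (hT : Ioo (-(σ ^ 2 / 4)) 0 ⊆ I) (hσ : 0 < σ) (hη : η ≤ 1) (k : ℕ) :
    ∃ K : ℝ, ∀ t ∈ Ioo (-(σ ^ 2 / 8)) 0, ∀ t' ∈ Ioo (-(σ ^ 2 / 8)) 0, ∀ ξ ∈ ball (0 : E2) σ,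
      ‖iteratedFDeriv ℝ k (U t) ξ - iteratedFDeriv ℝ k (U t') ξ‖ ≤ K * |t - t'| := by
  obtain ⟨K, hK⟩ := h.bound hd hw hT hσ hη (k + 2)
  obtain ⟨B, hB⟩ := gmc_bound k K
  refine ⟨B, fun t ht t' ht' ξ hξ => ?_⟩
  have a0 {s : ℝ} (hs : s ∈ Ioo (-(σ ^ 2 / 8)) 0) : s ∈ Ioo (-(σ ^ 2 / 4)) 0 :=
    ⟨by nlinarith [hs.1], hs.2⟩
  refine (convex_Ioo _ _).norm_image_sub_le_of_norm_hasDerivWithin_le
    (f := fun s => iteratedFDeriv ℝ k (U s) ξ) (f' := fun s => iteratedFDeriv ℝ k (gmc (U s)) ξ)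
    (fun s hs => HasDerivAt.hasDerivWithinAt ?_) (fun s hs => hB _ _ ξ isOpen_ball hξ
      (h.smooth (a0 hs) (by linarith)) (hK s hs ξ hξ)) ht' ht
  have a1 := hasDerivAt_iter k (F := fun q : ℝ × E2 => U q.1 q.2)
    (((h s (a0 hs)).2 ξ (by linarith [mem_ball_zero_iff.1 hξ])).1.of_le
      (by exact_mod_cast le_top))
  have a2 : (fun y => deriv (fun s => U s y) s) =ᶠ[𝓝 ξ] gmc (U s) := by
    filter_upwards [isOpen_ball.mem_nhds hξ] with y hy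
    exact h.eqn hw hT (a0 hs) (by linarith [mem_ball_zero_iff.1 hy])
  rwa [(a2.iteratedFDeriv ℝ k).self_of_nhds] at a1

theorem con (H : Hyp) (h : Sh W A C) (he : ‖e‖ = 1) (he' : e ∉ cylDir W) (η : ℝ) (hη : 0 < η) :
    ∃ (Q : E3 ≃ₗᵢ[ℝ] E3) (ρ s₀ : ℝ), 0 < ρ ∧ ρ < η ∧ 0 < s₀ ∧
    ((∀ s ∈ Ioo 0 s₀, ∀ (ξ : E2) (k : ℝ), ‖ξ‖ < ρ → |k| < ρ →
        s⁻¹ • pt Q e ξ k ∉ {x | W x = 0}) ∨
      ∃ u : ℝ → E2 → ℝ, (∀ s ∈ Ioo 0 s₀, IsGraph {x | s⁻¹ • x ∈ {x | W x = 0}} Q e ρ ρ (u s) ∧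
        ContDiffOn ℝ ∞ (u s) (ball 0 ρ) ∧
        ∀ ξ ∈ ball (0 : E2) ρ, |u s ξ| ≤ η * ρ ∧ ‖gradient (u s) ξ‖ ≤ η) ∧
        ContDiffOn ℝ ∞ (u 0) (ball 0 ρ) ∧ ∀ k : ℕ, ∃ C : ℝ, ∀ s ∈ Ioo 0 s₀, ∀ ξ ∈ ball (0 : E2) ρ,
          ‖iteratedFDeriv ℝ k (u s) ξ - iteratedFDeriv ℝ k (u 0) ξ‖ ≤ C * s ^ 2) := by
  have hη' : 0 < min η (1 / 2) := lt_min hη (by norm_num)
  obtain ⟨Q, σ, hσ, hσ', hS⟩ := exists_sheets H h he he' hη'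
  refine ⟨Q, σ, σ / 4, hσ, hσ'.trans_le (min_le_left _ _), by positivity, ?_⟩
  have a0 {s : ℝ} (hs : s ∈ Ioo 0 (σ / 4)) : -s ^ 2 ∈ Ioo (-(σ ^ 2 / 8)) 0 :=
    ⟨by nlinarith [hs.1, hs.2], neg_lt_zero.2 (pow_pos hs.1 2)⟩
  have a1 {s : ℝ} (hs : s ∈ Ioo (-(σ ^ 2 / 8)) 0) : s ∈ Ioo (-(σ ^ 2 / 4)) 0 :=
    ⟨by nlinarith [hs.1], hs.2⟩
  have a2 {s : ℝ} (hs : s ∈ Ioo 0 (σ / 4)) (x : E3) : sf W 0 (-s ^ 2) x = 0 ↔ W (s⁻¹ • x) = 0 := by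
    rw [sf_neg_sq hs.1.le, aff_eq_zero hs.1.ne', add_zero]
  rcases patch hσ hη' (min_le_right _ _) hS with h1 | ⟨U, hU⟩
  · exact Or.inl fun s hs ξ k hξ hk h2 => h1 _ (a1 (a0 hs)) ξ k (by linarith) hk ((a2 hs _).2 h2)
  choose K hK using hU.lip H.hd (h.flow 0).toIsFlow Ioo_subset_Iio_self hσ
    ((min_le_right _ _).trans (by norm_num))
  obtain ⟨u, hu, hu'⟩ := exists_lim isOpen_ball (by positivity : 0 < σ ^ 2 / 8)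
    (fun t ht => hU.smooth (a1 ht) (by linarith : σ ≤ 2 * σ)) K hK
  refine Or.inr ⟨fun s => if s = 0 then u else U (-s ^ 2), fun s hs => ?_, by simpa using hu,
    fun k => ⟨K k, fun s hs ξ hξ => ?_⟩⟩
  · simp only [hs.1.ne', if_false]
    obtain ⟨h1, h2⟩ := hU _ (a1 (a0 hs))
    refine ⟨fun ξ hξ => ⟨(h1 ξ (by linarith)).1, fun k hk => ?_⟩,
      hU.smooth (a1 (a0 hs)) (by linarith), fun ξ hξ => ?_⟩
    · exact (a2 hs _).symm.trans ((h1 ξ (by linarith)).2 k hk)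
    · obtain ⟨-, -, h3, h4, -⟩ := h2 ξ (by linarith [mem_ball_zero_iff.1 hξ])
      exact ⟨h3.trans (mul_le_mul_of_nonneg_right (min_le_left _ _) hσ.le),
        h4.trans (min_le_left _ _)⟩
  · simpa [hs.1.ne'] using hu' k _ (a0 hs) ξ hξ

end Vale.Agent.P218UX
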