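import Vale.Agent.P218GA.Div

/-! The divergence theorem on the zero set of a function which solves the eikonal equation near
its zero set (no uniform tube). -/

open MeasureTheory Set Filter Topology Metric Module
open scoped ENNReal NNReal RealInnerProductSpace

namespace Vale.Agent.P218UX

set_option linter.unusedSectionVars false

open Vale.Agent.P218GA
open Vale.Agent.P218.H63 (lap contDiff_gradient hess_symm)

variable {E : Type*} [NormedAddCommGroup E] [InnerProductSpace ℝ E] [FiniteDimensional ℝ E]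

/-- `w` is `C²` and `|∇w| = 1` near the zero set -/
structure IsEik (w : E → ℝ) : Prop where
  smooth : ContDiff ℝ 2 w
  eik : ∀ x, w x = 0 → ∀ᶠ y in 𝓝 x, ‖gradient w y‖ = 1

/-- the differentiated eikonal equation -/
lemma hess_grad_of_eventually {w : E → ℝ} (hw : ContDiff ℝ 2 w) {x : E}
    (hx : ∀ᶠ y in 𝓝 x, ‖gradient w y‖ = 1) : fderiv ℝ (gradient w) x (gradient w x) = 0 := by
  have hd : HasFDerivAt (gradient w) (fderiv ℝ (gradient w) x) x :=
    ((contDiff_gradient hw (n := 1) (by norm_num)).differentiable one_ne_zero x).hasFDerivAt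
  have h3 : (fun y => ‖gradient w y‖ ^ 2) =ᶠ[𝓝 x] fun _ => 1 := by
    filter_upwards [hx] with y hy
    rw [hy]; norm_num
  have h5 := hd.norm_sq.unique ((hasFDerivAt_const (1 : ℝ) x).congr_of_eventuallyEq h3)
  apply ext_inner_left ℝ
  intro v
  rw [inner_zero_right, ← hess_symm hw]
  have h6 := congrArg (fun L : E →L[ℝ] ℝ => L v) h5
  simpa [real_inner_comm] using h6

/-- a property which holds near the zero set holds in a slab on each compact set -/
lemma exists_slab {X : Type*} [TopologicalSpace X] {w : X → ℝ} (hw : Continuous w) {Q : X → Prop}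
    (hQ : ∀ x, w x = 0 → ∀ᶠ y in 𝓝 x, Q y) {K : Set X} (hK : IsCompact K) :
    ∃ δ : ℝ, 0 < δ ∧ ∀ x ∈ K, |w x| < δ → ∀ᶠ y in 𝓝 x, Q y := by
  have hU : IsOpen {x | ∀ᶠ y in 𝓝 x, Q y} := isOpen_setOfPred_eventually_nhds
  have hc : IsCompact (K \ {x | ∀ᶠ y in 𝓝 x, Q y}) := hK.diff hU
  rcases (K \ {x | ∀ᶠ y in 𝓝 x, Q y}).eq_empty_or_nonempty with h0 | hne
  · refine ⟨1, one_pos, fun x hx _ => ?_⟩
    by_contra h
    have : x ∈ K \ {x | ∀ᶠ y in 𝓝 x, Q y} := ⟨hx, h⟩
    rw [h0] at this
    exact this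
  · obtain ⟨z, hz, hmin⟩ := hc.exists_isMinOn hne hw.abs.continuousOn
    refine ⟨|w z|, abs_pos.2 fun h0 => hz.2 (hQ z h0), fun x hx hlt => ?_⟩
    by_contra h
    have := hmin (show x ∈ K \ {x | ∀ᶠ y in 𝓝 x, Q y} from ⟨hx, h⟩)
    exact absurd hlt (not_lt.2 this)

variable {w : E → ℝ}

namespace IsEik

variable (h : IsEik w)
include h

lemma cd1 : ContDiff ℝ 1 w := h.smooth.of_le (by norm_num)

lemma cdg : ContDiff ℝ 1 (gradient w) := contDiff_gradient h.smooth (by norm_num)

lemma unit (x : E) (hx : w x = 0) : ‖gradient w x‖ = 1 := (h.eik x hx).self_of_nhds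

lemma hess_grad {x : E} (hx : w x = 0) : fderiv ℝ (gradient w) x (gradient w x) = 0 :=
  hess_grad_of_eventually h.smooth (h.eik x hx)

end IsEik

variable [MeasurableSpace E] [BorelSpace E] {m : ℕ}

namespace IsEik

variable (h : IsEik w) (hE : finrank ℝ E = m + 1)
include h hE

lemma locFin : IsLocallyFiniteMeasure (area m w) := area_locallyFinite hE h.cd1 h.unit

lemma slab {g : E → ℝ} (hg : Continuous g) (hgc : HasCompactSupport g) :
    Tendsto (fun ε => cH m * ∫ x, g x * aid eta ε (w x)) (𝓝[>] 0) (𝓝 (∫ x, g x ∂(area m w))) :=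
  slab_limit hE h.cd1 h.unit contDiff_eta.continuous eta_compact integral_eta hg hgc

/-- the ambient divergence of a field tangent to the level sets integrates to zero -/
lemma integral_dv_tangent {Y : E → E} (hY : ContDiff ℝ 1 Y) (hYc : HasCompactSupport Y)
    (hYt : ∀ x, ‖gradient w x‖ = 1 → ⟪gradient w x, Y x⟫ = 0) :
    ∫ x, dv Y x ∂(area m w) = 0 := by
  obtain ⟨δ, hδ, hK⟩ := exists_slab h.smooth.continuous h.eik hYc.isCompact
  refine tendsto_nhds_unique (h.slab hE (continuous_dv hY) (dv_compact hYc))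
    (tendsto_const_nhds.congr' ?_)
  filter_upwards [Ioo_mem_nhdsGT hδ] with ε hε
  have e := integral_comp_mul_dv h.cd1 (contDiff_aid ε) hY hYc
  have e2 : ∀ x, deriv (aid eta ε) (w x) * ⟪gradient w x, Y x⟫ = 0 := by
    intro x
    by_cases hxK : x ∈ tsupport Y
    · rcases lt_or_ge |w x| δ with hx | hx
      · rw [hYt x (hK x hxK hx).self_of_nhds, mul_zero]
      · rw [deriv_aid_zero hε.1 (hε.2.trans_le hx), zero_mul]
    · rw [image_eq_zero_of_notMem_tsupport hxK, inner_zero_right, mul_zero]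
  simp only [e2, integral_zero, neg_zero] at e
  simp only [mul_comm (dv Y _), e, mul_zero]

/-- **The divergence theorem** on `{w = 0}`: `∫ (div X - ⟨ν, DX ν⟩) = ∫ ⟨X, ν⟩ Δw`. -/
theorem div_theorem {X : E → E} (hX : ContDiff ℝ 1 X) (hXc : HasCompactSupport X) :
    ∫ x, (dv X x - ⟪gradient w x, fderiv ℝ X x (gradient w x)⟫) ∂(area m w)
      = ∫ x, ⟪X x, gradient w x⟫ * lap w x ∂(area m w) := by
  have hlf := h.locFin hE
  have hf : ContDiff ℝ 1 fun x => ⟪X x, gradient w x⟫ := hX.inner ℝ h.cdg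
  have hfc : HasCompactSupport fun x => ⟪X x, gradient w x⟫ :=
    hXc.mono fun x hx h0 => hx (by simp [h0])
  have hZ : ContDiff ℝ 1 fun x => ⟪X x, gradient w x⟫ • gradient w x := hf.smul h.cdg
  have hZc : HasCompactSupport fun x => ⟪X x, gradient w x⟫ • gradient w x := hfc.smul_right
  have h0 := h.integral_dv_tangent hE (hX.sub hZ) (hXc.sub hZc) fun x hx => by
    rw [inner_sub_right, inner_smul_right, real_inner_self_eq_norm_sq, hx, real_inner_comm]
    ring
  have i0 : Integrable (dv fun x => X x - ⟪X x, gradient w x⟫ • gradient w x) (area m w) :=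
    (continuous_dv (hX.sub hZ)).integrable_of_hasCompactSupport (dv_compact (hXc.sub hZc))
  have i1 : Integrable (fun x => ⟪X x, gradient w x⟫ * lap w x) (area m w) :=
    (hf.continuous.mul (continuous_lap h.smooth)).integrable_of_hasCompactSupport hfc.mul_right
  rw [← zero_add (∫ x, ⟪X x, gradient w x⟫ * lap w x ∂(area m w)), ← h0, ← integral_add i0 i1]
  refine integral_congr_ae ?_
  filter_upwards [ae_area h.smooth.continuous] with x hx
  have dX := hX.differentiable one_ne_zero x
  have dG := h.cdg.differentiable one_ne_zero x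
  rw [dv_sub dX (hZ.differentiable one_ne_zero x),
    dv_smul (hf.differentiable one_ne_zero x) dG, fderiv_inner_apply ℝ dX dG,
    h.hess_grad hx, inner_zero_right, real_inner_comm, lap_eq]
  ring

end IsEik

end Vale.Agent.P218UX
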