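import Vale.Agent.P218UX.Neck
import Vale.Agent.P218UX.Cone

/-! The structure of the ends of a self-shrinker: finitely many cylindrical directions. -/

open MeasureTheory Set Filter Topology Metric
open scoped ENNReal NNReal RealInnerProductSpace ContDiff

namespace Vale.Agent.P218UX

open Vale.Agent.P218UA Vale.Agent.P218UG

variable {W : E3 → ℝ} {A C : ℝ} {e : E3}

lemma cylS_nonempty (he : ‖e‖ = 1) : (cylS e).Nonempty := by
  obtain ⟨Q, rfl⟩ := exists_frame he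
  refine ⟨lin Q (!₂[1, 1], 0), ?_⟩
  change ‖gT _ _‖ ^ 2 = 2
  rw [norm_gT_sq he, real_inner_comm, inner_lin_nQ, norm_lin_sq, ← real_inner_self_eq_norm_sq,
    inner2]
  norm_num

/-- points of the self-shrinker which approximate a point of the cylinder -/
lemma cyl_seq (H : Hyp) (h : Sh W A C) (he : e ∈ cylDir W) {p : E3} (hp : p ∈ cylS e) :
    ∃ x : ℕ → E3, Tendsto x atTop (𝓝 p) ∧
      Tendsto (fun i : ℕ => (i : ℝ)⁻¹ • x i + e) atTop (𝓝 e) ∧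
      ∀ᶠ i : ℕ in atTop, W ((i : ℝ) • ((i : ℝ)⁻¹ • x i + e)) = 0 := by
  obtain ⟨x, h1, h2⟩ := conv_seq (conv_cyl H h he tendsto_natCast_atTop_atTop) hp
  refine ⟨x, h1, ?_, ?_⟩
  · simpa using ((tendsto_inv_atTop_nhds_zero_nat (𝕜 := ℝ)).smul h1).add_const e
  · filter_upwards [h2, eventually_gt_atTop 0] with i hi hi'
    rwa [smul_add, smul_smul, mul_inv_cancel₀ (by positivity), one_smul]

/-- cylindrical directions are isolated -/
lemma isolated (H : Hyp) (h : Sh W A C) (he : e ∈ cylDir W) :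
    ∃ ρ > 0, ∀ e' ∈ cylDir W, ‖e' - e‖ < ρ → e' = e := by
  obtain ⟨ρ, hρ, h1⟩ := neck H h he
  refine ⟨min ρ 1, lt_min hρ one_pos, fun e' he' h2 => ?_⟩
  obtain ⟨p, hp⟩ := cylS_nonempty he'.1
  obtain ⟨x, -, h3, h4⟩ := cyl_seq H h he' hp
  have a1 := (((h3.norm.inv₀ (by simp [he'.1])).smul h3).sub_const e).norm
  rw [he'.1, inv_one, one_smul] at a1
  have a2 : ‖gT e e'‖ ≤ 0 := by
    refine le_of_tendsto_of_tendsto (((continuous_gT e).tendsto _).comp h3).norm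
      (tendsto_const_div_atTop_nhds_zero_nat (2 : ℝ)) ?_
    filter_upwards [h4, a1.eventually (gt_mem_nhds (h2.trans_le (min_le_left _ _))),
      eventually_gt_atTop 0] with i b1 b2 b3
    have b4 : (0 : ℝ) < i := by positivity
    have b5 := h1 _ b1 (by
      rwa [norm_smul, Real.norm_eq_abs, abs_of_pos b4, smul_smul, mul_inv, mul_right_comm,
        inv_mul_cancel₀ b4.ne', one_mul])
    rw [gT_smul, norm_smul, Real.norm_eq_abs, abs_of_pos b4] at b5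
    rw [le_div_iff₀ b4, mul_comm]
    exact b5
  have a3 := norm_gT_sq he.1 e'
  have a4 := norm_sub_sq_real e' e
  have a5 := h2.trans_le (min_le_right _ _)
  rw [le_antisymm a2 (norm_nonneg _), he'.1] at a3
  rw [he.1, he'.1, real_inner_comm] at a4
  have a7 : 0 < ⟪e, e'⟫ + 1 := by nlinarith [norm_nonneg (e' - e)]
  have a6 : ⟪e, e'⟫ = 1 := mul_right_cancel₀ a7.ne' (by linarith)
  exact sub_eq_zero.1 (norm_eq_zero.1 (pow_eq_zero_iff two_ne_zero |>.1 (by linarith)))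

/-- the cylinder is not a graph with small slope -/
lemma cyl_not_graph (he : ‖e‖ = 1) {n : E3} (hn : ‖n‖ = 1)
    (h : ∀ p ∈ cylS e, ∀ q ∈ cylS e, |⟪p - q, n⟫| ≤ 1 / 10 * ‖p - q‖) : False := by
  obtain ⟨p, hp⟩ := cylS_nonempty he
  have a1 := h (p + e) (by
    change ‖gT _ _‖ ^ 2 = 2
    rwa [gT_add, gT_self he, add_zero]) p hp
  rw [add_sub_cancel_left, he] at a1
  have a2 := norm_gT_sq he n
  rw [hn, ← sq_abs ⟪e, n⟫] at a2
  have a3 : 1 / 2 < ‖gT e n‖ := by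
    refine lt_of_pow_lt_pow_left₀ 2 (norm_nonneg _) ?_
    nlinarith [abs_nonneg ⟪e, n⟫]
  have a4 (c : ℝ) (hc : c ^ 2 = 2) : (c / ‖gT e n‖) • gT e n ∈ cylS e := by
    change ‖gT _ _‖ ^ 2 = 2
    rw [gT_smul, gT_gT he, norm_smul, mul_pow, Real.norm_eq_abs, sq_abs, div_pow, hc]
    field_simp
  have a5 := h _ (a4 √2 (Real.sq_sqrt zero_le_two)) _
    (a4 (-√2) (by rw [neg_sq, Real.sq_sqrt zero_le_two]))
  have a6 : ⟪gT e n, n⟫ = ‖gT e n‖ ^ 2 := by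
    rw [norm_gT_sq he, gT, inner_sub_left, inner_smul_left, real_inner_self_eq_norm_sq]
    simp [sq]
  have a7 : 0 < √2 / ‖gT e n‖ - -√2 / ‖gT e n‖ := by
    rw [neg_div, sub_neg_eq_add]
    positivity
  rw [← sub_smul, inner_smul_left, a6, norm_smul, conj_trivial, abs_mul, Real.norm_eq_abs,
    abs_of_pos a7, abs_of_nonneg (sq_nonneg _), mul_left_comm] at a5
  nlinarith [le_of_mul_le_mul_left a5 a7]

/-- the set of the cylindrical directions is closed -/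
lemma away (H : Hyp) (h : Sh W A C) (he : ‖e‖ = 1) (he₀ : e ∉ cylDir W) :
    ∃ ρ > 0, ∀ e' ∈ cylDir W, ‖e' - e‖ < ρ → e' = e := by
  obtain ⟨Q, ρ, s₀, hρ, -, hs₀, h1⟩ := con H h he he₀ (1 / 10) (by norm_num)
  refine ⟨ρ, hρ, fun e' he' h2 => False.elim ?_⟩
  have hs : ∀ᶠ i : ℕ in atTop, (i : ℝ)⁻¹ ∈ Ioo 0 s₀ := by
    filter_upwards [(tendsto_inv_atTop_nhds_zero_nat (𝕜 := ℝ)).eventually (gt_mem_nhds hs₀),
      eventually_gt_atTop 0] with i b1 b2 using ⟨by positivity, b1⟩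
  have key {p : E3} (hp : p ∈ cylS e') : ∃ x : ℕ → E3, Tendsto x atTop (𝓝 p) ∧
      ∀ᶠ i : ℕ in atTop, ∃ ξ k, ‖ξ‖ < ρ ∧ |k| < ρ ∧ (i : ℝ)⁻¹ • x i + e' = pt Q e ξ k ∧
        W (((i : ℝ)⁻¹)⁻¹ • pt Q e ξ k) = 0 := by
    obtain ⟨x, h3, h4, h5⟩ := cyl_seq H h he' hp
    refine ⟨x, h3, ?_⟩
    filter_upwards [h5, (h4.sub_const e).norm.eventually (gt_mem_nhds h2)] with i b1 b2
    refine ⟨_, _, (norm_hor_le _).trans_lt b2, (abs_real_inner_le_norm _ _).trans_lt ?_,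
      (pt_hor Q e _).symm, by rwa [pt_hor, inv_inv]⟩
    rwa [norm_nQ, mul_one]
  rcases h1 with h1 | ⟨u, h1, -⟩
  · obtain ⟨p, hp⟩ := cylS_nonempty he'.1
    obtain ⟨x, -, h3⟩ := key hp
    obtain ⟨i, ⟨ξ, k, b1, b2, -, b3⟩, b4⟩ := (h3.and hs).exists
    exact h1 _ b4 ξ k b1 b2 b3
  refine cyl_not_graph he'.1 (norm_nQ (Q := Q)) fun p hp q hq => ?_
  obtain ⟨x, hx, hx'⟩ := key hp
  obtain ⟨y, hy, hy'⟩ := key hq
  refine le_of_tendsto_of_tendsto ((hx.sub hy).inner (𝕜 := ℝ) tendsto_const_nhds).abs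
    ((hx.sub hy).norm.const_mul _) ?_
  filter_upwards [hx', hy', hs] with i ⟨ξ, k, b1, b2, b3, b4⟩ ⟨ζ, l, c1, c2, c3, c4⟩ hi
  obtain ⟨d1, d2, d3⟩ := h1 _ hi
  obtain rfl := ((d1 ξ b1).2 k b2).1 b4
  obtain rfl := ((d1 ζ c1).2 l c2).1 c4
  have d4 := (convex_ball (0 : E2) ρ).norm_image_sub_le_of_norm_fderiv_le (𝕜 := ℝ)
    (f := u (i : ℝ)⁻¹) (C := 1 / 10)
    (fun z hz => (d2.contDiffAt (isOpen_ball.mem_nhds hz)).differentiableAt (by simp))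
    (fun z hz => norm_grad (u (i : ℝ)⁻¹) z ▸ (d3 z hz).2)
    (mem_ball_zero_iff.2 c1) (mem_ball_zero_iff.2 b1)
  have d5 : (i : ℝ)⁻¹ • (x i - y i) = lin Q (ξ - ζ, u (i : ℝ)⁻¹ ξ - u (i : ℝ)⁻¹ ζ) := by
    rw [← pt_sub_pt (p := e), ← b3, ← c3, smul_sub, add_sub_add_right_eq_sub]
  have d6 := inner_lin_nQ (Q := Q) (ξ - ζ, u (i : ℝ)⁻¹ ξ - u (i : ℝ)⁻¹ ζ)
  have d7 := fst_le_norm_lin (Q := Q) (ξ - ζ, u (i : ℝ)⁻¹ ξ - u (i : ℝ)⁻¹ ζ)
  rw [← d5] at d6 d7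
  rw [inner_smul_left, conj_trivial] at d6
  rw [norm_smul, Real.norm_eq_abs, abs_of_pos hi.1] at d7
  rw [Real.norm_eq_abs, ← show _ = u (i : ℝ)⁻¹ ξ - u (i : ℝ)⁻¹ ζ from d6, abs_mul,
    abs_of_pos hi.1] at d4
  refine le_of_mul_le_mul_left ?_ hi.1
  simp only at d7
  linarith

theorem finite_cylDir (H : Hyp) (h : Sh W A C) : (cylDir W).Finite := by
  have h1 (e : E3) (he : e ∈ sphere (0 : E3) 1) :
      ∃ ρ > 0, ∀ e' ∈ cylDir W, ‖e' - e‖ < ρ → e' = e := by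
    by_cases h2 : e ∈ cylDir W
    · exact isolated H h h2
    · exact away H h (mem_sphere_zero_iff_norm.1 he) h2
  choose! ρ hρ h1 using h1
  obtain ⟨t, h2, h3⟩ := (isCompact_sphere (0 : E3) 1).elim_nhds_subcover (fun e => ball e (ρ e))
    fun e he => ball_mem_nhds e (hρ e he)
  refine t.finite_toSet.subset fun e he => ?_
  obtain ⟨a, ha, h4⟩ := mem_iUnion₂.1 (h3 (mem_sphere_zero_iff_norm.2 he.1))
  rw [h1 a (h2 a ha) e he (mem_ball_iff_norm.1 h4)]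
  exact ha

theorem ends' (H : Hyp) : EndsStmt := by
  intro W A C h1 h2 h3 h4 h5
  have h : Sh W A C := ⟨h1, h2, h3, h4, h5⟩
  refine ⟨(finite_cylDir H h).toFinset, fun e he => ?_, fun e he => ?_, fun e he R hR => ?_,
    fun e he he' => con H h he (by simpa using he')⟩
  · exact ((Finite.mem_toFinset _).1 he).1
  · obtain ⟨ρ, hρ, h6⟩ := neck H h ((Finite.mem_toFinset _).1 he)
    exact ⟨ρ, hρ, 0, fun x hx _ => h6 x hx⟩
  · exact conv_cyl H h ((Finite.mem_toFinset _).1 he) hR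

/-- [ENDS] -/
theorem ends (hM : Mono) (hT : Tan) (h1 : M1Stmt) (hD : DensStmt) (hL : LowDensStmt)
    (hLim : LimStmt) (hAL : ALStmt) (hC : CylDensStmt) (hS : SheetStmt) (hH : HDStmt) : EndsStmt :=
  ends' ⟨hM, hT, h1, hD, hL, hLim, hAL, hC, hS, hH⟩

end Vale.Agent.P218UX
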