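import Vale.Agent.P218UX.Div

/-! Families of eikonal level sets: uniform bounds for thin slabs. -/

open MeasureTheory Set Filter Topology Metric Module
open scoped ENNReal NNReal RealInnerProductSpace

namespace Vale.Agent.P218UX

set_option linter.unusedSectionVars false

open Vale.Agent.P218GA
open Vale.Agent.P218.H63 (lap contDiff_gradient hess_symm)
open Vale.Agent.P218.H313 (tr trL)

variable {P : Type*} [NormedAddCommGroup P] [NormedSpace ℝ P] [FiniteDimensional ℝ P]
variable {E : Type*} [NormedAddCommGroup E] [InnerProductSpace ℝ E] [FiniteDimensional ℝ E]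

/-- the slice of a function at the parameter `p` -/
def sl {F : Type*} (W : P × E → F) (p : P) : E → F := fun x => W (p, x)

/-- the gradient in the space variable -/
noncomputable def gr (W : P × E → ℝ) (z : P × E) : E := gradient (sl W z.1) z.2

/-- the Laplacian in the space variable -/
noncomputable def lp (W : P × E → ℝ) (z : P × E) : ℝ := lap (sl W z.1) z.2

lemma contDiffAt_sl {F : Type*} [NormedAddCommGroup F] [NormedSpace ℝ F] {W : P × E → F}
    {n : WithTop ℕ∞} {z : P × E} (h : ContDiffAt ℝ n W z) : ContDiffAt ℝ n (sl W z.1) z.2 :=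
  h.comp z.2 (contDiffAt_const.prodMk contDiffAt_id)

lemma contDiff_sl {F : Type*} [NormedAddCommGroup F] [NormedSpace ℝ F] {W : P × E → F}
    {n : WithTop ℕ∞} (h : ContDiff ℝ n W) (p : P) : ContDiff ℝ n (sl W p) :=
  h.comp (contDiff_const.prodMk contDiff_id)

lemma fderiv_sl {F : Type*} [NormedAddCommGroup F] [NormedSpace ℝ F] {W : P × E → F} {z : P × E}
    (h : DifferentiableAt ℝ W z) :
    fderiv ℝ (sl W z.1) z.2 = (fderiv ℝ W z).comp (ContinuousLinearMap.inr ℝ P E) :=
  (h.hasFDerivAt.comp z.2 (hasFDerivAt_prodMk_right z.1 z.2)).fderiv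

lemma fderiv_sl_apply {F : Type*} [NormedAddCommGroup F] [NormedSpace ℝ F] {W : P × E → F}
    {z : P × E} (h : DifferentiableAt ℝ W z) (v : E) :
    fderiv ℝ (sl W z.1) z.2 v = fderiv ℝ W z (0, v) := by
  rw [fderiv_sl h]; rfl

/-- the linear map which turns the full derivative into the space gradient -/
noncomputable def grL (P E : Type*) [NormedAddCommGroup P] [NormedSpace ℝ P]
    [NormedAddCommGroup E] [InnerProductSpace ℝ E] [FiniteDimensional ℝ E] :
    (P × E →L[ℝ] ℝ) →L[ℝ] E :=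
  (Vale.Agent.P218.H313.riesz E).comp
    ((ContinuousLinearMap.compL ℝ E (P × E) ℝ).flip (ContinuousLinearMap.inr ℝ P E))

lemma inner_grL (l : P × E →L[ℝ] ℝ) (v : E) : ⟪grL P E l, v⟫ = l (0, v) := by
  rw [grL, ContinuousLinearMap.comp_apply, Vale.Agent.P218.H313.inner_riesz]
  rfl

lemma inner_gr {W : P × E → ℝ} {z : P × E} (h : DifferentiableAt ℝ W z) (v : E) :
    ⟪gr W z, v⟫ = fderiv ℝ W z (0, v) := by
  rw [gr, inner_grad, fderiv_sl_apply h]

lemma gr_eq {W : P × E → ℝ} {z : P × E} (h : DifferentiableAt ℝ W z) :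
    gr W z = grL P E (fderiv ℝ W z) :=
  ext_inner_right ℝ fun v => by rw [inner_gr h, inner_grL]

lemma contDiffAt_gr {W : P × E → ℝ} {n k : WithTop ℕ∞} {z : P × E} (h : ContDiffAt ℝ k W z)
    (hn : n + 1 ≤ k) : ContDiffAt ℝ n (gr W) z := by
  have h1 : ContDiffAt ℝ 1 W z := h.of_le (le_trans le_add_self hn)
  have h2 : gr W =ᶠ[𝓝 z] fun y => grL P E (fderiv ℝ W y) := by
    filter_upwards [h1.eventually (by simp)] with y hy
    exact gr_eq (hy.differentiableAt one_ne_zero)
  have h3 : ContDiffAt ℝ n (fun y => grL P E (fderiv ℝ W y)) z :=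
    (Vale.Agent.P218.H313.riesz E).contDiff.contDiffAt.comp z
      ((h.fderiv_right hn).clm_comp (contDiffAt_const (c := ContinuousLinearMap.inr ℝ P E)))
  exact h3.congr_of_eventuallyEq h2

lemma contDiff_gr {W : P × E → ℝ} {n k : WithTop ℕ∞} (h : ContDiff ℝ k W) (hn : n + 1 ≤ k) :
    ContDiff ℝ n (gr W) :=
  contDiff_iff_contDiffAt.2 fun _ => contDiffAt_gr h.contDiffAt hn

lemma lp_eq {W : P × E → ℝ} {z : P × E} (h : ContDiffAt ℝ 2 W z) :
    lp W z = trL E ((fderiv ℝ (gr W) z).comp (ContinuousLinearMap.inr ℝ P E)) := by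
  rw [← fderiv_sl ((contDiffAt_gr h (n := 1) (by norm_num)).differentiableAt one_ne_zero)]
  rfl

lemma contDiffAt_lp {W : P × E → ℝ} {n k : WithTop ℕ∞} {z : P × E} (h : ContDiffAt ℝ k W z)
    (hn : n + 2 ≤ k) : ContDiffAt ℝ n (lp W) z := by
  have h1 : ContDiffAt ℝ 2 W z := h.of_le (le_trans le_add_self hn)
  have h2 : lp W =ᶠ[𝓝 z] fun y =>
      trL E ((fderiv ℝ (gr W) y).comp (ContinuousLinearMap.inr ℝ P E)) := by
    filter_upwards [h1.eventually (by simp)] with y hy
    exact lp_eq hy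
  have h3 : ContDiffAt ℝ (n + 1) (gr W) z := contDiffAt_gr h (by
    rw [add_assoc]; exact hn)
  exact ((trL E).contDiff.contDiffAt.comp z
    ((h3.fderiv_right le_rfl).clm_comp contDiffAt_const)).congr_of_eventuallyEq h2

lemma contDiff_lp {W : P × E → ℝ} {n k : WithTop ℕ∞} (h : ContDiff ℝ k W) (hn : n + 2 ≤ k) :
    ContDiff ℝ n (lp W) :=
  contDiff_iff_contDiffAt.2 fun _ => contDiffAt_lp h.contDiffAt hn

/-- the differentiated eikonal equation, in all directions -/
lemma inner_fderiv_gr {W : P × E → ℝ} {z : P × E} (h : ContDiffAt ℝ 2 W z)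
    (hz : ∀ᶠ y in 𝓝 z, ‖gr W y‖ = 1) (u : P × E) : ⟪gr W z, fderiv ℝ (gr W) z u⟫ = 0 := by
  have hd : HasFDerivAt (gr W) (fderiv ℝ (gr W) z) z :=
    ((contDiffAt_gr h (n := 1) (by norm_num)).differentiableAt one_ne_zero).hasFDerivAt
  have h3 : (fun y => ‖gr W y‖ ^ 2) =ᶠ[𝓝 z] fun _ => 1 := by
    filter_upwards [hz] with y hy
    rw [hy]; norm_num
  have h5 := hd.norm_sq.unique ((hasFDerivAt_const (1 : ℝ) z).congr_of_eventuallyEq h3)
  have h6 := congrArg (fun L : P × E →L[ℝ] ℝ => L u) h5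
  simpa using h6

lemma inner_fderiv_gr_eq {W : P × E → ℝ} {z : P × E} (h : ContDiffAt ℝ 2 W z) (u : P × E)
    (v : E) : ⟪fderiv ℝ (gr W) z u, v⟫ = fderiv ℝ (fderiv ℝ W) z u (0, v) := by
  have h2 : gr W =ᶠ[𝓝 z] fun y => grL P E (fderiv ℝ W y) := by
    filter_upwards [(h.of_le (show (1 : WithTop ℕ∞) ≤ 2 by norm_num)).eventually (by simp)]
      with y hy
    exact gr_eq (hy.differentiableAt one_ne_zero)
  have hd : HasFDerivAt (fderiv ℝ W) (fderiv ℝ (fderiv ℝ W) z) z :=
    ((h.fderiv_right (m := 1) (by norm_num)).differentiableAt one_ne_zero).hasFDerivAt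
  rw [h2.fderiv_eq, show (fun y => grL P E (fderiv ℝ W y)) = grL P E ∘ fderiv ℝ W from rfl,
    ((grL P E).hasFDerivAt.comp z hd).fderiv, ContinuousLinearMap.comp_apply, inner_grL]

/-- the normal derivative of the derivatives of `W` vanishes -/
lemma fderiv_fderiv_normal {W : P × E → ℝ} {z : P × E} (h : ContDiffAt ℝ 2 W z)
    (hz : ∀ᶠ y in 𝓝 z, ‖gr W y‖ = 1) (u : P × E) :
    fderiv ℝ (fun y => fderiv ℝ W y u) z (0, gr W z) = 0 := by
  have hd : HasFDerivAt (fderiv ℝ W) (fderiv ℝ (fderiv ℝ W) z) z :=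
    ((h.fderiv_right (m := 1) (by norm_num)).differentiableAt one_ne_zero).hasFDerivAt
  have h1 : fderiv ℝ (fun y => fderiv ℝ W y u) z (0, gr W z)
      = fderiv ℝ (fderiv ℝ W) z (0, gr W z) u := by
    rw [(hd.clm_apply (hasFDerivAt_const u z)).fderiv]
    simp
  rw [h1, (h.isSymmSndFDerivAt (by simp)) _ u, ← inner_fderiv_gr_eq h, real_inner_comm]
  exact inner_fderiv_gr h hz u

/-- a `C²` family of functions which solve the eikonal equation near their zero sets -/
structure IsFam (W : P × E → ℝ) : Prop where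
  smooth : ContDiff ℝ 2 W
  eik : ∀ z, W z = 0 → ∀ᶠ y in 𝓝 z, ‖gr W y‖ = 1

variable {W : P × E → ℝ}

lemma IsFam.isEik (h : IsFam W) (p : P) : IsEik (sl W p) :=
  ⟨contDiff_sl h.smooth p, fun x hx =>
    (continuous_const.prodMk continuous_id).continuousAt.eventually (h.eik (p, x) hx)⟩

lemma IsFam.cgr (h : IsFam W) : ContDiff ℝ 1 (gr W) := contDiff_gr h.smooth (by norm_num)

lemma IsFam.clp (h : IsFam W) : Continuous (lp W) :=
  (contDiff_lp (n := 0) h.smooth (by norm_num)).continuous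

/-- a primitive of the approximate identity -/
noncomputable def prim (ε s : ℝ) : ℝ := ∫ t in (0 : ℝ)..(s / ε), eta t

lemma hasDerivAt_prim (ε s : ℝ) : HasDerivAt (prim ε) (aid eta ε s) s := by
  have h1 := (contDiff_eta.continuous.deriv_integral eta 0 (s / ε))
  have h2 : HasDerivAt (fun u => ∫ t in (0 : ℝ)..u, eta t) (eta (s / ε)) (s / ε) :=
    (contDiff_eta.continuous.integral_hasStrictDerivAt 0 (s / ε)).hasDerivAt
  have h3 := h2.comp s ((hasDerivAt_id s).div_const ε)
  refine h3.congr_deriv ?_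
  rw [aid]; ring

lemma deriv_prim (ε : ℝ) : deriv (prim ε) = aid eta ε := funext fun s => (hasDerivAt_prim ε s).deriv

lemma contDiff_prim (ε : ℝ) : ContDiff ℝ 1 (prim ε) :=
  contDiff_one_iff_deriv.2 ⟨fun s => (hasDerivAt_prim ε s).differentiableAt, by
    rw [deriv_prim]; exact (contDiff_aid ε).continuous⟩

lemma abs_prim_le (ε s : ℝ) : |prim ε s| ≤ 1 := by
  have hi : Integrable eta := contDiff_eta.continuous.integrable_of_hasCompactSupport eta_compact
  rw [prim, ← integral_eta, intervalIntegral.abs_intervalIntegral_eq,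
    abs_of_nonneg (integral_nonneg eta_nonneg)]
  exact setIntegral_le_integral hi (Eventually.of_forall eta_nonneg)

variable [MeasurableSpace E] [BorelSpace E]

/-- the volume of thin slabs, locally -/
lemma slab_loc (hW : ContDiff ℝ 1 W) {z : P × E} (hz : gr W z ≠ 0) :
    ∃ U ∈ 𝓝 z, ∃ C : ℝ≥0∞, C < ⊤ ∧ ∀ p ε, 0 < ε →
      ∫⁻ x in {x | (p, x) ∈ U}, ENNReal.ofReal (aid eta ε (W (p, x))) ≤ C := by
  have hc : Continuous (gr W) := (contDiff_gr (n := 0) hW (by norm_num)).continuous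
  set ν := gr W z with hν
  set c := ‖ν‖ ^ 2 / 2 with hcdef
  have hc0 : 0 < c := by have := norm_pos_iff.2 hz; positivity
  have hO : {y | c < ⟪gr W y, ν⟫} ∈ 𝓝 z := by
    refine (isOpen_lt continuous_const (hc.inner continuous_const)).mem_nhds ?_
    change c < ⟪ν, ν⟫
    rw [real_inner_self_eq_norm_sq]; linarith
  obtain ⟨r, hr, hball⟩ := Metric.mem_nhds_iff.1 hO
  let ζ : ContDiffBump z.2 := ⟨r / 2, r, by positivity, by linarith⟩
  have hX : ContDiff ℝ 1 fun x => ζ x • ν := ζ.contDiff.smul contDiff_const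
  have hXc : HasCompactSupport fun x => ζ x • ν := ζ.hasCompactSupport.smul_right
  have hi : Integrable fun x => |dv (fun x => ζ x • ν) x| :=
    ((continuous_dv hX).integrable_of_hasCompactSupport (dv_compact hXc)).abs
  refine ⟨ball z (r / 2), ball_mem_nhds _ (by positivity),
    ENNReal.ofReal (c⁻¹ * ∫ x, |dv (fun x => ζ x • ν) x|), ENNReal.ofReal_lt_top,
    fun p ε hε => ?_⟩
  by_cases hp : dist p z.1 < r / 2
  swap
  · have e : {x | (p, x) ∈ ball z (r / 2)} = ∅ := by
      refine eq_empty_of_forall_notMem fun x hx => hp ?_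
      have h1 : dist (p, x) z < r / 2 := hx
      rw [Prod.dist_eq] at h1
      exact (le_max_left _ _).trans_lt h1
    rw [e]; simp
  have hw : ContDiff ℝ 1 (sl W p) := contDiff_sl hW p
  have hca : Continuous fun x => aid eta ε (W (p, x)) :=
    (contDiff_aid ε).continuous.comp hw.continuous
  have hi2 : Integrable fun x => ζ x * aid eta ε (W (p, x)) :=
    (ζ.continuous.mul hca).integrable_of_hasCompactSupport ζ.hasCompactSupport.mul_right
  have hnn : ∀ x, 0 ≤ ζ x * aid eta ε (W (p, x)) := fun x =>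
    mul_nonneg ζ.nonneg (aid_nonneg hε _)
  have h1 : ∫⁻ x in {x | (p, x) ∈ ball z (r / 2)}, ENNReal.ofReal (aid eta ε (W (p, x)))
      ≤ ∫⁻ x, ENNReal.ofReal (ζ x * aid eta ε (W (p, x))) := by
    refine le_trans ?_ (setLIntegral_le_lintegral {x | (p, x) ∈ ball z (r / 2)} _)
    refine setLIntegral_mono' (isOpen_ball.preimage
      (continuous_const.prodMk continuous_id)).measurableSet fun x hx => ?_
    have h2 : dist (p, x) z < r / 2 := hx
    rw [Prod.dist_eq] at h2
    rw [ζ.one_of_mem_closedBall (mem_closedBall.2 ((le_max_right _ _).trans h2.le)), one_mul]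
  refine h1.trans ?_
  rw [← ofReal_integral_eq_lintegral_ofReal hi2 (Eventually.of_forall hnn)]
  refine ENNReal.ofReal_le_ofReal ?_
  rw [le_inv_mul_iff₀ hc0, ← integral_const_mul]
  have e := integral_comp_mul_dv hw (contDiff_prim ε) hX hXc
  rw [deriv_prim] at e
  have hi3 : Integrable fun x => aid eta ε (sl W p x) * ⟪gradient (sl W p) x, ζ x • ν⟫ := by
    refine (hca.mul ((continuous_gradient hw).inner hX.continuous)).integrable_of_hasCompactSupport
      (hXc.mono fun x hx h0 => hx ?_)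
    have h0' : ζ x • ν = 0 := h0
    rw [Pi.mul_apply, h0', inner_zero_right, mul_zero]
  calc ∫ x, c * (ζ x * aid eta ε (W (p, x)))
      ≤ ∫ x, aid eta ε (sl W p x) * ⟪gradient (sl W p) x, ζ x • ν⟫ := by
        refine integral_mono (hi2.const_mul c) hi3 fun x => ?_
        simp only [inner_smul_right]
        by_cases hx : ζ x = 0
        · simp [hx]
        · have h3 : x ∈ ball z.2 r := by
            rw [← show ζ.rOut = r from rfl, ← ζ.support_eq]; exact hx
          have h4 : (p, x) ∈ ball z r := by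
            rw [mem_ball, Prod.dist_eq, max_lt_iff]
            exact ⟨by linarith, h3⟩
          have h5 : c < ⟪gr W (p, x), ν⟫ := hball h4
          have h6 := hnn x
          change c * (ζ x * aid eta ε (W (p, x)))
            ≤ aid eta ε (W (p, x)) * (ζ x * ⟪gr W (p, x), ν⟫)
          nlinarith
    _ = -∫ x, prim ε (sl W p x) * dv (fun x => ζ x • ν) x := by rw [e, neg_neg]
    _ ≤ ∫ x, |dv (fun x => ζ x • ν) x| := by
        refine (neg_le_abs _).trans ?_
        rw [← Real.norm_eq_abs]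
        refine norm_integral_le_of_norm_le hi (Eventually.of_forall fun x => ?_)
        rw [norm_mul, Real.norm_eq_abs, Real.norm_eq_abs]
        exact mul_le_of_le_one_left (abs_nonneg _) (abs_prim_le _ _)

/-- the volume of thin slabs is uniformly bounded on compact sets -/
lemma slab_bound (hW : ContDiff ℝ 1 W) (h1 : ∀ z, W z = 0 → gr W z ≠ 0) {S : Set (P × E)}
    (hS : IsCompact S) : ∃ C : ℝ≥0∞, C < ⊤ ∧ ∃ δ : ℝ, 0 < δ ∧ ∀ p ε, 0 < ε → ε < δ →
      ∫⁻ x in {x | (p, x) ∈ S}, ENNReal.ofReal (aid eta ε (W (p, x))) ≤ C := by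
  refine hS.induction_on (p := fun S => ∃ C : ℝ≥0∞, C < ⊤ ∧ ∃ δ : ℝ, 0 < δ ∧ ∀ p ε, 0 < ε →
    ε < δ → ∫⁻ x in {x | (p, x) ∈ S}, ENNReal.ofReal (aid eta ε (W (p, x))) ≤ C) ?_ ?_ ?_ ?_
  · exact ⟨0, by simp, 1, one_pos, fun p ε _ _ => by simp⟩
  · rintro s t hst ⟨C, hC, δ, hδ, h⟩
    exact ⟨C, hC, δ, hδ, fun p ε h1 h2 =>
      (lintegral_mono_set (show {x | (p, x) ∈ s} ⊆ {x | (p, x) ∈ t} from
        fun x hx => hst hx)).trans (h p ε h1 h2)⟩
  · rintro s t ⟨C, hC, δ, hδ, h⟩ ⟨C', hC', δ', hδ', h'⟩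
    refine ⟨C + C', ENNReal.add_lt_top.2 ⟨hC, hC'⟩, min δ δ', lt_min hδ hδ', fun p ε h1 h2 => ?_⟩
    exact (lintegral_union_le _ {x | (p, x) ∈ s} {x | (p, x) ∈ t}).trans
      (add_le_add (h p ε h1 (h2.trans_le (min_le_left _ _)))
        (h' p ε h1 (h2.trans_le (min_le_right _ _))))
  · intro z _
    by_cases hz : W z = 0
    · obtain ⟨U, hU, C, hC, h⟩ := slab_loc hW (h1 z hz)
      exact ⟨U, mem_nhdsWithin_of_mem_nhds hU, C, hC, 1, one_pos, fun p ε h1 _ => h p ε h1⟩
    · have hp' : 0 < |W z| / 2 := half_pos (abs_pos.2 hz)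
      have hO : IsOpen {y | |W z| / 2 < |W y|} := isOpen_lt continuous_const hW.continuous.abs
      refine ⟨{y | |W z| / 2 < |W y|}, mem_nhdsWithin_of_mem_nhds (hO.mem_nhds
        (half_lt_self (abs_pos.2 hz))), 0, by simp, |W z| / 2, hp', fun p ε h1 h2 => ?_⟩
      rw [nonpos_iff_eq_zero]
      refine setLIntegral_eq_zero (hO.preimage
        (continuous_const.prodMk continuous_id)).measurableSet fun x hx => ?_
      have h3 : |W z| / 2 < |W (p, x)| := hx
      simp [aid_zero h1 (h2.trans h3)]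

end Vale.Agent.P218UX
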