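import Vale.Agent.P218UX.Loc

/-! Gaussian tails, Huisken's monotonicity formula, the local bound for the integral of `H²`. -/

open MeasureTheory Set Filter Topology Metric Module
open scoped ENNReal NNReal RealInnerProductSpace ContDiff

namespace Vale.Agent.P218UX

open Vale.Agent.P218GA Vale.Agent.P218UA Vale.Agent.P218UM
open Vale.Agent.P218.H63 (lap)

lemma summable_tail : Summable fun k : ℕ => Real.exp (-(k : ℝ) ^ 2 / 8) * ((k : ℝ) + 1) ^ 2 := by
  have h1 := (summable_nat_add_iff 1).2 (Real.summable_pow_mul_exp_neg_nat_mul 2 one_pos)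
  refine Summable.of_nonneg_of_le (fun k => by positivity) (fun k => ?_) (h1.mul_left (Real.exp 3))
  push_cast
  rw [mul_comm (((k : ℝ) + 1) ^ 2), ← mul_assoc, ← Real.exp_add]
  refine mul_le_mul_of_nonneg_right (Real.exp_le_exp.2 ?_) (by positivity)
  nlinarith [sq_nonneg ((k : ℝ) - 4)]

/-- the constant of the Gaussian tail estimate -/
noncomputable def cT : ℝ := ∑' k : ℕ, Real.exp (-(k : ℝ) ^ 2 / 8) * ((k : ℝ) + 1) ^ 2

lemma cT_nonneg : 0 ≤ cT := tsum_nonneg fun _ => by positivity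

lemma tail_lint {μ : Measure E3} {A : ℝ} (hA : 0 ≤ A) (h : AR μ A) (x : E3) {r : ℝ} (hr : 0 < r) :
    ∫⁻ y, ENNReal.ofReal (Real.exp (-‖y - x‖ ^ 2 / (8 * r ^ 2))) ∂μ
      ≤ ENNReal.ofReal (cT * A * r ^ 2) := by
  calc ∫⁻ y, ENNReal.ofReal (Real.exp (-‖y - x‖ ^ 2 / (8 * r ^ 2))) ∂μ
      ≤ ∫⁻ y, ∑' k : ℕ, (closedBall x (((k : ℝ) + 1) * r)).indicator
          (fun _ => ENNReal.ofReal (Real.exp (-(k : ℝ) ^ 2 / 8))) y ∂μ := by
        refine lintegral_mono fun y => le_trans ?_ (ENNReal.le_tsum ⌊‖y - x‖ / r⌋₊)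
        have h0 : 0 ≤ ‖y - x‖ / r := by positivity
        have h1 := Nat.floor_le h0
        have h2 := Nat.lt_floor_add_one (‖y - x‖ / r)
        rw [indicator_of_mem (by
          rw [mem_closedBall, dist_eq_norm]; exact ((div_lt_iff₀ hr).1 h2).le)]
        refine ENNReal.ofReal_le_ofReal (Real.exp_le_exp.2 ?_)
        have h3 := pow_le_pow_left₀ (Nat.cast_nonneg _) h1 2
        have e : -‖y - x‖ ^ 2 / (8 * r ^ 2) = -(‖y - x‖ / r) ^ 2 / 8 := by field_simp
        rw [e]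
        linarith
    _ = ∑' k : ℕ, ENNReal.ofReal (Real.exp (-(k : ℝ) ^ 2 / 8))
          * μ (closedBall x (((k : ℝ) + 1) * r)) := by
        rw [lintegral_tsum fun k =>
          (measurable_const.indicator measurableSet_closedBall).aemeasurable]
        simp only [lintegral_indicator_const measurableSet_closedBall]
    _ ≤ ∑' k : ℕ, ENNReal.ofReal (Real.exp (-(k : ℝ) ^ 2 / 8) * ((k : ℝ) + 1) ^ 2 * (A * r ^ 2)) := by
        refine ENNReal.tsum_le_tsum fun k => ?_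
        refine (mul_le_mul_right (h x _ (by positivity)) _).trans_eq ?_
        rw [← ENNReal.ofReal_mul (Real.exp_pos _).le]
        congr 1
        ring
    _ = ENNReal.ofReal (cT * A * r ^ 2) := by
        rw [← ENNReal.ofReal_tsum_of_nonneg (fun k => by positivity) (summable_tail.mul_right _),
          tsum_mul_right, cT, mul_assoc]

theorem tail {μ : Measure E3} {A : ℝ} (hA : 0 ≤ A) (h : AR μ A) (x : E3) {r : ℝ} (hr : 0 < r) :
    Integrable (fun y => Real.exp (-‖y - x‖ ^ 2 / (8 * r ^ 2))) μ ∧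
      ∫ y, Real.exp (-‖y - x‖ ^ 2 / (8 * r ^ 2)) ∂μ ≤ cT * A * r ^ 2 := by
  have hc : Continuous fun y : E3 => Real.exp (-‖y - x‖ ^ 2 / (8 * r ^ 2)) := by fun_prop
  have h0 : 0 ≤ᵐ[μ] fun y : E3 => Real.exp (-‖y - x‖ ^ 2 / (8 * r ^ 2)) :=
    Eventually.of_forall fun _ => (Real.exp_pos _).le
  have h1 := tail_lint hA h x hr
  refine ⟨⟨hc.aestronglyMeasurable, (hasFiniteIntegral_iff_ofReal h0).2
    (h1.trans_lt ENNReal.ofReal_lt_top)⟩, ?_⟩
  rw [integral_eq_lintegral_of_nonneg_ae h0 hc.aestronglyMeasurable]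
  exact ENNReal.toReal_le_of_le_ofReal (by have := cT_nonneg; positivity) h1

lemma exp_four_le (y x : E3) {r : ℝ} (hr : 0 < r) :
    Real.exp (-‖y - x‖ ^ 2 / (4 * r ^ 2)) ≤ Real.exp (-‖y - x‖ ^ 2 / (8 * r ^ 2)) := by
  rw [Real.exp_le_exp, neg_div, neg_div, neg_le_neg_iff]
  exact div_le_div_of_nonneg_left (by positivity) (by positivity) (by nlinarith [sq_nonneg r])

lemma integrable_gauss {μ : Measure E3} {A : ℝ} (hA : 0 ≤ A) (h : AR μ A) (x : E3) {r : ℝ}
    (hr : 0 < r) : Integrable (fun y => Real.exp (-‖y - x‖ ^ 2 / (4 * r ^ 2))) μ :=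
  (tail hA h x hr).1.mono' (by fun_prop) (Eventually.of_forall fun y => by
    rw [Real.norm_eq_abs, abs_of_pos (Real.exp_pos _)]; exact exp_four_le y x hr)

lemma gd_le {μ : Measure E3} {A : ℝ} (hA : 0 ≤ A) (h : AR μ A) (x : E3) {r : ℝ} (hr : 0 < r) :
    gd μ x r ≤ cT * A / (4 * Real.pi) := by
  rw [gd, div_le_div_iff₀ (by positivity) (by positivity)]
  have h1 := (integral_mono (integrable_gauss hA h x hr) (tail hA h x hr).1
    fun y => exp_four_le y x hr).trans (tail hA h x hr).2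
  nlinarith [Real.pi_pos]

lemma gd_eq_integral (μ : Measure E3) (x₀ : E3) {t₀ t : ℝ} (ht : t < t₀) :
    gd μ x₀ √(t₀ - t) = ∫ y, Phi x₀ t₀ t y ∂μ := by
  rw [gd, Real.sq_sqrt (sub_pos.2 ht).le, ← integral_div]; rfl

lemma integrable_Phi {μ : Measure E3} {A : ℝ} (hA : 0 ≤ A) (h : AR μ A) (x₀ : E3) {t₀ t : ℝ}
    (ht : t < t₀) : Integrable (Phi x₀ t₀ t) μ := by
  have h1 := integrable_gauss hA h x₀ (Real.sqrt_pos.2 (sub_pos.2 ht))
  rw [Real.sq_sqrt (sub_pos.2 ht).le] at h1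
  exact h1.div_const _

lemma gd_eq_lint {μ : Measure E3} {A : ℝ} (hA : 0 ≤ A) (h : AR μ A) (x₀ : E3) {t₀ t : ℝ}
    (ht : t < t₀) : ENNReal.ofReal (gd μ x₀ √(t₀ - t)) = ∫⁻ y, ENNReal.ofReal (Phi x₀ t₀ t y) ∂μ := by
  rw [gd_eq_integral μ x₀ ht, ofReal_integral_eq_lintegral_ofReal (integrable_Phi hA h x₀ ht)
    (Eventually.of_forall fun y => (Phi_pos x₀ ht y).le)]

lemma cut_mono (x₀ : E3) {a t₁ t : ℝ} (ha : 0 ≤ a) (ht : t₁ ≤ t) (y : E3) :
    Monotone fun n : ℕ => cut x₀ a t₁ ((n : ℝ) + 1) t y := by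
  intro n m hnm
  have h1 : (n : ℝ) ≤ m := Nat.cast_le.2 hnm
  have h2 := sub_nonneg.2 ht
  refine pow_le_pow_left₀ (le_max_right _ _) (max_le_max ?_ le_rfl) 3
  gcongr

lemma cut_tendsto (x₀ : E3) (a t₁ t : ℝ) (y : E3) :
    Tendsto (fun n : ℕ => cut x₀ a t₁ ((n : ℝ) + 1) t y) atTop (𝓝 1) := by
  have h1 : Tendsto (fun n : ℕ => ((n : ℝ) + 1) ^ 2) atTop atTop :=
    (tendsto_pow_atTop two_ne_zero).comp (tendsto_natCast_atTop_atTop.atTop_add tendsto_const_nhds)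
  have h2 := (((tendsto_const_nhds (x := ‖y - x₀‖ ^ 2 + a * (t - t₁))).div_atTop h1).const_sub
    1).max (tendsto_const_nhds (x := (0 : ℝ))) |>.pow 3
  simpa [cut] using h2

variable {w : ℝ → E3 → ℝ} {I : Set ℝ}

lemma lint_cut_tendsto {μ : Measure E3} (x₀ : E3) {t₁ t : ℝ} (ht : t₁ ≤ t) {f : E3 → ℝ}
    (hf : Continuous f) (h0 : ∀ y, 0 ≤ f y) :
    Tendsto (fun n : ℕ => ∫⁻ y, ENNReal.ofReal (cut x₀ 4 t₁ ((n : ℝ) + 1) t y * f y) ∂μ) atTop
      (𝓝 (∫⁻ y, ENNReal.ofReal (f y) ∂μ)) :=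
  lintegral_tendsto_of_tendsto_of_monotone
    (fun _ => ((continuous_cut _ _ _ _ _).mul hf).measurable.ennreal_ofReal.aemeasurable)
    (Eventually.of_forall fun y _ _ hab => ENNReal.ofReal_le_ofReal
      (mul_le_mul_of_nonneg_right (cut_mono x₀ (by norm_num) ht y hab) (h0 y)))
    (Eventually.of_forall fun y => ENNReal.tendsto_ofReal (by
      simpa using (cut_tendsto x₀ 4 t₁ t y).mul_const (f y)))

lemma ofReal_cut (h : IsFlow w I) {t : ℝ} (ht : t ∈ I) (x₀ : E3) {a t₁ ρ : ℝ} (hρ : 0 < ρ)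
    (ha : 0 ≤ a) (h1 : t₁ - 1 < t) {f : E3 → ℝ} (hf : Continuous f) (h0 : ∀ y, 0 ≤ f y) :
    ENNReal.ofReal (∫ y, cut x₀ a t₁ ρ t y * f y ∂(ar (w t)))
      = ∫⁻ y, ENNReal.ofReal (cut x₀ a t₁ ρ t y * f y) ∂(ar (w t)) :=
  ofReal_integral_eq_lintegral_ofReal (integrable_of_supp h ht ((continuous_cut _ _ _ _ _).mul hf)
    (isCompact_closedBall x₀ (ρ + a + 1)) fun x hx => by
      rw [cut_supp hρ ha h1 hx, zero_mul])
    (Eventually.of_forall fun y => mul_nonneg (cut_nonneg _ _ _ _ _ _) (h0 y))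

/-- **Huisken's monotonicity formula**, without any growth assumption -/
theorem mono_lint (h : IsFlow w I) (x₀ : E3) {t₀ t₁ t₂ : ℝ} (h1 : t₁ ∈ I) (h2 : t₂ ∈ I)
    (h12 : t₁ ≤ t₂) (h20 : t₂ < t₀) :
    ∫⁻ y, ENNReal.ofReal (Phi x₀ t₀ t₂ y) ∂(ar (w t₂)) + ∫⁻ t in Ioo t₁ t₂, dis w x₀ t₀ t
      ≤ ∫⁻ y, ENNReal.ofReal (Phi x₀ t₀ t₁ y) ∂(ar (w t₁)) := by
  have h10 := h12.trans_lt h20
  have hs : Icc t₁ t₂ ⊆ I ∩ Ioo (t₁ - 1) t₀ := fun t ht =>
    ⟨h.conn.out h1 h2 ht, by linarith [ht.1], ht.2.trans_lt h20⟩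
  have hρ : ∀ n : ℕ, (0 : ℝ) < n + 1 := fun n => by positivity
  have hG := fun n : ℕ => (continuousOn_cut_dsp h x₀ t₀ t₁ (hρ n)).mono hs
  have hG0 : ∀ (n : ℕ), ∀ t ∈ Icc t₁ t₂,
      0 ≤ ∫ y, cut x₀ 4 t₁ (n + 1) t y * dsp w x₀ t₀ t y ∂(ar (w t)) := fun n t ht =>
    integral_nonneg fun y => mul_nonneg (cut_nonneg _ _ _ _ _ _) (dsp_nonneg w x₀ (hs ht).2.2 y)
  have hE : ∀ (n : ℕ), ∀ t ∈ Icc t₁ t₂,
      ENNReal.ofReal (∫ y, cut x₀ 4 t₁ (n + 1) t y * dsp w x₀ t₀ t y ∂(ar (w t)))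
      = ∫⁻ y, ENNReal.ofReal (cut x₀ 4 t₁ (n + 1) t y * dsp w x₀ t₀ t y) ∂(ar (w t)) :=
    fun n t ht => ofReal_cut h (hs ht).1 x₀ (hρ n) (by norm_num) (hs ht).2.1
      (continuous_dsp h x₀ t₀ (hs ht).1) (dsp_nonneg w x₀ (hs ht).2.2)
  have l1 := lint_cut_tendsto (μ := ar (w t₂)) x₀ h12 (continuous_Phi x₀ t₀ t₂)
    fun y => (Phi_pos x₀ h20 y).le
  have l2 : Tendsto (fun n : ℕ => ∫⁻ t in Ioo t₁ t₂, ENNReal.ofReal
      (∫ y, cut x₀ 4 t₁ (n + 1) t y * dsp w x₀ t₀ t y ∂(ar (w t)))) atTop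
      (𝓝 (∫⁻ t in Ioo t₁ t₂, dis w x₀ t₀ t)) := by
    refine lintegral_tendsto_of_tendsto_of_monotone (fun n => (((hG n).mono
      Ioo_subset_Icc_self).aemeasurable measurableSet_Ioo).ennreal_ofReal) ?_ ?_
    · filter_upwards [ae_restrict_mem measurableSet_Ioo] with t ht a b hab
      have ht' := Ioo_subset_Icc_self ht
      simp only [hE _ t ht']
      exact lintegral_mono fun y => ENNReal.ofReal_le_ofReal (mul_le_mul_of_nonneg_right
        (cut_mono x₀ (by norm_num) ht'.1 y hab) (dsp_nonneg w x₀ (hs ht').2.2 y))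
    · filter_upwards [ae_restrict_mem measurableSet_Ioo] with t ht
      have ht' := Ioo_subset_Icc_self ht
      simp only [hE _ t ht']
      convert lint_cut_tendsto (μ := ar (w t)) x₀ ht'.1 (continuous_dsp h x₀ t₀ (hs ht').1)
        (dsp_nonneg w x₀ (hs ht').2.2) using 2
      simp only [dis, dsp, Phi, mul_div_assoc]
  refine le_of_tendsto' (l1.add l2) fun n => ?_
  have e := loc_mono h x₀ h1 h2 h12 h20 (hρ n)
  simp only [mul_comm (Phi _ _ _ _)] at e
  rw [← ofReal_cut h h2 x₀ (hρ n) (by norm_num) (by linarith) (continuous_Phi x₀ t₀ t₂)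
      fun y => (Phi_pos x₀ h20 y).le,
    ← ofReal_integral_eq_lintegral_ofReal
      (((hG n).integrableOn_compact isCompact_Icc).mono_set Ioo_subset_Icc_self)
      ((ae_restrict_mem measurableSet_Ioo).mono fun t ht => hG0 n t (Ioo_subset_Icc_self ht)),
    ← integral_Ioc_eq_integral_Ioo, ← intervalIntegral.integral_of_le h12,
    ← ENNReal.ofReal_add (integral_nonneg fun y => mul_nonneg (cut_nonneg _ _ _ _ _ _)
      (Phi_pos x₀ h20 y).le) (intervalIntegral.integral_nonneg h12 (hG0 n))]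
  refine (ENNReal.ofReal_le_ofReal e).trans ?_
  rw [ofReal_cut h h1 x₀ (hρ n) (by norm_num) (by linarith) (continuous_Phi x₀ t₀ t₁)
      fun y => (Phi_pos x₀ h10 y).le]
  exact lintegral_mono fun y => ENNReal.ofReal_le_ofReal (mul_le_of_le_one_left
    (Phi_pos x₀ h10 y).le (cut_le_one x₀ (by norm_num) le_rfl _ y))

theorem mono {A : ℝ} (h : IsARFlow w I A) (x₀ : E3) {t₀ t₁ t₂ : ℝ} (h1 : t₁ ∈ I) (h2 : t₂ ∈ I)
    (h12 : t₁ ≤ t₂) (h20 : t₂ < t₀) :
    ENNReal.ofReal (gd (ar (w t₂)) x₀ √(t₀ - t₂)) + ∫⁻ t in Ioo t₁ t₂, dis w x₀ t₀ t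
      ≤ ENNReal.ofReal (gd (ar (w t₁)) x₀ √(t₀ - t₁)) := by
  have hA := zero_le_one.trans h.one_le
  rw [gd_eq_lint hA (h.ratio t₂ h2) x₀ h20, gd_eq_lint hA (h.ratio t₁ h1) x₀ (h12.trans_lt h20)]
  exact mono_lint h.toIsFlow x₀ h1 h2 h12 h20

lemma integral_le_ball {μ : Measure E3} {A : ℝ} (hA : 0 ≤ A) (h : AR μ A) {f : E3 → ℝ}
    (hf : Integrable f μ) {z : E3} {ρ M : ℝ} (hρ : 0 < ρ) (hM : 0 ≤ M)
    (h1 : ∀ᵐ x ∂μ, f x ≤ (closedBall z ρ).indicator (fun _ => M) x) :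
    ∫ x, f x ∂μ ≤ M * (A * ρ ^ 2) := by
  have h2 : μ (closedBall z ρ) < ⊤ := (h z ρ hρ).trans_lt ENNReal.ofReal_lt_top
  refine (integral_mono_ae hf ((integrable_indicator_iff measurableSet_closedBall).2
    (integrableOn_const h2.ne)) h1).trans ?_
  rw [integral_indicator_const _ measurableSet_closedBall, smul_eq_mul, mul_comm]
  exact mul_le_mul_of_nonneg_left (ENNReal.toReal_le_of_le_ofReal (by positivity) (h z ρ hρ)) hM

theorem hsq {A : ℝ} (h : IsARFlow w I A) (z : E3) {r t₁ t₂ : ℝ} (hr : 0 < r) (h1 : t₁ ∈ I)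
    (h2 : t₂ ∈ I) (h12 : t₁ ≤ t₂) :
    ∫ t in t₁..t₂, ∫ x in ball z r, lap (w t) x ^ 2 ∂(ar (w t)) ≤ 36 * A * (r ^ 2 + (t₂ - t₁)) := by
  have hA := zero_le_one.trans h.one_le
  have hF := h.toIsFlow
  have hρ : 0 < 2 * r := by positivity
  have hz : ∀ t x, x ∉ closedBall z (2 * r) →
      max (1 - (‖x - z‖ ^ 2 + 0 * (t - t₁)) / (2 * r) ^ 2) 0 = 0 := fun t x hx => by
    rw [mem_closedBall, dist_eq_norm, not_le] at hx
    refine max_eq_right (sub_nonpos.2 ((one_le_div (by positivity)).2 ?_))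
    rw [zero_mul, add_zero]
    exact pow_le_pow_left₀ hρ.le hx.le 2
  have hz' : ∀ t x, x ∉ closedBall z (2 * r) → cut z 0 t₁ (2 * r) t x = 0 := fun t x hx => by
    rw [cut, hz t x hx]; norm_num
  have hl : ∀ t x, max (1 - (‖x - z‖ ^ 2 + 0 * (t - t₁)) / (2 * r) ^ 2) 0 ≤ 1 := fun t x => by
    refine max_le (sub_le_self _ ?_) zero_le_one
    rw [zero_mul, add_zero]
    positivity
  have hK := isCompact_closedBall z (2 * r)
  have hg := fun t (ht : t ∈ I) => green_core hF hF.isOpen subset_rfl (ψ := fun _ _ => 1)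
    contDiffOn_const (contDiff_cut z 0 t₁ (2 * r)).contDiffOn hK (Or.inr fun t _ => hz' t) ht
  have hV : ContinuousOn (fun t => ∫ x, cut z 0 t₁ (2 * r) t x * lap (w t) x ^ 2 ∂(ar (w t))) I :=
    continuousOn_integral hF hF.isOpen subset_rfl
      ((contDiff_cut z 0 t₁ _).continuous.continuousOn.mul ((continuousOn_lap hF).pow 2)) hK
      fun t _ x hx => by rw [hz' t x hx, zero_mul]
  have hi : ∀ t ∈ I, Integrable (fun x => cut z 0 t₁ (2 * r) t x * lap (w t) x ^ 2) (ar (w t)) :=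
    fun t ht => integrable_of_supp hF ht ((continuous_cut _ _ _ _ _).mul
      ((continuous_slice (continuousOn_lap hF) ht).pow 2)) hK fun x hx => by
        rw [hz' t x hx, zero_mul]
  have hs : Icc t₁ t₂ ⊆ I := hF.conn.out h1 h2
  have hVi := ((hV.mono hs).integrableOn_compact (μ := volume) isCompact_Icc)
  have e := ftc_le h12 hs (fun t ht => (hg t ht).2) (fun t ht => ?_)
    ((continuousOn_const (c := 12 * A)).sub hV)
  · have hVi' := (intervalIntegrable_iff_integrableOn_Icc_of_le h12).2 hVi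
    simp only [Pi.sub_apply, one_mul] at e
    rw [intervalIntegral.integral_sub intervalIntegrable_const hVi',
      intervalIntegral.integral_const, smul_eq_mul] at e
    have e1 : 0 ≤ ∫ x, cut z 0 t₁ (2 * r) t₂ x ∂(ar (w t₂)) :=
      integral_nonneg fun x => cut_nonneg _ _ _ _ _ _
    have e2 : ∫ x, cut z 0 t₁ (2 * r) t₁ x ∂(ar (w t₁)) ≤ 1 * (A * (2 * r) ^ 2) := by
      refine integral_le_ball hA (h.ratio t₁ h1) (integrable_of_supp hF h1
        (continuous_cut _ _ _ _ _) hK (hz' t₁)) (z := z) hρ zero_le_one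
        (Eventually.of_forall fun x => ?_)
      by_cases hx : x ∈ closedBall z (2 * r)
      · rw [indicator_of_mem hx]; exact cut_le_one z le_rfl le_rfl _ x
      · rw [indicator_of_notMem hx, hz' _ x hx]
    have e3 : ∫ t in t₁..t₂, ∫ x in ball z r, lap (w t) x ^ 2 ∂(ar (w t))
        ≤ ∫ t in t₁..t₂, 3 * ∫ x, cut z 0 t₁ (2 * r) t x * lap (w t) x ^ 2 ∂(ar (w t)) := by
      rw [intervalIntegral.integral_of_le h12, intervalIntegral.integral_of_le h12]
      refine integral_mono_of_nonneg (Eventually.of_forall fun t => integral_nonneg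
        fun x => sq_nonneg _) ((hVi.mono_set Ioc_subset_Icc_self).const_mul 3) ?_
      filter_upwards [ae_restrict_mem measurableSet_Ioc] with t ht
      rw [← integral_const_mul, ← integral_indicator measurableSet_ball]
      refine integral_mono_of_nonneg (Eventually.of_forall fun x => indicator_nonneg
        (fun _ _ => sq_nonneg _) x) ((hi t (hs (Ioc_subset_Icc_self ht))).const_mul 3)
        (Eventually.of_forall fun x => ?_)
      have h0 := cut_nonneg z 0 t₁ (2 * r) t x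
      by_cases hx : x ∈ ball z r
      · have h3 : (3 / 4 : ℝ) ^ 3 ≤ cut z 0 t₁ (2 * r) t x := by
          refine pow_le_pow_left₀ (by norm_num) (le_max_of_le_left ?_) 3
          rw [mem_ball, dist_eq_norm] at hx
          have h4 : (‖x - z‖ ^ 2 + 0 * (t - t₁)) / (2 * r) ^ 2 ≤ 1 / 4 := by
            rw [div_le_iff₀ (by positivity)]
            nlinarith [norm_nonneg (x - z)]
          linarith
        rw [indicator_of_mem hx]
        nlinarith [sq_nonneg (lap (w t) x)]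
      · rw [indicator_of_notMem hx]
        positivity
    rw [intervalIntegral.integral_const_mul] at e3
    nlinarith [sq_nonneg r]
  · have ht' := hs (Ioo_subset_Icc_self ht)
    have e1 : ∀ x, 1 * heat w (cut z 0 t₁ (2 * r)) t x + cut z 0 t₁ (2 * r) t x
        * adj w (fun _ _ => 1) t x
        = heat w (cut z 0 t₁ (2 * r)) t x - cut z 0 t₁ (2 * r) t x * lap (w t) x ^ 2 := fun x => by
      have e2 : gradient (fun _ : E3 => (1 : ℝ)) = fun _ => 0 := by ext; simp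
      simp only [adj, P218UA.hs, e2, fderiv_fun_const, Pi.zero_apply, trT_zero, deriv_const',
        inner_zero_left]
      ring
    have i1 := (hg t ht').1
    simp only [e1] at i1 ⊢
    have i2 : Integrable (heat w (cut z 0 t₁ (2 * r)) t) (ar (w t)) :=
      (i1.add (hi t ht')).congr (Eventually.of_forall fun x => by simp)
    rw [integral_sub i2 (hi t ht'), Pi.sub_apply, sub_le_sub_iff_right]
    refine (integral_le_ball hA (h.ratio t ht') i2 (z := z) (M := 3 / r ^ 2) hρ (by positivity)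
      ?_).trans_eq (by field_simp; ring)
    filter_upwards [ae_ar (slice hF ht').smooth.continuous] with y hy
    refine (heat_cut w z 0 t₁ hρ t ((isEik_of (slice hF ht')).unit y hy)).trans ?_
    by_cases hx : y ∈ closedBall z (2 * r)
    · rw [indicator_of_mem hx]
      refine (mul_le_of_le_one_right (by positivity)
        (pow_le_one₀ (le_max_right _ _) (hl t y))).trans_eq ?_
      field_simp; norm_num
    · rw [indicator_of_notMem hx, hz t y hx]; simp

end Vale.Agent.P218UX
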