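import Vale.Agent.P218UG.Graph

/-! Calculus for families of functions: the time derivative commutes with all space derivatives,
limits of uniformly Cauchy jets, and bounds for the derivatives of the graphical operator. -/

open Set Filter Topology Metric
open scoped RealInnerProductSpace ContDiff

namespace Vale.Agent.P218UX

open Vale.Agent.P218UA Vale.Agent.P218UG
open Vale.Agent.P218.H63 (lap)

section general

variable {E : Type} [NormedAddCommGroup E] [NormedSpace ℝ E]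

lemma deriv_fderiv_comm {G : Type} [NormedAddCommGroup G] [NormedSpace ℝ G] {F : ℝ × E → G}
    {t : ℝ} {x : E} (h : ContDiffAt ℝ 2 F (t, x)) :
    deriv (fun s => fderiv ℝ (fun y => F (s, y)) x) t
      = fderiv ℝ (fun y => deriv (fun s => F (s, y)) t) x := by
  have h1 : ∀ᶠ p in 𝓝 (t, x), DifferentiableAt ℝ F p :=
    (h.eventually (by simp)).mono fun _ h => h.differentiableAt (by norm_num)
  have h2 : DifferentiableAt ℝ (fderiv ℝ F) (t, x) :=
    (h.fderiv_right (m := 1) (by norm_num)).differentiableAt (by norm_num)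
  have a1 : (fun s => fderiv ℝ (fun y => F (s, y)) x)
      =ᶠ[𝓝 t] fun s => (fderiv ℝ F (s, x)).comp (ContinuousLinearMap.inr ℝ ℝ E) := by
    filter_upwards [(Continuous.prodMk_left x).continuousAt.eventually h1] with s hs
    exact (hs.hasFDerivAt.comp x (hasFDerivAt_prodMk_right s x)).fderiv
  have a2 : (fun y => deriv (fun s => F (s, y)) t) =ᶠ[𝓝 x] fun y => fderiv ℝ F (t, y) (1, 0) := by
    filter_upwards [(Continuous.prodMk_right t).continuousAt.eventually h1] with y hy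
    exact (hy.hasFDerivAt.comp_hasDerivAt t
      ((hasDerivAt_id t).prodMk (hasDerivAt_const t y))).deriv
  have b1 : HasDerivAt (fun s => fderiv ℝ F (s, x)) (fderiv ℝ (fderiv ℝ F) (t, x) (1, 0)) t :=
    h2.hasFDerivAt.comp_hasDerivAt t ((hasDerivAt_id t).prodMk (hasDerivAt_const t x))
  have b2 : HasFDerivAt (fun y => fderiv ℝ F (t, y))
      ((fderiv ℝ (fderiv ℝ F) (t, x)).comp (ContinuousLinearMap.inr ℝ ℝ E)) x :=
    h2.hasFDerivAt.comp x (hasFDerivAt_prodMk_right t x)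
  rw [a1.deriv_eq, a2.fderiv_eq, (b1.clm_comp (hasDerivAt_const t _)).deriv,
    (b2.clm_apply (hasFDerivAt_const _ x)).fderiv]
  ext v
  simpa using (h.isSymmSndFDerivAt (by simp)).eq (1, 0) (0, v)

/-- the time derivative commutes with the space derivatives -/
lemma hasDerivAt_iter (k : ℕ) : ∀ {G : Type} [NormedAddCommGroup G] [NormedSpace ℝ G]
    {F : ℝ × E → G} {t : ℝ} {x : E}, ContDiffAt ℝ (k + 1) F (t, x) →
    HasDerivAt (fun s => iteratedFDeriv ℝ k (fun y => F (s, y)) x)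
      (iteratedFDeriv ℝ k (fun y => deriv (fun s => F (s, y)) t) x) t := by
  induction k with
  | zero =>
    intro G _ _ F t x h
    have h1 : HasDerivAt (fun s => F (s, x)) (deriv (fun s => F (s, x)) t) t :=
      ((h.differentiableAt (by simp)).comp t (f := fun s => (s, x)) (by fun_prop)).hasDerivAt
    simp only [iteratedFDeriv_zero_eq_comp]
    exact (continuousMultilinearCurryFin0 ℝ E G).symm.toContinuousLinearEquiv.hasFDerivAt
      |>.comp_hasDerivAt t h1
  | succ k ih =>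
    intro G _ _ F t x h
    have h0 : ContDiffAt ℝ (k + 1 + 1)
        (Function.uncurry fun (q : ℝ × E) (y : E) => F (q.1, y)) ((t, x), x) :=
      ContDiffAt.comp ((t, x), x) (g := F) (f := fun z : (ℝ × E) × E => (z.1.1, z.2))
        (by exact_mod_cast h) (by fun_prop)
    have h1 : ContDiffAt ℝ (k + 1) (fun q : ℝ × E => fderiv ℝ (fun y => F (q.1, y)) q.2) (t, x) :=
      h0.fderiv contDiffAt_snd le_rfl
    have h2 := ih h1
    have h3 : (fun y => deriv (fun s => fderiv ℝ (fun y => F (s, y)) y) t)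
        =ᶠ[𝓝 x] fderiv ℝ fun y => deriv (fun s => F (s, y)) t := by
      have h4 : ContDiffAt ℝ 2 F (t, x) := h.of_le (by norm_cast; omega)
      filter_upwards [(Continuous.prodMk_right t).continuousAt.eventually
        (h4.eventually (by simp))] with y hy
      exact deriv_fderiv_comm hy
    rw [(h3.iteratedFDeriv ℝ k).self_of_nhds] at h2
    simp only [iteratedFDeriv_succ_eq_comp_right]
    exact (continuousMultilinearCurryRightEquiv' ℝ k E G).symm.toContinuousLinearEquiv.hasFDerivAt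
      |>.comp_hasDerivAt t h2

/-- the limit of a family all of whose jets are uniformly Lipschitz in time -/
lemma exists_lim {U : ℝ → E → ℝ} {s : Set E} (hs : IsOpen s) {τ : ℝ} (hτ : 0 < τ)
    (hU : ∀ t ∈ Ioo (-τ) 0, ContDiffOn ℝ ∞ (U t) s) (C : ℕ → ℝ)
    (hC : ∀ k, ∀ t ∈ Ioo (-τ) 0, ∀ t' ∈ Ioo (-τ) 0, ∀ x ∈ s,
      ‖iteratedFDeriv ℝ k (U t) x - iteratedFDeriv ℝ k (U t') x‖ ≤ C k * |t - t'|) :
    ∃ u : E → ℝ, ContDiffOn ℝ ∞ u s ∧ ∀ k, ∀ t ∈ Ioo (-τ) 0, ∀ x ∈ s,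
      ‖iteratedFDeriv ℝ k (U t) x - iteratedFDeriv ℝ k u x‖ ≤ C k * |t| := by
  have hm : Ioo (-τ) 0 ∈ 𝓝[<] (0 : ℝ) := Ioo_mem_nhdsLT (by linarith)
  have h0 (k : ℕ) : Tendsto (fun t : ℝ => C k * |t|) (𝓝[<] 0) (𝓝 0) := by
    have : Continuous fun t : ℝ => C k * |t| := by fun_prop
    simpa using (this.tendsto 0).mono_left nhdsWithin_le_nhds
  have h1 (k : ℕ) (x : E) (hx : x ∈ s) :
      ∃ p, Tendsto (fun t => iteratedFDeriv ℝ k (U t) x) (𝓝[<] 0) (𝓝 p) := by
    refine cauchy_map_iff_exists_tendsto.1 (cauchy_map_iff'.2 ?_)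
    refine tendsto_uniformity_iff_dist_tendsto_zero.2 ?_
    have hc : Continuous fun p : ℝ × ℝ => C k * |p.1 - p.2| := by fun_prop
    have h2 : Tendsto (fun p : ℝ × ℝ => C k * |p.1 - p.2|) (𝓝[<] 0 ×ˢ 𝓝[<] 0) (𝓝 0) := by
      have := hc.tendsto (0, 0)
      rw [nhds_prod_eq] at this
      simpa using this.mono_left (Filter.prod_mono nhdsWithin_le_nhds nhdsWithin_le_nhds)
    refine squeeze_zero' (Eventually.of_forall fun _ => dist_nonneg) ?_ h2
    filter_upwards [prod_mem_prod hm hm] with p hp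
    rw [dist_eq_norm]
    exact hC k _ hp.1 _ hp.2 x hx
  choose! p hp using h1
  have h2 (k : ℕ) (t : ℝ) (ht : t ∈ Ioo (-τ) 0) (x : E) (hx : x ∈ s) :
      ‖iteratedFDeriv ℝ k (U t) x - p k x‖ ≤ C k * |t| := by
    have hc : Continuous fun t' : ℝ => C k * |t - t'| := by fun_prop
    have h3 : Tendsto (fun t' : ℝ => C k * |t - t'|) (𝓝[<] 0) (𝓝 (C k * |t|)) := by
      simpa using (hc.tendsto 0).mono_left nhdsWithin_le_nhds
    refine le_of_tendsto_of_tendsto (tendsto_const_nhds.sub (hp k x hx)).norm h3 ?_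
    filter_upwards [hm] with t' ht' using hC k t ht t' ht' x hx
  have h3 (k : ℕ) : TendstoUniformlyOn (fun t => iteratedFDeriv ℝ k (U t)) (p k) (𝓝[<] 0) s := by
    refine Metric.tendstoUniformlyOn_iff.2 fun ε hε => ?_
    filter_upwards [hm, (h0 k).eventually (gt_mem_nhds hε)] with t ht ht' x hx
    rw [dist_comm, dist_eq_norm]
    exact (h2 k t ht x hx).trans_lt ht'
  have h4 (k : ℕ) (x : E) (hx : x ∈ s) : HasFDerivAt (p k)
      (continuousMultilinearCurryLeftEquiv ℝ (fun _ : Fin (k + 1) => E) ℝ (p (k + 1) x)) x := by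
    have h5 := (continuousMultilinearCurryLeftEquiv ℝ (fun _ : Fin (k + 1) => E) ℝ).isometry
      |>.uniformContinuous.comp_tendstoUniformlyOn (h3 (k + 1))
    refine hasFDerivAt_of_tendstoUniformlyOnFilter (f := fun t => iteratedFDeriv ℝ k (U t))
      (h5.tendstoUniformlyOnFilter.mono_right ?_) ?_ (eventually_of_mem (hs.mem_nhds hx) (hp k))
    · exact le_principal_iff.2 (hs.mem_nhds hx)
    · filter_upwards [prod_mem_prod hm (hs.mem_nhds hx)] with q hq
      exact (((hU _ hq.1).contDiffAt (hs.mem_nhds hq.2)).differentiableAt_iteratedFDeriv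
        (by exact_mod_cast ENat.natCast_lt_top k)).hasFDerivAt
  have h5 (k : ℕ) : ∀ x ∈ s, iteratedFDeriv ℝ k
      (fun x => continuousMultilinearCurryFin0 ℝ E ℝ (p 0 x)) x = p k x := by
    induction k with
    | zero => intro x _; simp [iteratedFDeriv_zero_eq_comp]
    | succ k ih =>
      intro x hx
      have h6 := (eventuallyEq_of_mem (hs.mem_nhds hx) ih).fderiv_eq (𝕜 := ℝ)
      rw [iteratedFDeriv_succ_eq_comp_left, Function.comp_apply, h6, (h4 k x hx).fderiv,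
        LinearIsometryEquiv.symm_apply_apply]
  refine ⟨fun x => continuousMultilinearCurryFin0 ℝ E ℝ (p 0 x),
    contDiffOn_of_differentiableOn fun m _ => ?_, fun k t ht x hx => ?_⟩
  · exact DifferentiableOn.congr (fun x hx => (h4 m x hx).differentiableAt.differentiableWithinAt)
      fun x hx => (iteratedFDerivWithin_of_isOpen m hs hx).trans (h5 m x hx)
  · rw [h5 k x hx]
    exact h2 k t ht x hx

/-- bounds for the derivatives of a composition -/
lemma comp_bound {F : Type} [NormedAddCommGroup F] [NormedSpace ℝ F] [ProperSpace F] {g : F → ℝ}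
    (hg : ContDiff ℝ ∞ g) (k : ℕ) (K : ℝ) : ∃ C : ℝ, ∀ (f : E → F) (s : Set E) (ξ : E),
    IsOpen s → ξ ∈ s → ContDiffOn ℝ ∞ f s → (∀ i, i ≤ k → ‖iteratedFDeriv ℝ i f ξ‖ ≤ K) →
    ‖iteratedFDeriv ℝ k (g ∘ f) ξ‖ ≤ C := by
  have h0 (i : ℕ) : ∃ C, ∀ z ∈ closedBall (0 : F) K, ‖iteratedFDeriv ℝ i g z‖ ≤ C :=
    (isCompact_closedBall _ _).exists_bound_of_continuousOn
      (hg.continuous_iteratedFDeriv (by exact_mod_cast le_top)).continuousOn
  choose C hC using h0
  refine ⟨k.factorial * (∑ i ∈ Finset.range (k + 1), |C i|) * max K 1 ^ k,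
    fun f s ξ hs hξ hf hK => ?_⟩
  rw [← iteratedFDerivWithin_of_isOpen k hs hξ]
  refine norm_iteratedFDerivWithin_comp_le hg.contDiffOn hf
    (by exact_mod_cast le_top) uniqueDiffOn_univ hs.uniqueDiffOn (mapsTo_univ _ _) hξ
    (fun i hi => ?_) fun i hi1 hi => ?_
  · rw [iteratedFDerivWithin_univ]
    refine (hC i _ ?_).trans ((le_abs_self _).trans (Finset.single_le_sum
      (f := fun i => |C i|) (fun _ _ => abs_nonneg _) (Finset.mem_range.2 (by omega))))
    simpa using hK 0 (Nat.zero_le k)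
  · rw [iteratedFDerivWithin_of_isOpen i hs hξ]
    exact (hK i hi).trans ((le_max_left _ _).trans (le_self_pow₀ (le_max_right _ _) (by omega)))

lemma norm_fderiv_sub_le (f g : E → ℝ) (x : E) :
    ‖fderiv ℝ f x - fderiv ℝ g x‖ ≤ ‖iteratedFDeriv ℝ 1 f x - iteratedFDeriv ℝ 1 g x‖ := by
  refine ContinuousLinearMap.opNorm_le_bound _ (norm_nonneg _) fun a => ?_
  simpa using (iteratedFDeriv ℝ 1 f x - iteratedFDeriv ℝ 1 g x).le_opNorm ![a]

lemma norm_fderiv2_sub_le (f g : E → ℝ) (x : E) :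
    ‖fderiv ℝ (fderiv ℝ f) x - fderiv ℝ (fderiv ℝ g) x‖
      ≤ ‖iteratedFDeriv ℝ 2 f x - iteratedFDeriv ℝ 2 g x‖ := by
  refine ContinuousLinearMap.opNorm_le_bound₂ _ (norm_nonneg _) fun a b => ?_
  simpa [iteratedFDeriv_two_apply, mul_assoc] using
    (iteratedFDeriv ℝ 2 f x - iteratedFDeriv ℝ 2 g x).le_opNorm ![a, b]

end general

/-- the Riesz map of the plane -/
noncomputable def dual : (E2 →L[ℝ] ℝ) →L[ℝ] E2 where
  toFun φ := (InnerProductSpace.toDual ℝ E2).symm φ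
  map_add' _ _ := map_add _ _ _
  map_smul' c φ := by simp
  cont := (InnerProductSpace.toDual ℝ E2).symm.continuous

lemma gradient_eq_dual (u : E2 → ℝ) (ξ : E2) : gradient u ξ = dual (fderiv ℝ u ξ) := rfl

lemma fderiv_gradient {u : E2 → ℝ} {ξ : E2} (hu : ContDiffAt ℝ 2 u ξ) :
    fderiv ℝ (gradient u) ξ = dual.comp (fderiv ℝ (fderiv ℝ u) ξ) :=
  (dual.hasFDerivAt.comp ξ ((hu.fderiv_right (m := 1) (by norm_num)).differentiableAt
    (by norm_num)).hasFDerivAt).fderiv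

/-- the graphical operator as a function of the first and second derivatives -/
noncomputable def gj (z : (E2 →L[ℝ] ℝ) × (E2 →L[ℝ] E2 →L[ℝ] ℝ)) : ℝ :=
  trL E2 (dual.comp z.2) - ⟪dual (z.2 (dual z.1)), dual z.1⟫ / (1 + ‖dual z.1‖ ^ 2)

lemma gmc_eq {u : E2 → ℝ} {ξ : E2} (hu : ContDiffAt ℝ 2 u ξ) :
    gmc u ξ = gj (fderiv ℝ u ξ, fderiv ℝ (fderiv ℝ u) ξ) := by
  rw [gmc, lap_eq, fderiv_gradient hu]
  rfl

lemma contDiff_gj : ContDiff ℝ ∞ gj := by
  have h1 : ContDiff ℝ ∞ fun z : (E2 →L[ℝ] ℝ) × (E2 →L[ℝ] E2 →L[ℝ] ℝ) => dual z.1 :=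
    dual.contDiff.comp contDiff_fst
  refine ((trL E2).contDiff.comp (contDiff_const.clm_comp contDiff_snd)).sub
    (((dual.contDiff.comp (contDiff_snd.clm_apply h1)).inner ℝ h1).div
      (contDiff_const.add (h1.norm_sq ℝ)) fun z => by positivity)

/-- bounds for the derivatives of the graphical operator -/
lemma gmc_bound (k : ℕ) (K : ℝ) : ∃ C : ℝ, ∀ (u : E2 → ℝ) (s : Set E2) (ξ : E2), IsOpen s →
    ξ ∈ s → ContDiffOn ℝ ∞ u s → (∀ j, 1 ≤ j → j ≤ k + 2 → ‖iteratedFDeriv ℝ j u ξ‖ ≤ K) →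
    ‖iteratedFDeriv ℝ k (gmc u) ξ‖ ≤ C := by
  obtain ⟨C, hC⟩ := comp_bound (E := E2) contDiff_gj k K
  refine ⟨C, fun u s ξ hs hξ hu hK => ?_⟩
  have a1 : ContDiffOn ℝ ∞ (fderiv ℝ u) s := hu.fderiv_of_isOpen hs le_rfl
  have a2 : ContDiffOn ℝ ∞ (fderiv ℝ (fderiv ℝ u)) s := a1.fderiv_of_isOpen hs le_rfl
  have a3 : gmc u =ᶠ[𝓝 ξ] gj ∘ fun ζ => (fderiv ℝ u ζ, fderiv ℝ (fderiv ℝ u) ζ) := by
    filter_upwards [hs.mem_nhds hξ] with ζ hζ
    exact gmc_eq ((hu.contDiffAt (hs.mem_nhds hζ)).of_le (by norm_cast))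
  rw [(a3.iteratedFDeriv ℝ k).self_of_nhds]
  refine hC _ s ξ hs hξ (a1.prodMk a2) fun i hi => ?_
  rw [iteratedFDeriv_prodMk (a1.contDiffAt (hs.mem_nhds hξ)) (a2.contDiffAt (hs.mem_nhds hξ))
    (by exact_mod_cast le_top), ContinuousMultilinearMap.opNorm_prod,
    norm_iteratedFDeriv_fderiv, norm_iteratedFDeriv_fderiv, norm_iteratedFDeriv_fderiv]
  exact max_le (hK _ (by omega) (by omega)) (hK _ (by omega) (by omega))

end Vale.Agent.P218UX
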