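import Vale.Agent.P218UX.Stm
import Vale.Agent.P218UM.Heat

/-! The local monotonicity formula, with the cut-off function of Ecker. -/

open MeasureTheory Set Filter Topology Metric Module
open scoped ENNReal NNReal RealInnerProductSpace ContDiff

namespace Vale.Agent.P218UX

open Vale.Agent.P218GA Vale.Agent.P218UA Vale.Agent.P218UM
open Vale.Agent.P218.H63 (lap)

/-- the backward heat kernel -/
noncomputable def Phi (x₀ : E3) (t₀ t : ℝ) (y : E3) : ℝ :=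
  Real.exp (-‖y - x₀‖ ^ 2 / (4 * (t₀ - t))) / (4 * Real.pi * (t₀ - t))

/-- the cut-off function -/
noncomputable def cut (x₀ : E3) (a t₁ ρ t : ℝ) (y : E3) : ℝ :=
  max (1 - (‖y - x₀‖ ^ 2 + a * (t - t₁)) / ρ ^ 2) 0 ^ 3

/-- the integrand of the dissipation -/
noncomputable def dsp (w : ℝ → E3 → ℝ) (x₀ : E3) (t₀ t : ℝ) (y : E3) : ℝ :=
  (lap (w t) y - ⟪y - x₀, gradient (w t) y⟫ / (2 * (t₀ - t))) ^ 2 * Phi x₀ t₀ t y

lemma contDiff_nsq (x₀ : E3) {n : WithTop ℕ∞} : ContDiff ℝ n fun y : E3 => ‖y - x₀‖ ^ 2 :=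
  (contDiff_norm_sq ℝ).comp (contDiff_id.sub contDiff_const)

lemma gradient_nsq (x₀ y : E3) : gradient (fun y : E3 => ‖y - x₀‖ ^ 2) y = (2 : ℝ) • (y - x₀) := by
  refine ext_inner_right ℝ fun v => ?_
  have e := ((hasFDerivAt_id y).sub_const x₀).norm_sq.fderiv
  simp only [id] at e
  rw [inner_gradient, e, real_inner_smul_left]
  simp [inner_sub_left]

lemma trT_nsq {n : E3} (hn : ‖n‖ = 1) (x₀ y : E3) :
    trT n (hs (fun y : E3 => ‖y - x₀‖ ^ 2) y) = 4 := by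
  have h1 : gradient (fun y : E3 => ‖y - x₀‖ ^ 2) = fun y => (2 : ℝ) • (y - x₀) :=
    funext (gradient_nsq x₀)
  have h2 : hs (fun y : E3 => ‖y - x₀‖ ^ 2) y = (2 : ℝ) • ContinuousLinearMap.id ℝ E3 := by
    rw [hs, h1]
    exact (((hasFDerivAt_id y).sub_const x₀).const_smul (2 : ℝ)).fderiv
  rw [trT, trace_eq, h2]
  simp only [smul_apply, ContinuousLinearMap.id_apply, real_inner_smul_left,
    real_inner_self_eq_norm_sq, hn, OrthonormalBasis.norm_eq_one, Fin.sum_univ_three]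
  norm_num

/-- radial functions -/
lemma radial {F F₁ : ℝ → ℝ} {F₂ : ℝ} (hF : ContDiff ℝ 2 F) (h1 : ∀ s, HasDerivAt F (F₁ s) s)
    (x₀ y : E3) (h2 : HasDerivAt F₁ F₂ (‖y - x₀‖ ^ 2)) {n : E3} (hn : ‖n‖ = 1) :
    ⟪gradient (fun y => F (‖y - x₀‖ ^ 2)) y, n⟫ = 2 * F₁ (‖y - x₀‖ ^ 2) * ⟪y - x₀, n⟫ ∧
    trT n (hs (fun y => F (‖y - x₀‖ ^ 2)) y) = 4 * F₁ (‖y - x₀‖ ^ 2)
      + 4 * F₂ * (‖y - x₀‖ ^ 2 - ⟪y - x₀, n⟫ ^ 2) := by
  have e : deriv F = F₁ := funext fun s => (h1 s).deriv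
  constructor
  · rw [gradient_comp (u := fun y => ‖y - x₀‖ ^ 2) (h1 _).differentiableAt
      ((contDiff_nsq x₀ (n := 1)).differentiable one_ne_zero y), gradient_nsq, e,
      real_inner_smul_left, real_inner_smul_left]
    ring
  · rw [trT_comp (u := fun y => ‖y - x₀‖ ^ 2) hF.contDiffAt (contDiff_nsq x₀).contDiffAt,
      trT_nsq hn, gradient_nsq, e, h2.deriv, real_inner_smul_left, norm_smul]
    simp only [Real.norm_ofNat]
    ring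

lemma Phi_pos (x₀ : E3) {t₀ t : ℝ} (ht : t < t₀) (y : E3) : 0 < Phi x₀ t₀ t y :=
  div_pos (Real.exp_pos _) (by have := sub_pos.2 ht; positivity)

lemma dsp_nonneg (w : ℝ → E3 → ℝ) (x₀ : E3) {t₀ t : ℝ} (ht : t < t₀) (y : E3) :
    0 ≤ dsp w x₀ t₀ t y := mul_nonneg (sq_nonneg _) (Phi_pos x₀ ht y).le

lemma cut_nonneg (x₀ : E3) (a t₁ ρ t : ℝ) (y : E3) : 0 ≤ cut x₀ a t₁ ρ t y := by
  unfold cut; positivity

lemma cut_le_one (x₀ : E3) {a t₁ t : ℝ} (ha : 0 ≤ a) (ht : t₁ ≤ t) (ρ : ℝ) (y : E3) :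
    cut x₀ a t₁ ρ t y ≤ 1 := by
  refine pow_le_one₀ (le_max_right _ _) (max_le ?_ zero_le_one)
  have := sub_nonneg.2 ht
  have : 0 ≤ (‖y - x₀‖ ^ 2 + a * (t - t₁)) / ρ ^ 2 := by positivity
  linarith

lemma cut_eq_zero {x₀ : E3} {a t₁ ρ t : ℝ} (hρ : 0 < ρ) {y : E3}
    (h : ρ ^ 2 ≤ ‖y - x₀‖ ^ 2 + a * (t - t₁)) : cut x₀ a t₁ ρ t y = 0 := by
  rw [cut, max_eq_right (sub_nonpos.2 ((one_le_div (by positivity)).2 h))]
  norm_num

lemma cut_supp {x₀ : E3} {a t₁ ρ t : ℝ} (hρ : 0 < ρ) (ha : 0 ≤ a) (ht : t₁ - 1 < t) {y : E3}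
    (h : y ∉ closedBall x₀ (ρ + a + 1)) : cut x₀ a t₁ ρ t y = 0 := by
  rw [mem_closedBall, dist_eq_norm, not_le] at h
  refine cut_eq_zero hρ ?_
  have h1 : (ρ + a + 1) ^ 2 ≤ ‖y - x₀‖ ^ 2 := pow_le_pow_left₀ (by positivity) h.le 2
  nlinarith

lemma contDiff_cut (x₀ : E3) (a t₁ ρ : ℝ) :
    ContDiff ℝ 2 fun p : ℝ × E3 => cut x₀ a t₁ ρ p.1 p.2 :=
  contDiff_max_cube.comp (contDiff_const.sub ((((contDiff_nsq x₀).comp contDiff_snd).add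
    (contDiff_const.mul (contDiff_fst.sub contDiff_const))).div_const _))

lemma contDiffOn_Phi (x₀ : E3) (t₀ : ℝ) {J : Set ℝ} (hJ : J ⊆ Iio t₀) {n : WithTop ℕ∞} :
    ContDiffOn ℝ n (fun p : ℝ × E3 => Phi x₀ t₀ p.1 p.2) (J ×ˢ univ) := by
  have h1 : ∀ p ∈ J ×ˢ (univ : Set E3), 0 < t₀ - p.1 := fun p hp => sub_pos.2 (hJ hp.1)
  refine ContDiffOn.div (ContDiffOn.exp (ContDiffOn.div
    ((contDiff_nsq x₀).comp contDiff_snd).neg.contDiffOn (by fun_prop) fun p hp => ?_))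
    (by fun_prop) fun p hp => ?_
  · have := h1 p hp; positivity
  · have := h1 p hp; positivity

lemma adj_Phi (w : ℝ → E3 → ℝ) (x₀ : E3) {t₀ t : ℝ} (ht : t < t₀) {y : E3}
    (hn : ‖gradient (w t) y‖ = 1) : adj w (Phi x₀ t₀) t y = -dsp w x₀ t₀ t y := by
  have hτ : t₀ - t ≠ 0 := (sub_pos.2 ht).ne'
  have hF : ∀ s, HasDerivAt (fun s => Real.exp (-s / (4 * (t₀ - t))) / (4 * Real.pi * (t₀ - t)))
      (-(4 * (t₀ - t))⁻¹ * (Real.exp (-s / (4 * (t₀ - t))) / (4 * Real.pi * (t₀ - t)))) s :=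
    fun s => ((((hasDerivAt_id' s).neg.div_const (4 * (t₀ - t))).exp).div_const _).congr_deriv
      (by simp only [Pi.neg_apply]; ring)
  obtain ⟨e1, e2⟩ := radial (by fun_prop) hF x₀ y ((hF _).const_mul _) hn
  have h3 : HasDerivAt (fun s => t₀ - s) (-1) t := (hasDerivAt_id' t).const_sub t₀
  have e3 : HasDerivAt (fun s => Phi x₀ t₀ s y)
      (Phi x₀ t₀ t y * (1 / (t₀ - t) - ‖y - x₀‖ ^ 2 / (4 * (t₀ - t) ^ 2))) t := by
    refine ((((hasDerivAt_const t (-‖y - x₀‖ ^ 2)).fun_div (h3.const_mul 4)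
      (mul_ne_zero four_ne_zero hτ)).exp).fun_div (h3.const_mul (4 * Real.pi))
      (mul_ne_zero (mul_ne_zero four_ne_zero Real.pi_ne_zero) hτ)).congr_deriv ?_
    have := Real.pi_ne_zero
    rw [Phi]
    field_simp
    ring
  rw [adj, e3.deriv]
  change _ + trT _ (hs (fun y => Real.exp (-‖y - x₀‖ ^ 2 / (4 * (t₀ - t)))
    / (4 * Real.pi * (t₀ - t))) y) - 2 * _ * ⟪gradient (fun y => Real.exp (-‖y - x₀‖ ^ 2
    / (4 * (t₀ - t))) / (4 * Real.pi * (t₀ - t))) y, _⟫ - _ = _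
  rw [e1, e2, dsp, ← Phi]
  field_simp
  ring

lemma heat_cut (w : ℝ → E3 → ℝ) (x₀ : E3) (a t₁ : ℝ) {ρ : ℝ} (hρ : 0 < ρ) (t : ℝ) {y : E3}
    (hn : ‖gradient (w t) y‖ = 1) : heat w (cut x₀ a t₁ ρ) t y
      ≤ 3 * (4 - a) / ρ ^ 2 * max (1 - (‖y - x₀‖ ^ 2 + a * (t - t₁)) / ρ ^ 2) 0 ^ 2 := by
  have h0 : ∀ s : ℝ, HasDerivAt (fun s => 1 - (s + a * (t - t₁)) / ρ ^ 2) (-(1 / ρ ^ 2)) s :=
    fun s => (((hasDerivAt_id' s).add_const _).div_const _).const_sub 1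
  have hF : ∀ s, HasDerivAt (fun s => max (1 - (s + a * (t - t₁)) / ρ ^ 2) 0 ^ 3)
      (-(3 / ρ ^ 2) * max (1 - (s + a * (t - t₁)) / ρ ^ 2) 0 ^ 2) s :=
    fun s => ((hasDerivAt_max_pow 1 _).comp s (h0 s)).congr_deriv (by push_cast; ring)
  have hF1 : ∀ s, HasDerivAt (fun s => -(3 / ρ ^ 2) * max (1 - (s + a * (t - t₁)) / ρ ^ 2) 0 ^ 2)
      (6 / ρ ^ 4 * max (1 - (s + a * (t - t₁)) / ρ ^ 2) 0) s :=
    fun s => (((hasDerivAt_max_pow 0 _).comp s (h0 s)).const_mul _).congr_deriv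
      (by push_cast; ring)
  obtain ⟨-, e2⟩ := radial (F := fun s => max (1 - (s + a * (t - t₁)) / ρ ^ 2) 0 ^ 3)
    (contDiff_max_cube.comp (f := fun s => 1 - (s + a * (t - t₁)) / ρ ^ 2)
    (by fun_prop)) hF x₀ y (hF1 _) hn
  have e3 : HasDerivAt (fun s => cut x₀ a t₁ ρ s y)
      (-(3 * a / ρ ^ 2) * max (1 - (‖y - x₀‖ ^ 2 + a * (t - t₁)) / ρ ^ 2) 0 ^ 2) t :=
    ((hasDerivAt_max_pow 1 _).comp t ((((((hasDerivAt_id' t).sub_const t₁).const_mul a).const_add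
      (‖y - x₀‖ ^ 2)).div_const (ρ ^ 2)).const_sub 1)).congr_deriv (by push_cast; ring)
  rw [heat, e3.deriv]
  change _ - trT _ (hs (fun y => max (1 - (‖y - x₀‖ ^ 2 + a * (t - t₁)) / ρ ^ 2) 0 ^ 3) y) ≤ _
  rw [e2]
  have h4 := sub_nonneg.2 (inner_sq_le hn (y - x₀))
  have h5 : 0 ≤ 4 * (6 / ρ ^ 4 * max (1 - (‖y - x₀‖ ^ 2 + a * (t - t₁)) / ρ ^ 2) 0)
      * (‖y - x₀‖ ^ 2 - ⟪y - x₀, gradient (w t) y⟫ ^ 2) := by positivity
  refine le_of_sub_nonneg (h5.trans_eq ?_)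
  ring

variable {w : ℝ → E3 → ℝ} {I : Set ℝ}

lemma continuousOn_lap (h : IsFlow w I) :
    ContinuousOn (fun p : ℝ × E3 => lap (w p.1) p.2) (I ×ˢ univ) := fun p hp =>
  (contDiffAt_lp (n := 0) (cdAt h.isOpen h.smooth hp.1 p.2)
    (by simpa using two_le_inf)).continuousAt.continuousWithinAt

lemma continuousOn_grad (h : IsFlow w I) :
    ContinuousOn (fun p : ℝ × E3 => gradient (w p.1) p.2) (I ×ˢ univ) := fun p hp =>
  (contDiffAt_gr (n := 0) (cdAt h.isOpen h.smooth hp.1 p.2)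
    (by simp)).continuousAt.continuousWithinAt

lemma continuousOn_dsp (h : IsFlow w I) (x₀ : E3) (t₀ : ℝ) {J : Set ℝ} (hJI : J ⊆ I)
    (hJ : J ⊆ Iio t₀) : ContinuousOn (fun p : ℝ × E3 => dsp w x₀ t₀ p.1 p.2) (J ×ˢ univ) := by
  have hs : J ×ˢ (univ : Set E3) ⊆ I ×ˢ univ := prod_mono hJI subset_rfl
  refine ((((continuousOn_lap h).mono hs).sub (ContinuousOn.div (ContinuousOn.inner (by fun_prop)
    ((continuousOn_grad h).mono hs)) (by fun_prop) fun p hp => ?_)).pow 2).mul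
    (contDiffOn_Phi x₀ t₀ hJ (n := 0)).continuousOn
  have := sub_pos.2 (show p.1 < t₀ from hJ hp.1)
  positivity

lemma ftc_le {g g' φ : ℝ → ℝ} {J : Set ℝ} {a b : ℝ} (hab : a ≤ b) (hJ : Icc a b ⊆ J)
    (hd : ∀ t ∈ J, HasDerivAt g (g' t) t) (hle : ∀ t ∈ Ioo a b, g' t ≤ φ t)
    (hφ : ContinuousOn φ J) : g b - g a ≤ ∫ t in a..b, φ t :=
  intervalIntegral.sub_le_integral_of_hasDeriv_right_of_le hab
    (fun t ht => (hd t (hJ ht)).continuousAt.continuousWithinAt)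
    (fun t ht => (hd t (hJ (Ioo_subset_Icc_self ht))).hasDerivWithinAt)
    ((hφ.mono hJ).integrableOn_compact isCompact_Icc) hle

lemma continuousOn_cut_dsp (h : IsFlow w I) (x₀ : E3) (t₀ t₁ : ℝ) {ρ : ℝ} (hρ : 0 < ρ) :
    ContinuousOn (fun t => ∫ y, cut x₀ 4 t₁ ρ t y * dsp w x₀ t₀ t y ∂(ar (w t)))
      (I ∩ Ioo (t₁ - 1) t₀) :=
  continuousOn_integral h (h.isOpen.inter isOpen_Ioo) inter_subset_left
    ((contDiff_cut x₀ 4 t₁ ρ).continuous.continuousOn.mul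
      (continuousOn_dsp h x₀ t₀ inter_subset_left fun _ ht => ht.2.2))
    (isCompact_closedBall x₀ (ρ + 4 + 1)) fun t ht x hx => by
      rw [cut_supp hρ (by norm_num) ht.2.1 hx, zero_mul]

lemma integrable_of_supp (h : IsFlow w I) {t : ℝ} (ht : t ∈ I) {f : E3 → ℝ} (hf : Continuous f)
    {K : Set E3} (hK : IsCompact K) (hs : ∀ x, x ∉ K → f x = 0) : Integrable f (ar (w t)) := by
  have := locFin (slice h ht)
  exact hf.integrable_of_hasCompactSupport (HasCompactSupport.intro hK hs)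

lemma continuous_slice {F : Type*} [TopologicalSpace F] {g : ℝ × E3 → F} {J : Set ℝ}
    (hg : ContinuousOn g (J ×ˢ univ)) {t : ℝ} (ht : t ∈ J) : Continuous fun y => g (t, y) :=
  hg.comp_continuous (continuous_const.prodMk continuous_id) fun _ => ⟨ht, mem_univ _⟩

lemma continuous_Phi (x₀ : E3) (t₀ t : ℝ) : Continuous (Phi x₀ t₀ t) := by
  unfold Phi; fun_prop

lemma continuous_cut (x₀ : E3) (a t₁ ρ t : ℝ) : Continuous (cut x₀ a t₁ ρ t) := by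
  unfold cut; fun_prop

lemma continuous_dsp (h : IsFlow w I) (x₀ : E3) (t₀ : ℝ) {t : ℝ} (ht : t ∈ I) :
    Continuous (dsp w x₀ t₀ t) :=
  (((continuous_slice (continuousOn_lap h) ht).sub (((continuous_id.sub continuous_const).inner
    (continuous_slice (continuousOn_grad h) ht)).div_const _)).pow 2).mul (continuous_Phi x₀ t₀ t)

/-- **The local monotonicity formula.** -/
theorem loc_mono (h : IsFlow w I) (x₀ : E3) {t₀ t₁ t₂ ρ : ℝ} (h1 : t₁ ∈ I) (h2 : t₂ ∈ I)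
    (h12 : t₁ ≤ t₂) (h20 : t₂ < t₀) (hρ : 0 < ρ) :
    ∫ y, Phi x₀ t₀ t₂ y * cut x₀ 4 t₁ ρ t₂ y ∂(ar (w t₂))
      + ∫ t in t₁..t₂, ∫ y, cut x₀ 4 t₁ ρ t y * dsp w x₀ t₀ t y ∂(ar (w t))
      ≤ ∫ y, Phi x₀ t₀ t₁ y * cut x₀ 4 t₁ ρ t₁ y ∂(ar (w t₁)) := by
  have hJ : IsOpen (I ∩ Ioo (t₁ - 1) t₀) := h.isOpen.inter isOpen_Ioo
  have hg := fun t (ht : t ∈ I ∩ Ioo (t₁ - 1) t₀) => green_core h hJ inter_subset_left
    (contDiffOn_Phi x₀ t₀ fun _ ht => ht.2.2) (contDiff_cut x₀ 4 t₁ ρ).contDiffOn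
    (isCompact_closedBall x₀ (ρ + 4 + 1))
    (Or.inr fun t ht x hx => cut_supp hρ (by norm_num) ht.2.1 hx) ht
  have hs : Icc t₁ t₂ ⊆ I ∩ Ioo (t₁ - 1) t₀ := fun t ht =>
    ⟨h.conn.out h1 h2 ht, by linarith [ht.1], ht.2.trans_lt h20⟩
  have e := ftc_le h12 hs (fun t ht => (hg t ht).2) (fun t ht => ?_)
    (continuousOn_cut_dsp h x₀ t₀ t₁ hρ).neg
  · simp only [Pi.neg_apply, intervalIntegral.integral_neg] at e
    linarith
  · have ht' := hs (Ioo_subset_Icc_self ht)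
    rw [Pi.neg_apply, ← integral_neg]
    refine integral_mono_ae (hg t ht').1 (integrable_of_supp h ht'.1
      ((continuous_cut x₀ 4 t₁ ρ t).mul (continuous_dsp h x₀ t₀ ht'.1))
      (isCompact_closedBall x₀ (ρ + 4 + 1)) fun x hx => by
        rw [Pi.mul_apply, cut_supp hρ (by norm_num) ht'.2.1 hx, zero_mul]).neg ?_
    filter_upwards [ae_ar (slice h ht'.1).smooth.continuous] with y hy
    have hn := (isEik_of (slice h ht'.1)).unit y hy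
    have e1 := heat_cut w x₀ 4 t₁ hρ t hn
    rw [sub_self, mul_zero, zero_div, zero_mul] at e1
    rw [adj_Phi w x₀ ht'.2.2 hn]
    nlinarith [mul_nonneg (Phi_pos x₀ ht'.2.2 y).le (neg_nonneg.2 e1)]

end Vale.Agent.P218UX
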