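import Vale.Agent.P218UX.Huis
import Vale.Agent.P218UG.Graph

/-! Lower density bounds, area ratio bounds, and the proof of `Mono`. -/

open MeasureTheory Set Filter Topology Metric Module
open scoped ENNReal NNReal RealInnerProductSpace ContDiff

namespace Vale.Agent.P218UX

open Vale.Agent.P218GA Vale.Agent.P218UA Vale.Agent.P218UM
open Vale.Agent.P218.H63 (lap)

/-- the Gaussian integral over discs -/
lemma gauss_disc {b R : ℝ} (hb : 0 < b) (hR : 0 < R) :
    Tendsto (fun s : ℝ => ∫ ξ in ball (0 : E2) R,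
      Real.exp (-b * ‖ξ‖ ^ 2 / (4 * s ^ 2)) / (4 * Real.pi * s ^ 2)) (𝓝[>] 0) (𝓝 b⁻¹) := by
  have h0 : ∫ ξ : E2, Real.exp (-(b / 4) * ‖ξ‖ ^ 2) = Real.pi / (b / 4) := by
    rw [GaussianFourier.integral_rexp_neg_mul_sq_norm (by positivity)]
    simp
  have hi : Integrable fun ξ : E2 => Real.exp (-(b / 4) * ‖ξ‖ ^ 2) :=
    Integrable.of_integral_ne_zero (by rw [h0]; positivity)
  have h1 : Tendsto (fun s : ℝ => s⁻¹ * R) (𝓝[>] 0) atTop :=
    tendsto_inv_nhdsGT_zero.atTop_mul_const hR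
  have h2 := ((aecover_ball (μ := volume) (x := (0 : E2))
    h1).integral_tendsto_of_countably_generated hi).div_const (4 * Real.pi)
  rw [h0, show Real.pi / (b / 4) / (4 * Real.pi) = b⁻¹ by field_simp] at h2
  refine h2.congr' ?_
  filter_upwards [self_mem_nhdsWithin] with s hs
  have hs' : 0 < s := hs
  have h3 := Measure.setIntegral_comp_smul_of_pos (μ := volume)
    (fun ξ : E2 => Real.exp (-(b / 4) * ‖ξ‖ ^ 2)) (ball (0 : E2) R) (inv_pos.2 hs')
  rw [_root_.smul_ball (inv_pos.2 hs').ne', smul_zero, Real.norm_eq_abs, abs_of_pos (inv_pos.2 hs')] at h3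
  have e : ∀ ξ : E2, -b * ‖ξ‖ ^ 2 / (4 * s ^ 2) = -(b / 4) * ‖s⁻¹ • ξ‖ ^ 2 := fun ξ => by
    rw [norm_smul, Real.norm_eq_abs, abs_of_pos (inv_pos.2 hs')]
    field_simp
  simp only [e]
  rw [integral_div, h3]
  simp only [finrank_euclideanSpace, Fintype.card_fin, smul_eq_mul]
  field_simp

variable {w : ℝ → E3 → ℝ} {I : Set ℝ}

/-- the density of a time slice at its points -/
lemma static_dens (h : IsFlow w I) {t₀ : ℝ} (ht : t₀ ∈ I) {x₀ : E3} (hx : w t₀ x₀ = 0)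
    {g : E3 → ℝ} (hg : ContinuousAt g x₀) {c : ℝ} (hc : c < g x₀) :
    ∀ᶠ s in 𝓝[>] (0 : ℝ), ENNReal.ofReal c
      ≤ ∫⁻ y, ENNReal.ofReal (Phi x₀ (t₀ + s ^ 2) t₀ y * g y) ∂(ar (w t₀)) := by
  rcases le_or_gt c 0 with hc0 | hc0
  · exact Eventually.of_forall fun s => by simp [ENNReal.ofReal_of_nonpos hc0]
  obtain ⟨c', hc1, hc2⟩ := exists_between hc
  have hc' : 0 < c' := hc0.trans hc1
  obtain ⟨δ, hδ, hb⟩ := Metric.eventually_nhds_iff.1 (hg.eventually (lt_mem_nhds hc2))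
  have h1 : ∀ᶠ η in 𝓝[>] (0 : ℝ), c < c' * (1 + η ^ 2)⁻¹ := by
    refine mem_nhdsWithin_of_mem_nhds (ContinuousAt.eventually_lt continuousAt_const
      (continuousAt_const.mul (ContinuousAt.inv₀ (by fun_prop) (by norm_num))) (by simpa using hc1))
  obtain ⟨η, hη1, hη, hη2⟩ := (h1.and (Ioo_mem_nhdsGT (half_pos hδ))).exists
  obtain ⟨Q, R, k, τ, u, hR, hk, hτ, hRη, hkη, -, hu, hG⟩ := P218UG.graph_chart h ht hx hη
  have ht' : t₀ ∈ Ioo (t₀ - τ) (t₀ + τ) := ⟨by linarith, by linarith⟩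
  obtain ⟨hG1, hG2⟩ := hG t₀ ht'
  have hu1 : ContDiffOn ℝ 1 (u t₀) (ball 0 R) :=
    (hu.of_le one_le_inf).comp (contDiffOn_const.prodMk contDiffOn_id) fun ξ hξ => ⟨ht', hξ⟩
  have hu0 : u t₀ 0 = 0 := by
    refine (((hG1 0 (by simpa using hR)).2 0 (by simpa using hk)).1 ?_).symm
    simpa [P218UG.pt_eq, Prod.mk_zero_zero] using hx
  have hl : ∀ ξ ∈ ball (0 : E2) R, |u t₀ ξ| ≤ η * ‖ξ‖ := fun ξ hξ => by
    have := (convex_ball (0 : E2) R).norm_image_sub_le_of_norm_fderiv_le (f := u t₀) (C := η)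
      (fun y hy => (hu1.contDiffAt (isOpen_ball.mem_nhds hy)).differentiableAt one_ne_zero)
      (fun y hy => by rw [← P218UG.norm_grad]; exact hG2 y hy) (mem_ball_self hR) hξ
    simpa [hu0] using this
  filter_upwards [((gauss_disc (b := 1 + η ^ 2) (by positivity) hR).const_mul c').eventually
    (lt_mem_nhds hη1), self_mem_nhdsWithin] with s hs1 hs
  have hs' : 0 < s := hs
  refine le_trans ?_ (setLIntegral_le_lintegral
    {x | ∃ ξ s, ‖ξ‖ < R ∧ |s| < k ∧ x = pt Q x₀ ξ s} _)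
  rw [P218UG.graph_area hG1 hu1]
  refine (ENNReal.ofReal_le_ofReal hs1.le).trans ?_
  rw [← integral_const_mul, ofReal_integral_eq_lintegral_ofReal
    ((Continuous.continuousOn (by fun_prop)).integrableOn_compact (isCompact_closedBall 0 R)
      |>.mono_set ball_subset_closedBall) (Eventually.of_forall fun ξ => by positivity)]
  refine setLIntegral_mono' measurableSet_ball fun ξ hξ => ?_
  refine le_trans (ENNReal.ofReal_le_ofReal ?_) (le_mul_of_one_le_right' (ENNReal.one_le_ofReal.2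
    (Real.one_le_sqrt.2 (le_add_of_nonneg_right (sq_nonneg _)))))
  have e : pt Q x₀ ξ (u t₀ ξ) - x₀ = P218UG.lin Q (ξ, u t₀ ξ) := by
    rw [P218UG.pt_eq, add_sub_cancel_left]
  have hξ' := mem_ball_zero_iff.1 hξ
  have h2 : c' < g (pt Q x₀ ξ (u t₀ ξ)) := by
    refine hb ?_
    rw [dist_eq_norm, e]
    have := P218UG.norm_lin_le (Q := Q) (ξ, u t₀ ξ)
    have h3 := (hG1 ξ hξ').1
    linarith
  rw [mul_comm, Phi, add_sub_cancel_left]
  refine mul_le_mul ?_ h2.le hc'.le (by positivity)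
  refine div_le_div_of_nonneg_right (Real.exp_le_exp.2
    (div_le_div_of_nonneg_right ?_ (by positivity))) (by positivity)
  rw [e, P218UG.norm_lin_sq]
  have h4 := pow_le_pow_left₀ (abs_nonneg _) (hl ξ hξ) 2
  rw [sq_abs] at h4
  nlinarith

/-- the local lower density bound -/
theorem loc_lower (h : IsFlow w I) {t₀ t₁ : ℝ} (ht : t₀ ∈ I) (h1 : t₁ ∈ I) (h10 : t₁ < t₀)
    {x₀ : E3} (hx : w t₀ x₀ = 0) {ρ : ℝ} (hρ : 0 < ρ) :
    cut x₀ 4 t₁ ρ t₀ x₀ ≤ ∫ y, Phi x₀ t₀ t₁ y * cut x₀ 4 t₁ ρ t₁ y ∂(ar (w t₁)) := by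
  have hlf := locFin (slice h h1)
  have hK := isCompact_closedBall x₀ (ρ + 4 + 1)
  have hc : Continuous fun s : ℝ =>
      ∫ y, Phi x₀ (t₀ + s ^ 2) t₁ y * cut x₀ 4 t₁ ρ t₁ y ∂(ar (w t₁)) := by
    have hp : ∀ s : ℝ, 0 < t₀ + s ^ 2 - t₁ := fun s => by nlinarith [sq_nonneg s]
    have h2 := continuous_parametric_integral_of_continuous (μ := ar (w t₁))
      (f := fun (s : ℝ) y => Phi x₀ (t₀ + s ^ 2) t₁ y * cut x₀ 4 t₁ ρ t₁ y)
      (Continuous.mul (Continuous.div (Real.continuous_exp.comp (Continuous.div (by fun_prop)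
        (by fun_prop) fun p => by have := hp p.1; positivity)) (by fun_prop)
        fun p => by have := hp p.1; positivity)
        ((continuous_cut x₀ 4 t₁ ρ t₁).comp continuous_snd)) hK
    refine h2.congr fun s => setIntegral_eq_integral_of_forall_compl_eq_zero fun y hy => ?_
    rw [cut_supp hρ (by norm_num) (by linarith) hy, mul_zero]
  refine le_of_forall_lt_imp_le_of_dense fun c hc' => ?_
  have h3 := (hc.tendsto 0).mono_left (nhdsWithin_le_nhds (s := Ioi 0))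
  simp only [ne_eq, OfNat.ofNat_ne_zero, not_false_eq_true, zero_pow, add_zero] at h3
  refine ge_of_tendsto h3 ?_
  filter_upwards [static_dens h ht hx (continuous_cut x₀ 4 t₁ ρ t₀).continuousAt hc',
    self_mem_nhdsWithin] with s hs1 hs
  have hs' : t₀ < t₀ + s ^ 2 := lt_add_of_pos_right _ (pow_pos hs 2)
  have e := loc_mono h x₀ h1 ht h10.le hs' hρ
  have e1 : 0 ≤ ∫ t in t₁..t₀, ∫ y, cut x₀ 4 t₁ ρ t y * dsp w x₀ (t₀ + s ^ 2) t y ∂(ar (w t)) :=
    intervalIntegral.integral_nonneg h10.le fun t ht' => integral_nonneg fun y =>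
      mul_nonneg (cut_nonneg _ _ _ _ _ _) (dsp_nonneg w x₀ (ht'.2.trans_lt hs') y)
  simp only [mul_comm (Phi _ _ t₀ _)] at hs1 e
  rw [← ofReal_cut h ht x₀ hρ (by norm_num) (by linarith) (continuous_Phi _ _ _)
    fun y => (Phi_pos x₀ hs' y).le, ENNReal.ofReal_le_ofReal_iff (integral_nonneg fun y =>
      mul_nonneg (cut_nonneg _ _ _ _ _ _) (Phi_pos x₀ hs' y).le)] at hs1
  linarith

theorem clear {A : ℝ} (h : IsARFlow w I A) {t₀ : ℝ} (ht : t₀ ∈ I) {x₀ : E3} (hx : w t₀ x₀ = 0)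
    {t₁ : ℝ} (h1 : t₁ ∈ I) (h10 : t₁ < t₀) : 1 ≤ gd (ar (w t₁)) x₀ √(t₀ - t₁) := by
  have hi := integrable_Phi (zero_le_one.trans h.one_le) (h.ratio t₁ h1) x₀ h10
  rw [gd_eq_integral _ x₀ h10]
  refine le_of_tendsto' (cut_tendsto x₀ 4 t₁ t₀ x₀) fun n => ?_
  refine (loc_lower h.toIsFlow ht h1 h10 hx (by positivity)).trans (integral_mono_of_nonneg
    (Eventually.of_forall fun y => mul_nonneg (Phi_pos x₀ h10 y).le (cut_nonneg _ _ _ _ _ _)) hi
    (Eventually.of_forall fun y => ?_))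
  exact mul_le_of_le_one_right (Phi_pos x₀ h10 y).le (cut_le_one x₀ (by norm_num) le_rfl _ y)

theorem dens (h : IsFlow w I) {t₀ : ℝ} (ht : t₀ ∈ I) {x₀ : E3} (hx : w t₀ x₀ = 0)
    {f : ℝ × E3 → ℝ} (hf : ContinuousAt f (t₀, x₀)) (h0 : ∀ p, 0 ≤ f p) {c : ℝ}
    (hc : c < f (t₀, x₀)) :
    ∀ᶠ r in 𝓝[>] (0 : ℝ), ENNReal.ofReal c ≤ ∫⁻ y, ENNReal.ofReal (f (t₀ - r ^ 2, y)
      * Real.exp (-‖y - x₀‖ ^ 2 / (4 * r ^ 2)) / (4 * Real.pi * r ^ 2)) ∂(ar (w (t₀ - r ^ 2))) := by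
  rcases le_or_gt c 0 with hc0 | hc0
  · exact Eventually.of_forall fun s => by simp [ENNReal.ofReal_of_nonpos hc0]
  obtain ⟨c', hc1, hc2⟩ := exists_between hc
  have hc' : 0 < c' := hc0.trans hc1
  obtain ⟨δ, hδ, hb⟩ := Metric.eventually_nhds_iff.1 (hf.eventually (lt_mem_nhds hc2))
  have l0 : Tendsto (fun r : ℝ => t₀ - r ^ 2) (𝓝 0) (𝓝 t₀) :=
    Continuous.tendsto' (by fun_prop) _ _ (by simp)
  have l1 : Tendsto (fun r : ℝ => c' * cut x₀ 4 (t₀ - r ^ 2) δ t₀ x₀) (𝓝 0) (𝓝 c') :=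
    Continuous.tendsto' (by unfold cut; fun_prop) _ _ (by simp [cut])
  filter_upwards [mem_nhdsWithin_of_mem_nhds (l0.eventually (h.isOpen.mem_nhds ht)),
    mem_nhdsWithin_of_mem_nhds (l0.eventually (ball_mem_nhds t₀ hδ)),
    mem_nhdsWithin_of_mem_nhds (l1.eventually (lt_mem_nhds hc1)), self_mem_nhdsWithin]
    with r h1 h2 h3 hr
  have h10 : t₀ - r ^ 2 < t₀ := sub_lt_self _ (pow_pos hr 2)
  have e := loc_lower h ht h1 h10 hx hδ
  simp only [mul_comm (Phi _ _ _ _)] at e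
  refine (ENNReal.ofReal_le_ofReal ((le_of_lt h3).trans (mul_le_mul_of_nonneg_left e hc'.le))).trans ?_
  rw [ENNReal.ofReal_mul hc'.le, ofReal_cut h h1 x₀ hδ (by norm_num) (by linarith)
    (continuous_Phi _ _ _) (fun y => (Phi_pos x₀ h10 y).le),
    ← lintegral_const_mul' _ _ ENNReal.ofReal_ne_top]
  refine lintegral_mono fun y => ?_
  rw [← ENNReal.ofReal_mul hc'.le, ← mul_assoc, mul_div_assoc]
  refine ENNReal.ofReal_le_ofReal ?_
  have e1 := Phi_pos x₀ h10 y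
  rw [Phi, sub_sub_cancel] at e1 ⊢
  refine mul_le_mul_of_nonneg_right ?_ e1.le
  rcases lt_or_ge ‖y - x₀‖ δ with hy | hy
  · refine (mul_le_of_le_one_right hc'.le (cut_le_one x₀ (by norm_num) le_rfl _ y)).trans
      (hb ?_).le
    rw [Prod.dist_eq, max_lt_iff]
    exact ⟨h2, by rwa [dist_eq_norm]⟩
  · rw [cut_eq_zero hδ (by simpa using pow_le_pow_left₀ hδ.le hy 2), mul_zero]
    exact h0 _

lemma Phi_ge {x y : E3} {r : ℝ} (hr : 0 < r) (t : ℝ) (hy : y ∈ closedBall x r) :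
    1 / (8 * Real.pi * r ^ 2) ≤ Phi x (t + r ^ 2) t y := by
  rw [mem_closedBall, dist_eq_norm] at hy
  rw [Phi, add_sub_cancel_left, div_le_div_iff₀ (by positivity) (by positivity)]
  have h1 : -(1 / 4 : ℝ) ≤ -‖y - x‖ ^ 2 / (4 * r ^ 2) := by
    rw [le_div_iff₀ (by positivity)]
    nlinarith [norm_nonneg (y - x)]
  have h2 := Real.add_one_le_exp (-‖y - x‖ ^ 2 / (4 * r ^ 2))
  have h3 : 0 < Real.pi * r ^ 2 := by positivity
  nlinarith

lemma meas_le_of_lint {μ : Measure E3} {x : E3} {r a B : ℝ} (ha : 0 < a) {f : E3 → ℝ}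
    (hf : ∀ y ∈ closedBall x r, 1 / a ≤ f y)
    (hB : ∫⁻ y, ENNReal.ofReal (f y) ∂μ ≤ ENNReal.ofReal B) :
    μ (closedBall x r) ≤ ENNReal.ofReal (a * B) := by
  rw [ENNReal.ofReal_mul ha.le]
  refine le_trans ?_ (mul_le_mul_right hB _)
  rw [← lintegral_const_mul' _ _ ENNReal.ofReal_ne_top,
    ← lintegral_indicator_one measurableSet_closedBall]
  refine lintegral_mono fun y => ?_
  by_cases hy : y ∈ closedBall x r
  · rw [indicator_of_mem hy, ← ENNReal.ofReal_mul ha.le, Pi.one_apply, ENNReal.one_le_ofReal]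
    exact (div_le_iff₀' ha).1 (hf y hy)
  · rw [indicator_of_notMem hy]; exact zero_le

/-- compact time slices have bounded area ratios -/
lemma exists_AR (h : IsFlow w I) {a : ℝ} (ha : a ∈ I) (hc : IsCompact {x | w a x = 0}) :
    ∃ A, 0 ≤ A ∧ AR (ar (w a)) A := by
  obtain ⟨ε, hε, hb⟩ := Metric.isOpen_iff.1 h.isOpen a ha
  have h1 : a - ε / 2 ∈ I := hb (by
    rw [mem_ball, Real.dist_eq, sub_sub_cancel_left, abs_neg, abs_of_pos (half_pos hε)]; linarith)
  obtain ⟨R, hR⟩ := hc.isBounded.subset_closedBall 0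
  have hlf := locFin (slice h ha)
  have hlf1 := locFin (slice h h1)
  obtain ⟨ρ, hρ, hρ2⟩ : ∃ ρ : ℝ, 0 < ρ ∧ ρ ^ 2 = 2 * (1 + 2 * ε) :=
    ⟨√_, Real.sqrt_pos.2 (by positivity), Real.sq_sqrt (by positivity)⟩
  set K := closedBall (0 : E3) (R + 1 + (ρ + 4 + 1)) with hK
  have hKf : ar (w (a - ε / 2)) K < ⊤ := measure_closedBall_lt_top
  set B := 1 / (4 * Real.pi * (ε / 2)) * (ar (w (a - ε / 2))).real K with hB
  have hB0 : 0 ≤ B := by positivity
  have hM : MeasurableSet {x | w a x = 0} := hc.measurableSet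
  refine ⟨64 * Real.pi * B + (ar (w a)).real {x | w a x = 0}, by positivity, fun x r hr => ?_⟩
  rcases le_or_gt 1 r with h2 | h2
  · have e : ar (w a) (closedBall x r) ≤ ar (w a) {x | w a x = 0} := by
      rw [ar, Measure.restrict_apply_self, Measure.restrict_apply measurableSet_closedBall]
      exact measure_mono inter_subset_right
    refine e.trans ?_
    rw [← ofReal_measureReal hc.measure_lt_top.ne]
    refine ENNReal.ofReal_le_ofReal (le_trans ?_ (le_mul_of_one_le_right (by positivity)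
      (one_le_pow₀ h2)))
    exact le_add_of_nonneg_left (by positivity)
  by_cases hx : ‖x‖ ≤ R + 1
  swap
  · rw [ar, Measure.restrict_apply measurableSet_closedBall,
      show closedBall x r ∩ {x | w a x = 0} = ∅ from ?_, measure_empty]
    · exact zero_le
    refine eq_empty_of_forall_notMem fun y hy => hx ?_
    have h3 := mem_closedBall_zero_iff.1 (hR hy.2)
    have h4 : ‖y - x‖ ≤ r := by rw [← dist_eq_norm]; exact hy.1
    have h5 := norm_sub_norm_le x y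
    rw [norm_sub_rev] at h5
    linarith
  have hs' : a < a + r ^ 2 := lt_add_of_pos_right _ (pow_pos hr 2)
  have h6 : a - ε / 2 ≤ a := by linarith
  have e := loc_mono h x h1 ha h6 hs' hρ
  have e1 : 0 ≤ ∫ t in (a - ε / 2)..a, ∫ y, cut x 4 (a - ε / 2) ρ t y * dsp w x (a + r ^ 2) t y
      ∂(ar (w t)) :=
    intervalIntegral.integral_nonneg h6 fun t ht' => integral_nonneg fun y =>
      mul_nonneg (cut_nonneg _ _ _ _ _ _) (dsp_nonneg w x (ht'.2.trans_lt hs') y)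
  have e2 : ∫ y, Phi x (a + r ^ 2) (a - ε / 2) y * cut x 4 (a - ε / 2) ρ (a - ε / 2) y
      ∂(ar (w (a - ε / 2))) ≤ B := by
    rw [hB, mul_comm, ← smul_eq_mul, ← integral_indicator_const _ measurableSet_closedBall]
    refine integral_mono_of_nonneg (Eventually.of_forall fun y => mul_nonneg
      (Phi_pos x (h6.trans_lt hs') y).le (cut_nonneg _ _ _ _ _ _))
      ((integrable_indicator_iff measurableSet_closedBall).2 (integrableOn_const hKf.ne))
      (Eventually.of_forall fun y => ?_)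
    by_cases hy : y ∈ K
    · rw [indicator_of_mem hy]
      refine (mul_le_of_le_one_right (Phi_pos x (h6.trans_lt hs') y).le
        (cut_le_one x (by norm_num) le_rfl _ y)).trans ?_
      refine div_le_div₀ zero_le_one (Real.exp_le_one_iff.2 (div_nonpos_of_nonpos_of_nonneg
        (neg_nonpos.2 (sq_nonneg _)) (by linarith))) (by positivity) ?_
      exact mul_le_mul_of_nonneg_left (by linarith) (by positivity)
    · have h7 : y ∉ closedBall x (ρ + 4 + 1) := fun h7 => hy (by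
        rw [mem_closedBall, dist_eq_norm] at h7
        rw [hK, mem_closedBall_zero_iff]
        linarith [norm_sub_norm_le y x])
      rw [indicator_of_notMem hy]
      beta_reduce
      rw [cut_supp hρ (by norm_num) (by linarith) h7, mul_zero]
  simp only [mul_comm (Phi _ _ a _)] at e
  refine (meas_le_of_lint (a := 64 * Real.pi * r ^ 2) (B := B)
    (f := fun y => cut x 4 (a - ε / 2) ρ a y * Phi x (a + r ^ 2) a y) (by positivity)
    (fun y hy => ?_) ?_).trans (ENNReal.ofReal_le_ofReal ?_)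
  · have h8 : (1 / 2 : ℝ) ^ 3 ≤ cut x 4 (a - ε / 2) ρ a y := by
      refine pow_le_pow_left₀ (by norm_num) (le_max_of_le_left ?_) 3
      rw [mem_closedBall, dist_eq_norm] at hy
      have h9 : (‖y - x‖ ^ 2 + 4 * (a - (a - ε / 2))) / ρ ^ 2 ≤ 1 / 2 := by
        rw [div_le_iff₀ (by positivity), hρ2]
        nlinarith [norm_nonneg (y - x)]
      linarith
    refine le_trans (le_of_eq ?_) (mul_le_mul h8 (Phi_ge hr a hy) (by positivity)
      (cut_nonneg _ _ _ _ _ _))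
    field_simp
    norm_num
  · rw [← ofReal_cut h ha x hρ (by norm_num) (by linarith) (continuous_Phi _ _ _)
      fun y => (Phi_pos x hs' y).le]
    exact ENNReal.ofReal_le_ofReal (by linarith)
  · have : 0 ≤ (ar (w a)).real {x | w a x = 0} * r ^ 2 := by positivity
    nlinarith

lemma IsFlow_mono (h : IsFlow w I) {J : Set ℝ} (hJ : IsOpen J) (hc : J.OrdConnected) (hJI : J ⊆ I) :
    IsFlow w J :=
  ⟨hJ, hc, h.smooth.mono (prod_mono hJI subset_rfl), fun t ht => h.eik t (hJI ht),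
    fun t ht => h.eqn t (hJI ht)⟩

/-- area ratio bounds propagate forward in time -/
theorem AR_forward (h : IsFlow w I) {a t A : ℝ} (ha : a ∈ I) (ht : t ∈ I) (hat : a ≤ t) (hA : 0 ≤ A)
    (h0 : AR (ar (w a)) A) : AR (ar (w t)) (2 * cT * A) := by
  intro x r hr
  have hs' : t < t + r ^ 2 := lt_add_of_pos_right _ (pow_pos hr 2)
  have e := le_self_add.trans (mono_lint h x ha ht hat hs')
  rw [← gd_eq_lint hA h0 x (hat.trans_lt hs')] at e
  refine (meas_le_of_lint (a := 8 * Real.pi * r ^ 2) (by positivity) (fun y hy => Phi_ge hr t hy)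
    (e.trans (ENNReal.ofReal_le_ofReal (gd_le hA h0 x (Real.sqrt_pos.2
      (by linarith)))))).trans_eq ?_
  congr 1
  field_simp
  ring

theorem ratio (h : IsFlow w I) {a : ℝ} (ha : a ∈ I) (hc : IsCompact {x | w a x = 0}) :
    ∃ A, IsARFlow w (I ∩ Ioi a) A := by
  obtain ⟨A, hA, h0⟩ := exists_AR h ha hc
  refine ⟨max 1 (2 * cT * A), IsFlow_mono h (h.isOpen.inter isOpen_Ioi)
    (h.conn.inter ordConnected_Ioi) inter_subset_left, le_max_left _ _, fun t ht x r hr => ?_⟩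
  exact (AR_forward h ha ht.1 (le_of_lt ht.2) hA h0 x r hr).trans (ENNReal.ofReal_le_ofReal
    (mul_le_mul_of_nonneg_right (le_max_right _ _) (sq_nonneg r)))

/-- **Huisken's monotonicity formula and its first consequences.** -/
theorem monoThm : Mono where
  mono _ _ _ h x₀ _ _ _ h1 h2 h12 h20 := mono h x₀ h1 h2 h12 h20
  dens _ _ h _ ht _ hx _ hf _ h0 _ hc := dens h ht hx hf h0 hc
  clear _ _ _ h _ ht _ hx _ h1 h10 := clear h ht hx h1 h10
  tail := ⟨cT, fun _ _ hA h x _ hr => tail hA h x hr⟩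
  hsq := ⟨36, fun _ _ _ h z _ _ _ hr h1 h2 h12 => hsq h z hr h1 h2 h12⟩
  ratio w _ h a ha hc := ratio h ha (by
    convert (hc a ha).image continuous_snd using 1
    ext x
    constructor
    · exact fun hx => ⟨(a, x), ⟨⟨le_rfl, le_rfl⟩, hx⟩, rfl⟩
    · rintro ⟨p, ⟨h1, h2⟩, rfl⟩
      rwa [le_antisymm h1.2 h1.1] at h2)

end Vale.Agent.P218UX
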