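import Vale.Agent.P218UX.Split

/-! Near a cylindrical direction the self-shrinker lies in a thin neck. -/

open MeasureTheory Set Filter Topology Metric
open scoped ENNReal NNReal RealInnerProductSpace ContDiff

namespace Vale.Agent.P218UX

open Vale.Agent.P218UA Vale.Agent.P218UG
open Vale.Agent.P218 (WeakTendsto)

variable {W : E3 → ℝ} {A C : ℝ} {e : E3}

lemma gT_sub (e u v : E3) : gT e (u - v) = gT e u - gT e v := by
  simp only [gT, inner_sub_right, sub_smul]; abel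

lemma gT_add (e u v : E3) : gT e (u + v) = gT e u + gT e v := by
  simp only [gT, inner_add_right, add_smul]; abel

lemma gT_smul (e : E3) (c : ℝ) (v : E3) : gT e (c • v) = c • gT e v := by
  simp only [gT, inner_smul_right, smul_sub, smul_smul]

lemma gT_self (he : ‖e‖ = 1) : gT e e = 0 := by
  simp [gT, he]

lemma gT_gT (he : ‖e‖ = 1) (v : E3) : gT e (gT e v) = gT e v := by
  rw [gT, gT, inner_sub_right, inner_smul_right, real_inner_self_eq_norm_sq, he]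
  simp

lemma norm_gT_sq (he : ‖e‖ = 1) (v : E3) : ‖gT e v‖ ^ 2 = ‖v‖ ^ 2 - ⟪e, v⟫ ^ 2 := by
  rw [gT, norm_sub_sq_real, inner_smul_right, norm_smul, he, real_inner_comm e v, mul_one,
    Real.norm_eq_abs, sq_abs]
  ring

lemma norm_gT_le (he : ‖e‖ = 1) (v : E3) : ‖gT e v‖ ≤ ‖v‖ := by
  refine abs_le_of_sq_le_sq' ?_ (norm_nonneg _) |>.2
  rw [norm_gT_sq he]
  linarith [sq_nonneg ⟪e, v⟫]

lemma continuous_gT (e : E3) : Continuous (gT e) := by
  unfold gT
  fun_prop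

/-- the Gaussian density ratio is small at points far from the support -/
lemma gd_le_of_far (H : Mono) : ∃ C₀ : ℝ, 0 ≤ C₀ ∧ ∀ (μ : Measure E3) (A : ℝ), 0 ≤ A → AR μ A →
    ∀ (x : E3) (r δ : ℝ), 0 < r → 0 ≤ δ → (∀ᵐ y ∂μ, δ ≤ ‖y - x‖) →
      gd μ x r ≤ C₀ * A * Real.exp (-δ ^ 2 / (8 * r ^ 2)) := by
  obtain ⟨C, hC⟩ := H.tail
  refine ⟨|C|, abs_nonneg _, fun μ A hA hμ x r δ hr hδ h => ?_⟩
  obtain ⟨h1, h2⟩ := hC μ A hA hμ x r hr
  have h3 : ∫ y, Real.exp (-‖y - x‖ ^ 2 / (4 * r ^ 2)) ∂μ ≤ ∫ y, Real.exp (-δ ^ 2 / (8 * r ^ 2))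
      * Real.exp (-‖y - x‖ ^ 2 / (8 * r ^ 2)) ∂μ := by
    refine integral_mono_of_nonneg (Eventually.of_forall fun _ => (Real.exp_pos _).le)
      (h1.const_mul _) (h.mono fun y hy => ?_)
    simp only [← Real.exp_add]
    refine Real.exp_le_exp.2 ?_
    have := pow_le_pow_left₀ hδ hy 2
    rw [← add_div, div_le_div_iff₀ (by positivity) (by positivity)]
    nlinarith [sq_nonneg r]
  rw [integral_const_mul] at h3
  rw [gd, div_le_iff₀ (by positivity)]
  have h4 : C * A * r ^ 2 ≤ |C| * A * (4 * Real.pi * r ^ 2) :=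
    (mul_le_mul_of_nonneg_right (mul_le_mul_of_nonneg_right (le_abs_self C) hA)
      (sq_nonneg r)).trans (mul_le_mul_of_nonneg_left
        (by nlinarith [Real.pi_gt_three, sq_nonneg r]) (by positivity))
  refine h3.trans ((mul_le_mul_of_nonneg_left (h2.trans h4) (Real.exp_pos _).le).trans_eq ?_)
  ring

lemma scal_ar (W : E3 → ℝ) {c : ℝ} (hc : c ≠ 0) : scal (ar W) c = ar (aff W c 0) := by
  rw [ar_aff hc, scal]
  congr 2
  funext z
  rw [tr_apply, sub_zero]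

lemma exists_small (K : ℝ) (hK : 0 ≤ K) :
    ∃ τ : ℝ, 0 < τ ∧ τ ≤ 1 / 4 ∧ K * Real.exp (-(1 / 2) ^ 2 / (8 * τ ^ 2)) ≤ 1 / 4 := by
  refine ⟨1 / (128 * (K + 1)), by positivity, ?_, ?_⟩
  · exact one_div_le_one_div_of_le (by norm_num) (by linarith)
  · set τ := 1 / (128 * (K + 1)) with hτ
    have h0 : 0 < τ := by positivity
    have h1 : τ ≤ 1 := (div_le_one (by positivity)).2 (by linarith)
    have h2 : Real.exp (-(1 / 2) ^ 2 / (8 * τ ^ 2)) ≤ 32 * τ ^ 2 := by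
      rw [neg_div, Real.exp_neg, inv_le_comm₀ (Real.exp_pos _) (by positivity)]
      refine le_trans (le_of_eq ?_) ((le_add_of_nonneg_right zero_le_one).trans
        (Real.add_one_le_exp _))
      field_simp
      norm_num
    have h3 : τ * (128 * (K + 1)) = 1 := one_div_mul_cancel (by positivity)
    have h4 : K * (32 * τ ^ 2) ≤ K * (32 * τ) :=
      mul_le_mul_of_nonneg_left (by nlinarith) hK
    nlinarith [mul_le_mul_of_nonneg_left h2 hK]

/-- the geometry of a point whose direction is close to `e` -/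
lemma dir_close (he : ‖e‖ = 1) {x : E3} {ε : ℝ} (hε : ε ≤ 1 / 2) (hx : x ≠ 0)
    (h : ‖‖x‖⁻¹ • x - e‖ < ε) : 0 < ⟪e, x⟫ ∧ ‖gT e x‖ / (2 * ⟪e, x⟫) ≤ ε := by
  have h0 : 0 < ‖x‖ := norm_pos_iff.2 hx
  have h1 : x = ‖x‖ • (‖x‖⁻¹ • x - e) + ‖x‖ • e := by
    rw [smul_sub, smul_smul, mul_inv_cancel₀ h0.ne', one_smul, sub_add_cancel]
  have h2 : ‖x‖ / 2 ≤ ⟪e, x⟫ := by
    have h3 := abs_real_inner_le_norm e (‖x‖⁻¹ • x - e)
    rw [he, one_mul] at h3
    conv_rhs => rw [h1, inner_add_right, inner_smul_right, inner_smul_right,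
      real_inner_self_eq_norm_sq, he]
    nlinarith [(abs_le.1 h3).1]
  have h3 : ‖gT e x‖ ≤ ε * ‖x‖ := by
    conv_lhs => rw [h1, gT_add, gT_smul, gT_smul, gT_self he, smul_zero, add_zero, norm_smul,
      norm_norm, mul_comm]
    exact mul_le_mul_of_nonneg_right ((norm_gT_le he _).trans h.le) h0.le
  have h4 : 0 ≤ ε := (norm_nonneg _).trans h.le
  refine ⟨by linarith, ?_⟩
  rw [div_le_iff₀ (by linarith)]
  nlinarith

theorem neck (H : Hyp) (h : Sh W A C) (he : e ∈ cylDir W) :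
    ∃ ρ > 0, ∀ x, W x = 0 → ‖‖x‖⁻¹ • x - e‖ < ρ → ‖gT e x‖ ≤ 2 := by
  by_contra hne
  push Not at hne
  choose x hx1 hx2 hx3 using fun n : ℕ => hne (1 / ((n : ℝ) + 1) / 2) (by positivity)
  have hA : 0 ≤ A := zero_le_one.trans h.one_le
  obtain ⟨C₀, hC₀, hfar⟩ := gd_le_of_far H.mono
  obtain ⟨τ, hτ, hτ1, hτ2⟩ := exists_small (C₀ * A) (by positivity)
  have hd (n : ℕ) : 0 < ‖gT e (x n)‖ := by linarith [hx3 n]
  have hx (n : ℕ) := dir_close he.1 (x := x n) (by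
    have : 1 / ((n : ℝ) + 1) ≤ 1 := (div_le_one (by positivity)).2 (by simp)
    linarith) (fun h0 => by simpa [h0, gT] using hd n) (hx2 n)
  set s : ℕ → ℝ := fun n => ‖gT e (x n)‖ / (2 * ⟪e, x n⟫) with hs
  set l : ℕ → ℝ := fun n => 2 / ‖gT e (x n)‖ with hl
  have s0 (n : ℕ) : 0 < s n := div_pos (hd n) (by linarith [(hx n).1])
  have s1 : Tendsto s atTop (𝓝 0) := by
    refine squeeze_zero (fun n => (s0 n).le) (fun n => (hx n).2) ?_
    simpa using tendsto_one_div_add_atTop_nhds_zero_nat.div_const (2 : ℝ)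
  have l0 (n : ℕ) : 0 < l n := div_pos two_pos (hd n)
  have l1 (n : ℕ) : l n ∈ Icc (0 : ℝ) 1 := ⟨(l0 n).le, (div_le_one (hd n)).2 (hx3 n).le⟩
  obtain ⟨a, ha, φ, hφ, hlim⟩ := isCompact_Icc.tendsto_subseq l1
  have hT := tanSeq_cyl H h he (s := s ∘ φ) (fun _ => s0 _) (s1.comp hφ.tendsto_atTop)
  have hg := (h.good e (-1)).toIsARFlow
  have ht' : -a ^ 2 - τ ^ 2 < 0 := by nlinarith [sq_nonneg a]
  have hslow := H.tan.slow _ (-1) A (by norm_num) hg _ _ hT
    (fun i => -(l (φ i)) ^ 2 - τ ^ 2) _ ht' ((hlim.pow 2).neg.sub_const _)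
  have hc := sqrt_neg_pos ht'
  have hν : (μHE[2] : Measure E3).restrict (cylS e) = ar fun x => ‖gT e x‖ ^ 2 - 2 := by
    simp only [ar, cylS, sub_eq_zero]
  have hAR := H.tan.ratio _ (-1) A (by norm_num) hg _ _ hT
  rw [hν] at hslow hAR
  rw [scal_ar _ hc.ne'] at hslow
  have ht (n : ℕ) : -(l n) ^ 2 - τ ^ 2 < 0 := by nlinarith [sq_nonneg (l n)]
  obtain ⟨i, hi⟩ := (H.tan.gd_lim _ _ A (Eventually.of_forall fun i => by
    rw [resc_sf (hT.pos i)]
    exact (h.flow _).ratio _ (ht _)) (AR_aff hc hAR) hslow 2 τ τ (1 / 4) hτ (by norm_num)).exists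
  set n := φ i
  have hy : ‖l n • gT e (x n)‖ = 2 := by
    rw [norm_smul, Real.norm_eq_abs, abs_of_pos (l0 n)]
    exact div_mul_cancel₀ _ (hd n).ne'
  have b1 := (abs_le.1 (hi _ hy.le τ ⟨le_rfl, le_rfl⟩).1).2
  have b2 := H.mono.clear _ _ A (h.flow ((s n)⁻¹ • e)) (-(l n) ^ 2)
    (neg_lt_zero.2 (pow_pos (l0 n) 2)) (l n • gT e (x n)) (by
      rw [sf_neg_sq (l0 n).le, aff_eq_zero (l0 n).ne']
      have : (s n)⁻¹ = l n * ⟪e, x n⟫ := by
        simp only [hs, hl]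
        field_simp
      rw [this, ← smul_smul, ← smul_add, smul_smul, inv_mul_cancel₀ (l0 n).ne', one_smul, gT,
        sub_add_cancel]
      exact hx1 n) _ (ht n) (by nlinarith)
  rw [sub_sub_cancel, Real.sqrt_sq hτ.le] at b2
  rw [resc_sf (hT.pos i)] at b1
  have b3 := hfar _ A hA (AR_aff (b := 0) hc hAR) (l n • gT e (x n)) τ (1 / 2) hτ (by norm_num) (by
    have hm : MeasurableSet {y | aff (fun x => ‖gT e x‖ ^ 2 - 2) √(-(-a ^ 2 - τ ^ 2)) 0 y = 0} := by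
      refine (isClosed_eq ?_ continuous_const).measurableSet
      have := continuous_gT e
      unfold aff
      fun_prop
    filter_upwards [ae_restrict_mem hm] with y hy'
    rw [aff_eq_zero hc.ne', add_zero, gT_smul, norm_smul, mul_pow, norm_inv,
      Real.norm_eq_abs, inv_pow, sq_abs, Real.sq_sqrt (by linarith), sub_eq_zero,
      inv_mul_eq_iff_eq_mul₀ (by linarith)] at hy'
    have c1 : ‖gT e y‖ ≤ 3 / 2 := by
      refine abs_le_of_sq_le_sq' ?_ (by norm_num) |>.2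
      nlinarith [ha.1, ha.2]
    have c2 := norm_gT_le he.1 (y - l n • gT e (x n))
    rw [gT_sub, gT_smul, gT_gT he.1] at c2
    have c3 := norm_sub_norm_le (l n • gT e (x n)) (gT e y)
    rw [norm_sub_rev] at c3
    linarith)
  simp only [Function.comp_apply] at b1
  linarith

end Vale.Agent.P218UX
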