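import Vale.Agent.P218UX.Fam

/-! Surface integrals over a family of eikonal level sets: the derivative in the parameter. -/

open MeasureTheory Set Filter Topology Metric Module
open scoped ENNReal NNReal RealInnerProductSpace ContDiff

namespace Vale.Agent.P218UX

set_option linter.unusedSectionVars false

open Vale.Agent.P218GA
open Vale.Agent.P218.H63 (lap contDiff_gradient hess_symm)

variable {P : Type*} [NormedAddCommGroup P] [NormedSpace ℝ P] [FiniteDimensional ℝ P]
variable {E : Type*} [NormedAddCommGroup E] [InnerProductSpace ℝ E] [FiniteDimensional ℝ E]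

/-- `g` vanishes when the space variable is not in `K` -/
def XS (K : Set E) (g : P × E → ℝ) : Prop := ∀ p x, x ∉ K → g (p, x) = 0

lemma XS.compact {K : Set E} (hK : IsCompact K) {g : P × E → ℝ} (h : XS K g) (p : P) :
    HasCompactSupport fun x => g (p, x) :=
  HasCompactSupport.intro hK fun x hx => h p x hx

lemma XS.fderiv {K : Set E} (hK : IsCompact K) {g : P × E → ℝ} (h : XS K g) (p : P) {x : E}
    (hx : x ∉ K) : fderiv ℝ g (p, x) = 0 := by
  have h1 : g =ᶠ[𝓝 (p, x)] fun _ => 0 := by
    filter_upwards [(hK.isClosed.isOpen_compl.preimage continuous_snd).mem_nhds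
      (show (p, x) ∈ Prod.snd ⁻¹' Kᶜ from hx)] with y hy
    exact h y.1 y.2 hy
  rw [h1.fderiv_eq]
  simp

/-- the derivative of the surface integral has this integrand -/
noncomputable def DD (W g : P × E → ℝ) (z : P × E) : P →L[ℝ] ℝ :=
  (fderiv ℝ g z).comp (ContinuousLinearMap.inl ℝ P E)
    - (fderiv ℝ g z (0, gr W z) + g z * lp W z) • (fderiv ℝ W z).comp (ContinuousLinearMap.inl ℝ P E)

lemma DD_apply (W g : P × E → ℝ) (z : P × E) (v : P) : DD W g z v
    = fderiv ℝ g z (v, 0) - (fderiv ℝ g z (0, gr W z) + g z * lp W z) * fderiv ℝ W z (v, 0) := rfl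

lemma XS.DD {K : Set E} (hK : IsCompact K) {g : P × E → ℝ} (h : XS K g) (W : P × E → ℝ) (v : P) :
    XS K fun z => DD W g z v := fun p x hx => by
  show P218UX.DD W g (p, x) v = 0
  rw [DD_apply, h.fderiv hK p hx, h p x hx]
  simp

lemma contDiff_DD {W g : P × E → ℝ} {n k : WithTop ℕ∞} (hW : ContDiff ℝ k W) (hn : n + 2 ≤ k)
    (hg : ContDiff ℝ (n + 1) g) : ContDiff ℝ n (DD W g) := by
  have hn1 : n + 1 ≤ k := le_trans (by gcongr; norm_num) hn
  have h1 : ContDiff ℝ n (fderiv ℝ g) := hg.fderiv_right le_rfl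
  have h2 : ContDiff ℝ n (fderiv ℝ W) := hW.fderiv_right hn1
  have h3 : ContDiff ℝ n fun z => fderiv ℝ g z (0, gr W z) :=
    h1.clm_apply (contDiff_const.prodMk (contDiff_gr hW hn1))
  exact (h1.clm_comp contDiff_const).sub ((h3.add ((hg.of_le le_self_add).mul
    (contDiff_lp hW hn))).smul (h2.clm_comp contDiff_const))

variable [MeasurableSpace E] [BorelSpace E] {m : ℕ} {W : P × E → ℝ}

/-- the surface integral -/
noncomputable def SI (m : ℕ) (W g : P × E → ℝ) (p : P) : ℝ :=
  ∫ x, g (p, x) ∂(area m (sl W p))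

/-- the integral over a thin slab -/
noncomputable def SE (m : ℕ) (W g : P × E → ℝ) (ε : ℝ) (p : P) : ℝ :=
  cH m * ∫ x, g (p, x) * aid eta ε (W (p, x))

/-- differentiation under the integral sign -/
lemma hasDerivAt_int {F : P × E → ℝ} (hF : ContDiff ℝ 1 F) {K : Set E} (hK : IsCompact K)
    (hs : XS K F) (p v : P) (s : ℝ) :
    HasDerivAt (fun s : ℝ => ∫ x, F (p + s • v, x)) (∫ x, fderiv ℝ F (p + s • v, x) (v, 0)) s := by
  have hc : Continuous fun y : ℝ × E => fderiv ℝ F (p + y.1 • v, y.2) (v, 0) :=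
    ((hF.continuous_fderiv one_ne_zero).comp (by fun_prop)).clm_apply continuous_const
  obtain ⟨M, hM⟩ := ((isCompact_closedBall s 1).prod hK).exists_bound_of_continuousOn
    hc.continuousOn
  refine (hasDerivAt_integral_of_dominated_loc_of_deriv_le (μ := volume)
    (F := fun (s : ℝ) x => F (p + s • v, x))
    (F' := fun (s : ℝ) x => fderiv ℝ F (p + s • v, x) (v, 0))
    (bound := K.indicator fun _ => M) (closedBall_mem_nhds s one_pos) ?_ ?_ ?_ ?_ ?_ ?_).2
  · exact Eventually.of_forall fun s =>
      (hF.continuous.comp (by fun_prop)).aestronglyMeasurable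
  · exact (hF.continuous.comp (by fun_prop)).integrable_of_hasCompactSupport (hs.compact hK _)
  · exact (hc.comp (continuous_const.prodMk continuous_id)).aestronglyMeasurable
  · refine Eventually.of_forall fun x t ht => ?_
    by_cases hx : x ∈ K
    · rw [indicator_of_mem hx]; exact hM (t, x) ⟨ht, hx⟩
    · rw [indicator_of_notMem hx, hs.fderiv hK _ hx]; simp
  · exact (integrable_indicator_iff hK.measurableSet).2
      (continuousOn_const.integrableOn_compact hK)
  · refine Eventually.of_forall fun x t _ => ?_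
    have h1 : HasDerivAt (fun s : ℝ => (p + s • v, x)) (v, 0) t := by
      refine HasDerivAt.prodMk ?_ (hasDerivAt_const _ _)
      simpa using ((hasDerivAt_id t).smul_const v).const_add p
    exact (hF.differentiable one_ne_zero _).hasFDerivAt.comp_hasDerivAt t h1

lemma continuous_SE (hW : Continuous W) {g : P × E → ℝ} (hg : Continuous g) {K : Set E}
    (hK : IsCompact K) (hs : XS K g) (ε : ℝ) : Continuous (SE m W g ε) := by
  have e : SE m W g ε = fun p => cH m * ∫ x in K, g (p, x) * aid eta ε (W (p, x)) := by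
    ext p
    rw [SE, setIntegral_eq_integral_of_forall_compl_eq_zero fun x hx => by
      rw [hs p x hx, zero_mul]]
  rw [e]
  exact continuous_const.mul (continuous_parametric_integral_of_continuous
    (f := fun p x => g (p, x) * aid eta ε (W (p, x)))
    (hg.mul ((contDiff_aid ε).continuous.comp hW)) hK)

namespace IsFam

variable (h : IsFam W) (hE : finrank ℝ E = m + 1)
include h hE

lemma SE_tendsto {g : P × E → ℝ} (hg : Continuous g) {K : Set E} (hK : IsCompact K) (hs : XS K g)
    (p : P) : Tendsto (fun ε => SE m W g ε p) (𝓝[>] 0) (𝓝 (SI m W g p)) :=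
  (h.isEik p).slab hE (hg.comp (continuous_const.prodMk continuous_id)) (hs.compact hK p)

lemma bound {N : Set P} (hN : IsCompact N) {K : Set E} (hK : IsCompact K) :
    ∃ C δ : ℝ, 0 ≤ C ∧ 0 < δ ∧ ∀ (g : P × E → ℝ) (M : ℝ), 0 ≤ M → Continuous g → XS K g →
      ∀ p ∈ N, (∀ x ∈ K, |g (p, x)| ≤ M) →
        (∀ ε ∈ Ioo 0 δ, |SE m W g ε p| ≤ C * M) ∧ |SI m W g p| ≤ C * M := by
  obtain ⟨C, hC, δ, hδ, hb⟩ := slab_bound (h.smooth.of_le (by norm_num))
    (fun z hz h0 => by
      have := (h.eik z hz).self_of_nhds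
      rw [h0, norm_zero] at this
      exact zero_ne_one this) (hN.prod hK)
  refine ⟨cH m * C.toReal, δ, by positivity, hδ, fun g M hM hg hs p hp hgM => ?_⟩
  have key : ∀ ε ∈ Ioo 0 δ, |SE m W g ε p| ≤ cH m * C.toReal * M := by
    intro ε hε
    have h1 := hb p ε hε.1 hε.2
    have e : {x | (p, x) ∈ N ×ˢ K} = K := by ext x; simp [hp]
    rw [e] at h1
    rw [SE, abs_mul, abs_of_pos (cH_pos' m), mul_assoc]
    refine mul_le_mul_of_nonneg_left ?_ (cH_pos' m).le
    rw [← setIntegral_eq_integral_of_forall_compl_eq_zero (s := K) fun x hx => by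
      rw [hs p x hx, zero_mul], ← Real.norm_eq_abs]
    refine (norm_integral_le_lintegral_norm _).trans ?_
    rw [mul_comm, ← ENNReal.toReal_ofReal hM, ← ENNReal.toReal_mul]
    refine ENNReal.toReal_mono (ENNReal.mul_ne_top ENNReal.ofReal_ne_top hC.ne) ?_
    refine le_trans ?_ (mul_le_mul_right h1 _)
    rw [← lintegral_const_mul' _ _ ENNReal.ofReal_ne_top]
    refine setLIntegral_mono' hK.measurableSet fun x hx => ?_
    rw [← ENNReal.ofReal_mul hM, norm_mul, Real.norm_eq_abs, Real.norm_eq_abs,
      abs_of_nonneg (aid_nonneg hε.1 _)]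
    exact ENNReal.ofReal_le_ofReal (mul_le_mul_of_nonneg_right (hgM x hx) (aid_nonneg hε.1 _))
  refine ⟨key, le_of_tendsto (h.SE_tendsto hE hg hK hs p).abs ?_⟩
  filter_upwards [Ioo_mem_nhdsGT hδ] with ε hε using key ε hε

omit hE in
/-- the exact identity for the derivative of the slab integral -/
lemma int_fderiv {g : P × E → ℝ} (hg : ContDiff ℝ 1 g) {K : Set E} (hK : IsCompact K)
    (hs : XS K g) (q v : P) {δ ε : ℝ} (hε : ε ∈ Ioo 0 δ)
    (hδ : ∀ x ∈ K, |W (q, x)| < δ → ∀ᶠ y in 𝓝 (q, x), ‖gr W y‖ = 1) :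
    ∫ x, fderiv ℝ (fun z => g z * aid eta ε (W z)) (q, x) (v, 0)
      = ∫ x, DD W g (q, x) v * aid eta ε (W (q, x)) := by
  have hW1 : ContDiff ℝ 1 W := h.smooth.of_le (by norm_num)
  have hWv : ContDiff ℝ 1 fun z => fderiv ℝ W z (v, 0) :=
    (h.smooth.fderiv_right (m := 1) (by norm_num)).clm_apply contDiff_const
  have hf : ContDiff ℝ 1 (sl (fun z => g z * fderiv ℝ W z (v, 0)) q) := contDiff_sl (hg.mul hWv) q
  have hG : ContDiff ℝ 1 (gradient (sl W q)) := (h.isEik q).cdg
  set X : E → E := fun x => sl (fun z => g z * fderiv ℝ W z (v, 0)) q x • gradient (sl W q) x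
    with hXdef
  have hX : ContDiff ℝ 1 X := hf.smul hG
  have hXc : HasCompactSupport X := HasCompactSupport.intro hK fun x hx => by
    simp [hXdef, sl, hs q x hx]
  have e := integral_comp_mul_dv (contDiff_sl hW1 q) (contDiff_aid ε) hX hXc
  have cq : Continuous fun x : E => (q, x) := continuous_const.prodMk continuous_id
  have ca : Continuous fun x => aid eta ε (W (q, x)) :=
    (contDiff_aid ε).continuous.comp (hW1.continuous.comp cq)
  have e1 : ∀ x, fderiv ℝ (fun z => g z * aid eta ε (W z)) (q, x) (v, 0)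
      = fderiv ℝ g (q, x) (v, 0) * aid eta ε (W (q, x))
        + deriv (aid eta ε) (sl W q x) * ⟪gradient (sl W q) x, X x⟫ := by
    intro x
    have d1 := (hg.differentiable one_ne_zero (q, x)).hasFDerivAt
    have d2 := (((contDiff_aid ε).differentiable one_ne_zero
      (W (q, x))).hasDerivAt.comp_hasFDerivAt (q, x)
      (hW1.differentiable one_ne_zero (q, x)).hasFDerivAt)
    have d3 := (d1.mul d2).fderiv
    rw [show (fun z => g z * aid eta ε (W z)) = g * (aid eta ε ∘ W) from rfl, d3]
    have e2 : deriv (aid eta ε) (W (q, x)) * ⟪gradient (sl W q) x, X x⟫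
        = g (q, x) * (deriv (aid eta ε) (W (q, x)) * fderiv ℝ W (q, x) (v, 0)) := by
      simp only [hXdef, inner_smul_right, sl]
      by_cases hx : x ∈ K
      · rcases lt_or_ge |W (q, x)| δ with h1 | h1
        · have h2 : ‖gradient (sl W q) x‖ = 1 := (hδ x hx h1).self_of_nhds
          rw [real_inner_self_eq_norm_sq]
          change _ * (_ * ‖gradient (sl W q) x‖ ^ 2) = _
          rw [h2]; ring
        · rw [deriv_aid_zero hε.1 (hε.2.trans_le h1)]; ring
      · rw [hs q x hx]; ring
    change _ = _ + deriv (aid eta ε) (W (q, x)) * _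
    rw [e2]
    simp only [add_apply, smul_apply, smul_eq_mul, Function.comp_apply]
    ring
  have e3 : ∀ x, DD W g (q, x) v * aid eta ε (W (q, x))
      = fderiv ℝ g (q, x) (v, 0) * aid eta ε (W (q, x)) - aid eta ε (sl W q x) * dv X x := by
    intro x
    have d1 := hg.differentiable one_ne_zero (q, x)
    have d2 := hWv.differentiable one_ne_zero (q, x)
    have e4 : dv X x = (fderiv ℝ g (q, x) (0, gr W (q, x)) + g (q, x) * lp W (q, x))
        * fderiv ℝ W (q, x) (v, 0)
        + g (q, x) * fderiv ℝ (fun z => fderiv ℝ W z (v, 0)) (q, x) (0, gr W (q, x)) := by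
      have e6 : fderiv ℝ (sl (fun z => g z * fderiv ℝ W z (v, 0)) q) x (gradient (sl W q) x)
          = fderiv ℝ (fun z => g z * fderiv ℝ W z (v, 0)) (q, x) (0, gr W (q, x)) :=
        fderiv_sl_apply (z := (q, x)) (d1.mul d2) _
      rw [hXdef, dv_smul (hf.differentiable one_ne_zero x) (hG.differentiable one_ne_zero x),
        e6, fderiv_fun_mul d1 d2]
      simp only [add_apply, smul_apply, smul_eq_mul, sl]
      change _ * lp W (q, x) + _ = _
      ring
    have e5 : aid eta ε (W (q, x)) * (g (q, x)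
        * fderiv ℝ (fun z => fderiv ℝ W z (v, 0)) (q, x) (0, gr W (q, x))) = 0 := by
      by_cases hx : x ∈ K
      · rcases lt_or_ge |W (q, x)| δ with h1 | h1
        · rw [fderiv_fderiv_normal h.smooth.contDiffAt (hδ x hx h1)]; ring
        · rw [aid_zero hε.1 (hε.2.trans_le h1)]; ring
      · rw [hs q x hx]; ring
    rw [e4, DD_apply]
    change _ = _ - aid eta ε (W (q, x)) * _
    linear_combination e5
  have i1 : Integrable fun x => fderiv ℝ g (q, x) (v, 0) * aid eta ε (W (q, x)) := by
    refine (((((hg.continuous_fderiv one_ne_zero).comp cq).clm_apply continuous_const)).mul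
      ca).integrable_of_hasCompactSupport (HasCompactSupport.intro hK fun x hx => ?_)
    simp [hs.fderiv hK q hx]
  have i2 : Integrable fun x => aid eta ε (sl W q x) * dv X x :=
    (ca.mul (continuous_dv hX)).integrable_of_hasCompactSupport (dv_compact hXc).mul_left
  have i3 : Integrable fun x => deriv (aid eta ε) (sl W q x) * ⟪gradient (sl W q) x, X x⟫ := by
    refine (((((contDiff_aid ε).continuous_deriv le_rfl).comp (hW1.continuous.comp cq))).mul
      (hG.continuous.inner hX.continuous)).integrable_of_hasCompactSupport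
      (hXc.mono fun x hx h0 => hx ?_)
    have h0' : X x = 0 := h0
    rw [Pi.mul_apply, h0', inner_zero_right, mul_zero]
  simp only [e1, e3]
  rw [integral_add i1 i3, integral_sub i1 i2, e]
  ring

/-- the fundamental theorem of calculus along segments -/
lemma SI_sub {g : P × E → ℝ} (hg : ContDiff ℝ 1 g) {K : Set E} (hK : IsCompact K) (hs : XS K g)
    (p v : P) :
    SI m W g (p + v) - SI m W g p = ∫ s in (0 : ℝ)..1, SI m W (fun z => DD W g z v) (p + s • v) := by
  have hW1 : ContDiff ℝ 1 W := h.smooth.of_le (by norm_num)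
  have hc : Continuous fun s : ℝ => p + s • v := by fun_prop
  have hN : IsCompact ((fun s : ℝ => p + s • v) '' Icc 0 1) := isCompact_Icc.image hc
  obtain ⟨δ, hδ, hsl⟩ := exists_slab hW1.continuous h.eik (hN.prod hK)
  obtain ⟨C, δ', hC, hδ', hb⟩ := h.bound hE hN hK
  have hD : Continuous fun z => DD W g z v :=
    (contDiff_DD (n := 0) h.smooth (by norm_num) (by simpa using hg)).continuous.clm_apply
      continuous_const
  have hDs := hs.DD hK W v
  obtain ⟨M, hM⟩ := (hN.prod hK).exists_bound_of_continuousOn hD.continuousOn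
  have key : ∀ ε ∈ Ioo 0 δ, SE m W g ε (p + v) - SE m W g ε p
      = ∫ s in (0 : ℝ)..1, SE m W (fun z => DD W g z v) ε (p + s • v) := by
    intro ε hε
    have h1 := intervalIntegral.integral_eq_sub_of_hasDerivAt (a := 0) (b := 1)
      (f := fun s : ℝ => SE m W g ε (p + s • v))
      (f' := fun s : ℝ => SE m W (fun z => DD W g z v) ε (p + s • v)) (fun s hs' => ?_)
      (((continuous_SE hW1.continuous hD hK hDs ε).comp hc).intervalIntegrable _ _)
    · rw [h1]; simp
    · rw [uIcc_of_le zero_le_one] at hs'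
      have h2 := hasDerivAt_int (F := fun z => g z * aid eta ε (W z))
        (hg.mul ((contDiff_aid ε).comp hW1)) hK (fun p x hx => by
          show g (p, x) * _ = 0
          rw [hs p x hx, zero_mul]) p v s
      rw [h.int_fderiv hg hK hs (p + s • v) v hε fun x hx =>
        hsl (p + s • v, x) ⟨⟨s, hs', rfl⟩, hx⟩] at h2
      exact h2.const_mul _
  refine tendsto_nhds_unique ((h.SE_tendsto hE hg.continuous hK hs (p + v)).sub
    (h.SE_tendsto hE hg.continuous hK hs p)) (Tendsto.congr' ?_
    (intervalIntegral.tendsto_integral_filter_of_dominated_convergence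
      (F := fun ε s => SE m W (fun z => DD W g z v) ε (p + s • v))
      (fun _ => C * max M 0) ?_ ?_ intervalIntegrable_const ?_))
  · filter_upwards [Ioo_mem_nhdsGT hδ] with ε hε using (key ε hε).symm
  · exact Eventually.of_forall fun ε =>
      ((continuous_SE hW1.continuous hD hK hDs ε).comp hc).aestronglyMeasurable
  · filter_upwards [Ioo_mem_nhdsGT hδ'] with ε hε
    refine Eventually.of_forall fun s hs' => ?_
    rw [uIoc_of_le zero_le_one] at hs'
    exact (hb _ _ (le_max_right _ _) hD hDs _ ⟨s, Ioc_subset_Icc_self hs', rfl⟩ fun x hx =>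
      (hM (p + s • v, x) ⟨⟨s, Ioc_subset_Icc_self hs', rfl⟩, hx⟩).trans (le_max_left _ _)).1 ε hε
  · exact Eventually.of_forall fun s _ => h.SE_tendsto hE hD hK hDs _

end IsFam

end Vale.Agent.P218UX
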