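import Vale.Agent.P218UX.Par

/-! Surface integrals over a family of eikonal level sets: continuity, differentiability and
smoothness in the parameter, for globally defined and for locally defined families. -/

open MeasureTheory Set Filter Topology Metric Module
open scoped ENNReal NNReal RealInnerProductSpace ContDiff

namespace Vale.Agent.P218UX

set_option linter.unusedSectionVars false

open Vale.Agent.P218GA
open Vale.Agent.P218.H63 (lap contDiff_gradient hess_symm)

variable {P : Type*} [NormedAddCommGroup P] [NormedSpace ℝ P] [FiniteDimensional ℝ P]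
variable {E : Type*} [NormedAddCommGroup E] [InnerProductSpace ℝ E] [FiniteDimensional ℝ E]

lemma XS.DD' {K : Set E} (hK : IsCompact K) {g : P × E → ℝ} (h : XS K g) (W : P × E → ℝ) (p : P)
    {x : E} (hx : x ∉ K) : P218UX.DD W g (p, x) = 0 :=
  ContinuousLinearMap.ext fun v => h.DD hK W v p x hx

lemma nat_le_inf (n : ℕ) : (n : WithTop ℕ∞) ≤ ((⊤ : ℕ∞) : WithTop ℕ∞) :=
  WithTop.coe_le_coe.2 (le_top : (n : ℕ∞) ≤ ⊤)

lemma one_le_inf : (1 : WithTop ℕ∞) ≤ ((⊤ : ℕ∞) : WithTop ℕ∞) := nat_le_inf 1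

lemma two_le_inf : (2 : WithTop ℕ∞) ≤ ((⊤ : ℕ∞) : WithTop ℕ∞) := nat_le_inf 2

variable [MeasurableSpace E] [BorelSpace E] {m : ℕ} {W : P × E → ℝ}

namespace IsFam

variable (h : IsFam W) (hE : finrank ℝ E = m + 1)
include h hE

omit hE in
lemma continuous_DD {g : P × E → ℝ} (hg : ContDiff ℝ 1 g) : Continuous (DD W g) :=
  (contDiff_DD (n := 0) h.smooth (by norm_num) (by simpa using hg)).continuous

lemma integrable {F : Type*} [NormedAddCommGroup F] {g : P × E → F} (hg : Continuous g) {K : Set E}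
    (hK : IsCompact K) (p : P) (hs : ∀ x, x ∉ K → g (p, x) = 0) :
    Integrable (fun x => g (p, x)) (area m (sl W p)) := by
  have := (h.isEik p).locFin hE
  exact (hg.comp (continuous_const.prodMk continuous_id)).integrable_of_hasCompactSupport
    (HasCompactSupport.intro hK hs)

lemma continuous_SI_of_contDiff {g : P × E → ℝ} (hg : ContDiff ℝ 1 g) {K : Set E}
    (hK : IsCompact K) (hs : XS K g) : Continuous (SI m W g) := by
  refine continuous_iff_continuousAt.2 fun p => ?_
  have hN : IsCompact (closedBall p 1) := isCompact_closedBall p 1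
  obtain ⟨C, δ, hC, -, hb⟩ := h.bound hE hN hK
  obtain ⟨M, hM⟩ := (hN.prod hK).exists_bound_of_continuousOn (h.continuous_DD hg).continuousOn
  have key : ∀ q ∈ closedBall p 1, ‖SI m W g q - SI m W g p‖ ≤ C * (max M 0 * ‖q - p‖) := by
    intro q hq
    have e := h.SI_sub hE hg hK hs p (q - p)
    rw [add_sub_cancel] at e
    rw [e]
    refine (intervalIntegral.norm_integral_le_of_norm_le_const
      (C := C * (max M 0 * ‖q - p‖)) fun s hs' => ?_).trans (by simp)
    rw [uIoc_of_le zero_le_one] at hs'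
    have h1 : p + s • (q - p) ∈ closedBall p 1 := by
      rw [mem_closedBall, dist_eq_norm] at hq ⊢
      rw [add_sub_cancel_left, norm_smul, Real.norm_eq_abs, abs_of_pos hs'.1]
      nlinarith [hs'.1, hs'.2, norm_nonneg (q - p)]
    refine (hb _ _ (by positivity) ((h.continuous_DD hg).clm_apply continuous_const)
      (hs.DD hK W _) _ h1 fun x hx => ?_).2
    rw [← Real.norm_eq_abs]
    exact (ContinuousLinearMap.le_opNorm _ _).trans (mul_le_mul_of_nonneg_right
      ((hM (_, x) ⟨h1, hx⟩).trans (le_max_left _ _)) (norm_nonneg _))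
  rw [ContinuousAt, tendsto_iff_norm_sub_tendsto_zero]
  refine squeeze_zero' (Eventually.of_forall fun _ => norm_nonneg _)
    (mem_of_superset (closedBall_mem_nhds p one_pos) key) ?_
  have h2 : Continuous fun q : P => C * (max M 0 * ‖q - p‖) := by fun_prop
  simpa using h2.tendsto p

/-- continuity of the surface integral -/
theorem continuous_SI {g : P × E → ℝ} (hg : Continuous g) {K : Set E} (hK : IsCompact K)
    (hs : XS K g) : Continuous (SI m W g) := by
  refine continuous_iff_continuousAt.2 fun p => ?_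
  have hN : IsCompact (closedBall p 1) := isCompact_closedBall p 1
  obtain ⟨C, δ, hC, -, hb⟩ := h.bound hE hN hK
  refine continuousAt_of_locally_uniform_approx_of_continuousAt fun u hu => ?_
  obtain ⟨ε, hε, hu'⟩ := Metric.mem_uniformity_dist.1 hu
  have hη : 0 < ε / (C + 1) := by positivity
  obtain ⟨g', hg', hd, hsupp⟩ := hg.exists_contDiff_approx 1 (ε := fun _ => ε / (C + 1))
    continuous_const fun _ => hη
  have hg1 : ContDiff ℝ 1 g' := by simpa using hg'
  have hs' : XS K g' := fun q x hx => by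
    by_contra h0
    exact hsupp h0 (hs q x hx)
  refine ⟨closedBall p 1, closedBall_mem_nhds p one_pos, SI m W g',
    (h.continuous_SI_of_contDiff hE hg1 hK hs').continuousAt, fun q hq => hu' ?_⟩
  have e : SI m W g q - SI m W g' q = SI m W (fun z => g z - g' z) q :=
    (integral_sub (h.integrable hE hg hK q (hs q)) (h.integrable hE hg1.continuous hK q (hs' q))).symm
  rw [Real.dist_eq, e]
  refine (hb _ _ hη.le (hg.sub hg1.continuous) (fun q x hx => by
    show g (q, x) - g' (q, x) = 0
    rw [hs q x hx, hs' q x hx, sub_zero]) q hq fun x _ => ?_).2.trans_lt ?_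
  · rw [Pi.sub_apply, abs_sub_comm]; exact (hd (q, x)).le
  · rw [← mul_div_assoc, div_lt_iff₀ (by positivity)]; nlinarith

lemma integral_DD_apply {g : P × E → ℝ} (hg : ContDiff ℝ 1 g) {K : Set E} (hK : IsCompact K)
    (hs : XS K g) (p v : P) : (∫ x, DD W g (p, x) ∂(area m (sl W p))) v
      = SI m W (fun z => DD W g z v) p :=
  ContinuousLinearMap.integral_apply
    (h.integrable hE (h.continuous_DD hg) hK p fun _ hx => hs.DD' hK W p hx) v

/-- the derivative of the surface integral -/
theorem hasFDerivAt_SI {g : P × E → ℝ} (hg : ContDiff ℝ 1 g) {K : Set E} (hK : IsCompact K)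
    (hs : XS K g) (p : P) :
    HasFDerivAt (SI m W g) (∫ x, DD W g (p, x) ∂(area m (sl W p))) p := by
  set L : P → P →L[ℝ] ℝ := fun q => ∫ x, DD W g (q, x) ∂(area m (sl W q)) with hL
  have hLv : ∀ q v, L q v = SI m W (fun z => DD W g z v) q := h.integral_DD_apply hE hg hK hs
  have hc : Continuous L := continuous_clm_apply.2 fun v => by
    simp only [hLv]
    exact h.continuous_SI hE ((h.continuous_DD hg).clm_apply continuous_const) hK (hs.DD hK W v)
  change HasFDerivAt (SI m W g) (L p) p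
  rw [hasFDerivAt_iff_isLittleO_nhds_zero, Asymptotics.isLittleO_iff]
  intro c hc0
  obtain ⟨δ, hδ, hb⟩ := Metric.continuousAt_iff.1 hc.continuousAt c hc0
  filter_upwards [ball_mem_nhds (0 : P) hδ] with v hv
  rw [mem_ball_zero_iff] at hv
  have i1 : IntervalIntegrable (fun s : ℝ => L (p + s • v) v) volume 0 1 :=
    ((hc.comp (by fun_prop)).clm_apply continuous_const).intervalIntegrable _ _
  have e : SI m W g (p + v) - SI m W g p - L p v = ∫ s in (0 : ℝ)..1, (L (p + s • v) v - L p v) := by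
    rw [intervalIntegral.integral_sub i1 intervalIntegrable_const, h.SI_sub hE hg hK hs]
    simp [hLv]
  rw [e]
  refine (intervalIntegral.norm_integral_le_of_norm_le_const (C := c * ‖v‖)
    fun s hs' => ?_).trans (by simp)
  rw [uIoc_of_le zero_le_one] at hs'
  rw [← sub_apply]
  refine (ContinuousLinearMap.le_opNorm _ _).trans (mul_le_mul_of_nonneg_right ?_ (norm_nonneg _))
  rw [← dist_eq_norm]
  refine (hb ?_).le
  rw [dist_eq_norm, add_sub_cancel_left, norm_smul, Real.norm_eq_abs, abs_of_pos hs'.1]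
  nlinarith [hs'.1, hs'.2, norm_nonneg v]

/-- smoothness of the surface integral -/
theorem contDiff_SI (hW : ContDiff ℝ ∞ W) {K : Set E} (hK : IsCompact K) (n : ℕ) :
    ∀ g : P × E → ℝ, ContDiff ℝ n g → XS K g → ContDiff ℝ n (SI m W g) := by
  induction n with
  | zero =>
    intro g hg hs
    exact contDiff_zero.2 (h.continuous_SI hE hg.continuous hK hs)
  | succ n ih =>
    intro g hg hs
    have hg1 : ContDiff ℝ 1 g := hg.of_le (by exact_mod_cast Nat.le_add_left 1 n)
    rw [Nat.cast_succ] at hg ⊢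
    refine contDiff_succ_iff_fderiv_apply.2 ⟨fun p =>
      (h.hasFDerivAt_SI hE hg1 hK hs p).differentiableAt, fun h0 => by simp at h0, fun v => ?_⟩
    have e : (fun p => fderiv ℝ (SI m W g) p v) = SI m W fun z => DD W g z v := funext fun p => by
      rw [(h.hasFDerivAt_SI hE hg1 hK hs p).fderiv, h.integral_DD_apply hE hg1 hK hs]
    rw [e]
    refine ih _ ((contDiff_DD hW ?_ hg).clm_apply contDiff_const) (hs.DD hK W v)
    exact_mod_cast nat_le_inf (n + 2)

end IsFam

/-! ### Localisation -/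

/-- a smooth self-map with values in `U` which is the identity near `p` -/
lemma exists_retr {U : Set P} (hU : IsOpen U) {p : P} (hp : p ∈ U) :
    ∃ σ : P → P, ContDiff ℝ ∞ σ ∧ (∀ q, σ q ∈ U) ∧ ∀ᶠ q in 𝓝 p, σ q = q := by
  obtain ⟨r, hr, hb⟩ := Metric.isOpen_iff.1 hU p hp
  let β : ContDiffBump p := ⟨r / 2, r, by positivity, by linarith⟩
  refine ⟨fun q => p + β q • (q - p),
    contDiff_const.add (β.contDiff.smul (contDiff_id.sub contDiff_const)), fun q => hb ?_, ?_⟩
  · rw [mem_ball, dist_eq_norm, add_sub_cancel_left, norm_smul, Real.norm_eq_abs,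
      abs_of_nonneg β.nonneg]
    rcases lt_or_ge (dist q p) r with h1 | h1
    · rw [dist_eq_norm] at h1
      exact (mul_le_of_le_one_left (norm_nonneg _) β.le_one).trans_lt h1
    · rw [β.zero_of_le_dist h1, zero_mul]; exact hr
  · filter_upwards [closedBall_mem_nhds p (half_pos hr)] with q hq
    rw [β.one_of_mem_closedBall hq]; simp

/-- a smooth family of eikonal level sets, with parameters in the open set `U` -/
structure IsLoc (W : P × E → ℝ) (U : Set P) : Prop where
  isOpen : IsOpen U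
  smooth : ContDiffOn ℝ ∞ W (U ×ˢ univ)
  eik : ∀ z : P × E, z.1 ∈ U → W z = 0 → ∀ᶠ y in 𝓝 z, ‖gr W y‖ = 1

lemma contDiff_retr {F : Type*} [NormedAddCommGroup F] [NormedSpace ℝ F] {g : P × E → F}
    {U : Set P} {n : WithTop ℕ∞} (hn : n ≤ ((⊤ : ℕ∞) : WithTop ℕ∞)) (hg : ContDiffOn ℝ n g (U ×ˢ univ)) {σ : P → P}
    (hσ : ContDiff ℝ ∞ σ) (hU : ∀ q, σ q ∈ U) : ContDiff ℝ n fun z : P × E => g (σ z.1, z.2) :=
  hg.comp_contDiff (((hσ.of_le hn).comp contDiff_fst).prodMk contDiff_snd)
    fun z => ⟨hU z.1, mem_univ _⟩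

namespace IsLoc

variable {U : Set P} (h : IsLoc W U)
include h

lemma isFam {σ : P → P} (hσ : ContDiff ℝ ∞ σ) (hU : ∀ q, σ q ∈ U) :
    IsFam fun z : P × E => W (σ z.1, z.2) :=
  ⟨contDiff_retr two_le_inf (h.smooth.of_le two_le_inf) hσ hU,
    fun z hz => ((hσ.continuous.comp continuous_fst).prodMk
      continuous_snd).continuousAt.eventually (h.eik (σ z.1, z.2) (hU _) hz)⟩

variable (hE : finrank ℝ E = m + 1)
include hE

theorem contDiffOn_SI {K : Set E} (hK : IsCompact K) (n : ℕ) {g : P × E → ℝ}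
    (hg : ContDiffOn ℝ n g (U ×ˢ univ)) (hs : ∀ p ∈ U, ∀ x, x ∉ K → g (p, x) = 0) :
    ContDiffOn ℝ n (SI m W g) U := by
  intro p hp
  obtain ⟨σ, hσ, hU, hid⟩ := exists_retr h.isOpen hp
  have h1 := (h.isFam hσ hU).contDiff_SI hE (contDiff_retr le_rfl h.smooth hσ hU) hK n _
    (contDiff_retr (nat_le_inf n) hg hσ hU) fun q x hx => hs _ (hU q) x hx
  refine (h1.contDiffAt.congr_of_eventuallyEq ?_).contDiffWithinAt
  filter_upwards [hid] with q hq
  change SI m W g q = SI m W g (σ q)
  rw [hq]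

theorem continuousOn_SI {K : Set E} (hK : IsCompact K) {g : P × E → ℝ}
    (hg : ContinuousOn g (U ×ˢ univ)) (hs : ∀ p ∈ U, ∀ x, x ∉ K → g (p, x) = 0) :
    ContinuousOn (SI m W g) U :=
  contDiffOn_zero.1 (h.contDiffOn_SI hE hK 0 (contDiffOn_zero.2 hg) hs)

theorem hasFDerivAt_SI {K : Set E} (hK : IsCompact K) {g : P × E → ℝ}
    (hg : ContDiffOn ℝ 1 g (U ×ˢ univ)) (hs : ∀ p ∈ U, ∀ x, x ∉ K → g (p, x) = 0) {p : P}
    (hp : p ∈ U) : Integrable (fun x => DD W g (p, x)) (area m (sl W p)) ∧
      HasFDerivAt (SI m W g) (∫ x, DD W g (p, x) ∂(area m (sl W p))) p := by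
  obtain ⟨σ, hσ, hU, hid⟩ := exists_retr h.isOpen hp
  have hg1 := contDiff_retr one_le_inf hg hσ hU
  have hs1 : XS K fun z : P × E => g (σ z.1, z.2) := fun q x hx => hs _ (hU q) x hx
  have h0 := (h.isFam hσ hU).integrable hE ((h.isFam hσ hU).continuous_DD hg1) hK p
    fun _ hx => hs1.DD' hK _ p hx
  have h1 := (h.isFam hσ hU).hasFDerivAt_SI hE hg1 hK hs1 p
  have hp' : σ p = p := hid.self_of_nhds
  have e1 : sl (fun z : P × E => W (σ z.1, z.2)) p = sl W p := by
    change sl W (σ p) = _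
    rw [hp']
  have e2 : ∀ (f : P × E → ℝ) (x : E), (fun z : P × E => f (σ z.1, z.2)) =ᶠ[𝓝 (p, x)] f := by
    intro f x
    filter_upwards [(continuous_fst.tendsto (p, x)).eventually hid] with z hz
    rw [hz]
  have e3 : ∀ x, DD (fun z : P × E => W (σ z.1, z.2)) (fun z : P × E => g (σ z.1, z.2)) (p, x)
      = DD W g (p, x) := by
    intro x
    simp only [DD, gr, lp, e1, (e2 _ x).fderiv_eq, hp']
  simp only [e1, e3] at h0 h1
  refine ⟨h0, h1.congr_of_eventuallyEq ?_⟩
  filter_upwards [hid] with q hq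
  change SI m W g q = SI m W g (σ q)
  rw [hq]

end IsLoc

end Vale.Agent.P218UX
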