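import Vale.Agent.P218UX.Aff
import Vale.Agent.P218UX.Jets
import Vale.Agent.P218UA.Props2

/-! The tangent flows of `√(-t) S` at the points `(e, 0)`, `|e| = 1`: they split off the line
`ℝ e`, hence they are empty, planes or the cylinder with the axis `ℝ e`. -/

open MeasureTheory Set Filter Topology Metric
open scoped ENNReal NNReal RealInnerProductSpace ContDiff

namespace Vale.Agent.P218UX

open Vale.Agent.P218UA Vale.Agent.P218UG
open Vale.Agent.P218 (WeakTendsto)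
open Vale.Agent.P218.H63 (lap hessSq)

/-- the results of the other blocks which are used here -/
structure Hyp : Prop where
  mono : Mono
  tan : Tan
  m1 : M1Stmt
  dens : DensStmt
  low : LowDensStmt
  lim : LimStmt
  al : ALStmt
  cyl : CylDensStmt
  sheet : SheetStmt
  hd : HDStmt

/-- a self-shrinker with bounded area ratios and the local Gauss-Bonnet estimate -/
structure Sh (W : E3 → ℝ) (A C : ℝ) : Prop where
  shr : IsShr W
  one_le : 1 ≤ A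
  one_le' : 1 ≤ C
  ratio : AR (ar W) A
  lgb : LGB W C

variable {W : E3 → ℝ} {A C : ℝ} {e : E3}

lemma Sh.good (h : Sh W A C) (b : E3) (a : ℝ) : IsGood (sf W b) (Ioo a 0) A C :=
  isGood_sf h.shr h.one_le h.one_le' h.ratio h.lgb isOpen_Ioo ordConnected_Ioo Ioo_subset_Iio_self

lemma Sh.flow (h : Sh W A C) (b : E3) : IsARFlow (sf W b) (Iio 0) A :=
  (isGood_sf h.shr h.one_le h.one_le' h.ratio h.lgb isOpen_Iio ordConnected_Iio
    Subset.rfl).toIsARFlow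

lemma pt_zero (Q : E3 ≃ₗᵢ[ℝ] E3) (p : E3) : pt Q p 0 0 = p := by
  rw [pt_eq, Prod.mk_zero_zero, map_zero, add_zero]

lemma conv_congr {M M' : ℕ → Set E3} {S : Set E3} (h : SmoothConv M S)
    (hM : ∀ᶠ i in atTop, M i = M' i) : SmoothConv M' S where
  away p hp := by
    obtain ⟨r, hr, h1⟩ := h.away p hp
    exact ⟨r, hr, by filter_upwards [h1, hM] with i h1 h2 using h2 ▸ h1⟩
  near p hp := by
    obtain ⟨Q, R, k, u, v, h1, h2, h3, h4, h5, h6⟩ := h.near p hp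
    exact ⟨Q, R, k, u, v, h1, h2, h3, h4,
      by filter_upwards [h5, hM] with i h1 h2 using h2 ▸ h1, h6⟩

lemma graph_zero {S : Set E3} {Q : E3 ≃ₗᵢ[ℝ] E3} {p : E3} {R k : ℝ} {u : E2 → ℝ} (hR : 0 < R)
    (hk : 0 < k) (h : IsGraph S Q p R k u) (hp : p ∈ S) : u 0 = 0 :=
  (((h 0 (by simpa)).2 0 (by simpa)).1 (by rwa [pt_zero])).symm

lemma graph_mem {S : Set E3} {Q : E3 ≃ₗᵢ[ℝ] E3} {p : E3} {R k : ℝ} {u : E2 → ℝ}
    (h : IsGraph S Q p R k u) {ξ : E2} (hξ : ‖ξ‖ < R) : pt Q p ξ (u ξ) ∈ S :=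
  ((h ξ hξ).2 _ (h ξ hξ).1).2 rfl

lemma tendsto_jet0 {v : ℕ → E2 → ℝ} {u : E2 → ℝ} {ξ : E2}
    (h : Tendsto (fun i => iteratedFDeriv ℝ 0 (v i) ξ) atTop (𝓝 (iteratedFDeriv ℝ 0 u ξ))) :
    Tendsto (fun i => v i ξ) atTop (𝓝 (u ξ)) := by
  simpa [iteratedFDeriv_zero_eq_comp, Function.comp_def] using
    ((continuousMultilinearCurryFin0 ℝ E2 ℝ).continuous.tendsto _).comp h

lemma tendsto_jet1 {v : ℕ → E2 → ℝ} {u : E2 → ℝ} {ξ : E2}
    (h : Tendsto (fun i => iteratedFDeriv ℝ 1 (v i) ξ) atTop (𝓝 (iteratedFDeriv ℝ 1 u ξ))) :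
    Tendsto (fun i => fderiv ℝ (v i) ξ) atTop (𝓝 (fderiv ℝ u ξ)) :=
  tendsto_iff_norm_sub_tendsto_zero.2 (squeeze_zero (fun _ => norm_nonneg _)
    (fun i => norm_fderiv_sub_le (v i) u ξ) (tendsto_iff_norm_sub_tendsto_zero.1 h))

lemma tendsto_jet2 {v : ℕ → E2 → ℝ} {u : E2 → ℝ} {ξ : E2}
    (h : Tendsto (fun i => iteratedFDeriv ℝ 2 (v i) ξ) atTop (𝓝 (iteratedFDeriv ℝ 2 u ξ))) :
    Tendsto (fun i => fderiv ℝ (fderiv ℝ (v i)) ξ) atTop (𝓝 (fderiv ℝ (fderiv ℝ u) ξ)) :=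
  (tendsto_iff_norm_sub_tendsto_zero (E := E2 →L[ℝ] E2 →L[ℝ] ℝ)).2
    (squeeze_zero (fun _ => ContinuousLinearMap.opNorm_nonneg _)
      (fun i => norm_fderiv2_sub_le (v i) u ξ) (tendsto_iff_norm_sub_tendsto_zero.1 h))

/-- every point of the limit is a limit of points of the surfaces -/
lemma conv_seq {M : ℕ → Set E3} {S : Set E3} (h : SmoothConv M S) {p : E3} (hp : p ∈ S) :
    ∃ x : ℕ → E3, Tendsto x atTop (𝓝 p) ∧ ∀ᶠ i in atTop, x i ∈ M i := by
  obtain ⟨Q, R, k, u, v, h1, h2, h3, -, h5, h6⟩ := h.near p hp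
  refine ⟨fun i => pt Q p 0 (v i 0), ?_, h5.mono fun i hi => graph_mem hi.1 (by simpa)⟩
  have a1 := tendsto_jet0 ((h6 0).tendsto_at (mem_ball_self h1))
  rw [graph_zero h1 h2 h3 hp] at a1
  have a2 : Continuous fun s : ℝ => pt Q p 0 s :=
    (contDiff_pt (k := 0)).continuous.comp (Continuous.prodMk_right (0 : E2))
  simpa [pt_zero, Function.comp_def] using (a2.tendsto 0).comp a1

/-- smooth limits of translates of a self-shrinker split off a line -/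
lemma split (hW : IsShr W) {R : ℕ → ℝ} (hR : Tendsto R atTop atTop) {W' : E3 → ℝ}
    (hW' : IsSurf W') (h : SmoothConv (fun i => {x | W (x + R i • e) = 0}) {x | W' x = 0})
    (p : E3) (hp : W' p = 0) : ⟪e, gradient W' p⟫ = 0 := by
  obtain ⟨Q, r, k, u, v, h1, h2, h3, h4, h5, h6⟩ := h.near p hp
  have hb : ball (0 : E2) r ∈ 𝓝 0 := ball_mem_nhds _ h1
  have u0 := graph_zero h1 h2 h3 hp
  have hu : ContDiffAt ℝ 2 u 0 := (h4.contDiffAt hb).of_le (by norm_cast)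
  have a0 := tendsto_jet0 ((h6 0).tendsto_at (mem_ball_self h1))
  have a1 := tendsto_jet1 ((h6 1).tendsto_at (mem_ball_self h1))
  have a2 := tendsto_jet2 ((h6 2).tendsto_at (mem_ball_self h1))
  have a3 : Tendsto (fun i => lin Q (-gradient (v i) 0, 1)) atTop (𝓝 (lin Q (-gradient u 0, 1))) :=
    ((lin Q).continuous.tendsto _).comp
      (((dual.continuous.tendsto _).comp a1).neg.prodMk_nhds tendsto_const_nhds)
  have a4 : Tendsto (fun i => pt Q p 0 (v i 0)) atTop (𝓝 (pt Q p 0 (u 0))) :=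
    (((contDiff_pt (k := 0)).continuous.comp (Continuous.prodMk_right (0 : E2))).tendsto _).comp a0
  have a5 := (contDiff_gj.continuous.tendsto _).comp (a1.prodMk_nhds a2)
  have a6 := ((a5.const_mul (-2)).sub (a4.inner (𝕜 := ℝ) a3)).div_atTop hR
  have a7 : ⟪e, lin Q (-gradient u 0, 1)⟫ = 0 := by
    refine tendsto_nhds_unique (tendsto_const_nhds.inner a3) (a6.congr' ?_)
    filter_upwards [h5, hR.eventually_gt_atTop 0] with i hi hRi
    have hv : ContDiffAt ℝ 2 (v i) 0 := (hi.2.contDiffAt hb).of_le (by norm_cast)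
    obtain ⟨σ, hσ, b1, b2, -⟩ := graph.geom _ (isSurf_aff (b := R i • e) hW.toIsSurf one_ne_zero)
      Q p (v i) 0 hv (eventually_of_mem hb fun ζ hζ => (aff_eq_zero one_ne_zero _).2 (by
        simpa using graph_mem hi.1 (mem_ball_zero_iff.1 hζ)))
    rw [gradient_aff (surf_diff hW.toIsSurf) one_ne_zero] at b1
    rw [lap_aff hW.toIsSurf one_ne_zero] at b2
    simp only [inv_one, one_smul, one_mul] at b1 b2
    rw [hW.eqn _ (graph_mem hi.1 (ξ := 0) (by simpa)), b1, inner_smul_right, inner_add_left,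
      inner_smul_left, gmc_eq hv] at b2
    have b3 : 0 < √(1 + ‖gradient (v i) 0‖ ^ 2) := Real.sqrt_pos.2 (by positivity)
    have b4 : σ ≠ 0 := by rcases hσ with rfl | rfl <;> norm_num
    rw [div_eq_iff hRi.ne']
    simp only [conj_trivial] at b2
    field_simp at b2
    simp only [Function.comp_apply, lin_apply, PiLp.neg_apply]
    linarith
  obtain ⟨σ, -, b1, -⟩ := graph.geom _ hW' Q p u 0 hu
    (eventually_of_mem hb fun ζ hζ => graph_mem h3 (mem_ball_zero_iff.1 hζ))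
  rw [u0, pt_zero] at b1
  rw [b1, inner_smul_right]
  exact mul_eq_zero_of_right _ a7

lemma resc_zero {s : ℝ} (hs : 0 < s) :
    {x | resc (sf W e) s (-1) x = 0} = {x | W (x + s⁻¹ • e) = 0} := by
  simp only [resc_sf hs, sf_neg_one]

/-- the possible limits -/
def Model (e : E3) (S : Set E3) : Prop :=
  S = ∅ ∨ (∃ n : E3, ‖n‖ = 1 ∧ S = {x | ⟪x, n⟫ = 0}) ∨ S = cylS e

lemma classify₀ (H : Hyp) (h : Sh W A C) (he : ‖e‖ = 1) {s : ℕ → ℝ} {ν : Measure E3}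
    (hs : TanSeq (sf W e) s ν) (hZ : Zset ν = ∅) : ∃ S, ν = (μHE[2] : Measure E3).restrict S ∧
      SmoothConv (fun i => {x | W (x + (s i)⁻¹ • e) = 0}) S ∧ Model e S := by
  obtain ⟨W', h1, h2, -, h3⟩ := H.lim _ (-1) A C (by norm_num) (h.good e _) s ν hs hZ
  simp only [resc_zero (hs.pos _)] at h3
  have h4 : Tendsto (fun i => (s i)⁻¹) atTop atTop :=
    tendsto_inv_nhdsGT_zero.comp (tendsto_nhdsWithin_iff.2 ⟨hs.lim, Eventually.of_forall hs.pos⟩)
  refine ⟨_, h2.symm, h3, ?_⟩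
  rcases H.al W' h1 e he (split h.shr h4 h1.toIsSurf h3) with h5 | ⟨n, h5, -, h6⟩ | h5
  · exact Or.inl h5
  · exact Or.inr (Or.inl ⟨n, h5, h6⟩)
  · exact Or.inr (Or.inr h5)

lemma gd_plane (H : Hyp) {n : E3} (hn : ‖n‖ = 1) (x : E3) {r : ℝ} (hr : 0 < r) :
    gd ((μHE[2] : Measure E3).restrict {z | ⟪z, n⟫ = 0}) x r
      = Real.exp (-⟪x, n⟫ ^ 2 / (4 * r ^ 2)) := by
  simpa using ((H.cyl n hn).2.2 x r 0 hr).1

lemma classify (H : Hyp) (h : Sh W A C) (he : ‖e‖ = 1) {s : ℕ → ℝ} {ν : Measure E3}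
    (hs : TanSeq (sf W e) s ν) : ∃ S, ν = (μHE[2] : Measure E3).restrict S ∧
      SmoothConv (fun i => {x | W (x + (s i)⁻¹ • e) = 0}) S ∧ Model e S := by
  have hg := h.good e (-1)
  obtain ⟨s', ν', h1, h2⟩ := H.m1 _ (-1) A C (by norm_num) hg
  obtain ⟨S, h3, -, h4⟩ := classify₀ H h he h1 (H.dens _ (-1) A C (by norm_num) hg s' ν' h1 h2)
  refine classify₀ H h he hs (H.low _ (-1) A C (by norm_num) hg s ν hs ?_)
  rw [H.tan.dens _ (-1) A (by norm_num) hg.toIsARFlow s ν s' ν' hs h1, h3]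
  rcases h4 with rfl | ⟨n, h5, rfl⟩ | rfl
  · simp [gd]
  · rw [gd_plane H h5 0 one_pos]
    norm_num
  · exact (H.cyl e he).1

/-- the cylindrical directions -/
def cylDir (W : E3 → ℝ) : Set E3 :=
  {e | ‖e‖ = 1 ∧ ∀ s ν, TanSeq (sf W e) s ν → 1 < gd ν 0 1}

lemma eq_cyl (H : Hyp) (h : Sh W A C) (he : e ∈ cylDir W) {s : ℕ → ℝ} {ν : Measure E3}
    (hs : TanSeq (sf W e) s ν) : ν = (μHE[2] : Measure E3).restrict (cylS e) ∧
      SmoothConv (fun i => {x | W (x + (s i)⁻¹ • e) = 0}) (cylS e) := by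
  obtain ⟨S, h1, h2, h3⟩ := classify H h he.1 hs
  have h4 := he.2 s ν hs
  rw [h1] at h4
  rcases h3 with rfl | ⟨n, h5, rfl⟩ | rfl
  · norm_num [gd] at h4
  · rw [gd_plane H h5 0 one_pos] at h4
    norm_num at h4
  · exact ⟨h1, h2⟩

lemma tanSeq_cyl (H : Hyp) (h : Sh W A C) (he : e ∈ cylDir W) {s : ℕ → ℝ} (h0 : ∀ i, 0 < s i)
    (h1 : Tendsto s atTop (𝓝 0)) :
    TanSeq (sf W e) s ((μHE[2] : Measure E3).restrict (cylS e)) := by
  have hg := (h.good e (-1)).toIsARFlow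
  have h2 (ns : ℕ → ℕ) (hn : Tendsto ns atTop atTop) : ∃ φ : ℕ → ℕ,
      TanSeq (sf W e) ((s ∘ ns) ∘ φ) ((μHE[2] : Measure E3).restrict (cylS e)) := by
    obtain ⟨φ, ν, -, h3⟩ := H.tan.compact _ (-1) A (by norm_num) hg (s ∘ ns) (fun _ => h0 _)
      (h1.comp hn)
    exact ⟨φ, (eq_cyl H h he h3).1 ▸ h3⟩
  refine ⟨h0, h1, (h2 id tendsto_id).choose_spec.locFin, fun f hf hf' => ?_⟩
  refine tendsto_of_subseq_tendsto fun ns hn => ?_
  obtain ⟨φ, h3⟩ := h2 ns hn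
  exact ⟨φ, h3.weak f hf hf'⟩

/-- translates in a cylindrical direction converge to the cylinder -/
theorem conv_cyl (H : Hyp) (h : Sh W A C) (he : e ∈ cylDir W) {R : ℕ → ℝ}
    (hR : Tendsto R atTop atTop) : SmoothConv (fun i => {x | W (x + R i • e) = 0}) (cylS e) := by
  have h1 : Tendsto (fun i => (max (R i) 1)⁻¹) atTop (𝓝 0) :=
    tendsto_inv_atTop_zero.comp (tendsto_atTop_mono (fun i => le_max_left _ _) hR)
  refine conv_congr (eq_cyl H h he (tanSeq_cyl H h he (fun i => ?_) h1)).2 ?_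
  · exact inv_pos.2 (one_pos.trans_le (le_max_right _ _))
  · filter_upwards [hR.eventually_ge_atTop 1] with i hi
    rw [inv_inv, max_eq_left hi]

/-- in the other directions some tangent flow is at most a plane -/
theorem exists_flat (H : Hyp) (h : Sh W A C) (he : ‖e‖ = 1) (he' : e ∉ cylDir W) :
    ∃ (s : ℕ → ℝ) (ν : Measure E3) (n : E3), TanSeq (sf W e) s ν ∧ ‖n‖ = 1 ∧
      ∀ x r, 0 < r → gd ν x r ≤ Real.exp (-⟪x, n⟫ ^ 2 / (4 * r ^ 2)) := by
  have h1 : ∃ s ν, TanSeq (sf W e) s ν ∧ gd ν 0 1 ≤ 1 := by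
    by_contra h1
    push Not at h1
    exact he' ⟨he, h1⟩
  obtain ⟨s, ν, h1, h2⟩ := h1
  obtain ⟨S, rfl, -, h3⟩ := classify H h he h1
  rcases h3 with rfl | ⟨n, h5, rfl⟩ | rfl
  · exact ⟨s, _, e, h1, he, fun x r _ => by simpa [gd] using (Real.exp_pos _).le⟩
  · exact ⟨s, _, n, h1, h5, fun x r hr => (gd_plane H h5 x hr).le⟩
  · exact absurd (H.cyl e he).2.1 (not_lt.2 h2)

end Vale.Agent.P218UX
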